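import Crest.Agent.R167.Iface

set_option autoImplicit false
set_option linter.unusedSectionVars false
set_option linter.unusedSimpArgs false
open MeasureTheory Crest.ProbabilityR.SpinModel

/-! # Row 167, node BARE: explicit derivatives of the interaction along rotation flows -/

namespace Crest.Agent.R167

variable {ι E : Type} [Fintype ι] [Fintype E] {n : ℕ}

section Bare

theorem bare_cont_coord (v : ι) (i : Fin n) :
    Continuous fun s : Cf ι n => (s v : EuclideanSpace ℝ (Fin n)) i := by
  have h1 : Continuous fun s : Cf ι n => (s v : EuclideanSpace ℝ (Fin n)) :=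
    continuous_subtype_val.comp (continuous_apply v)
  exact (EuclideanSpace.proj (𝕜 := ℝ) i).continuous.comp h1

theorem bare_Flow_coord {k l : Fin n} (h : k ≠ l) (f : ι → ℝ) (t : ℝ) (s : Cf ι n) (v : ι)
    (i : Fin n) : (Flow h f t s v : EuclideanSpace ℝ (Fin n)) i =
      if i = k then Real.cos (t * f v) * (s v : EuclideanSpace ℝ (Fin n)) k -
        Real.sin (t * f v) * (s v : EuclideanSpace ℝ (Fin n)) l
      else if i = l then Real.sin (t * f v) * (s v : EuclideanSpace ℝ (Fin n)) k +
        Real.cos (t * f v) * (s v : EuclideanSpace ℝ (Fin n)) l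
      else (s v : EuclideanSpace ℝ (Fin n)) i := by
  simp only [Flow, rotS, rotV]

theorem bare_Flow_zero {k l : Fin n} (h : k ≠ l) (f : ι → ℝ) (s : Cf ι n) :
    Flow h f 0 s = s := by
  funext v
  apply Subtype.ext
  ext i
  rw [bare_Flow_coord]
  by_cases hk : i = k
  · subst hk; simp
  · by_cases hl : i = l
    · subst hl; simp [hk]
    · simp [hk, hl]

/-- derivative of a coordinate along the flow -/
theorem bare_deriv_coord {k l : Fin n} (h : k ≠ l) (f : ι → ℝ) (s : Cf ι n) (v : ι) (i : Fin n) :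
    HasDerivAt (fun t => (Flow h f t s v : EuclideanSpace ℝ (Fin n)) i)
      (if i = k then -(f v * (s v : EuclideanSpace ℝ (Fin n)) l)
      else if i = l then f v * (s v : EuclideanSpace ℝ (Fin n)) k else 0) 0 := by
  have hlin : HasDerivAt (fun t : ℝ => t * f v) (f v) 0 := by
    simpa using (hasDerivAt_id (0 : ℝ)).mul_const (f v)
  have hc : HasDerivAt (fun t : ℝ => Real.cos (t * f v)) 0 0 := by
    have := hlin.cos
    simpa using this
  have hs : HasDerivAt (fun t : ℝ => Real.sin (t * f v)) (f v) 0 := by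
    have := hlin.sin
    simpa using this
  by_cases hk : i = k
  · subst hk
    simp only [bare_Flow_coord, if_true]
    have := (hc.mul_const ((s v : EuclideanSpace ℝ (Fin n)) i)).fun_sub
      (hs.mul_const ((s v : EuclideanSpace ℝ (Fin n)) l))
    exact this.congr_deriv (by ring)
  · by_cases hl : i = l
    · subst hl
      simp only [bare_Flow_coord, hk, if_true, if_false]
      have := (hs.mul_const ((s v : EuclideanSpace ℝ (Fin n)) k)).fun_add
        (hc.mul_const ((s v : EuclideanSpace ℝ (Fin n)) i))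
      exact this.congr_deriv (by ring)
    · simp only [bare_Flow_coord, hk, hl, if_false]
      exact hasDerivAt_const _ _

theorem bare_inner (x y : EuclideanSpace ℝ (Fin n)) : inner ℝ x y = ∑ i, x i * y i := by
  rw [PiLp.inner_apply]
  refine Finset.sum_congr rfl fun i _ => ?_
  simp [mul_comm]

/-- derivative of a product of two coordinates -/
theorem bare_deriv_mul {k l : Fin n} (h : k ≠ l) (f : ι → ℝ) (s : Cf ι n) (u v : ι)
    (i j : Fin n) :
    HasDerivAt (fun t => (Flow h f t s u : EuclideanSpace ℝ (Fin n)) i *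
        (Flow h f t s v : EuclideanSpace ℝ (Fin n)) j)
      ((if i = k then -(f u * (s u : EuclideanSpace ℝ (Fin n)) l)
        else if i = l then f u * (s u : EuclideanSpace ℝ (Fin n)) k else 0) *
          (s v : EuclideanSpace ℝ (Fin n)) j +
        (s u : EuclideanSpace ℝ (Fin n)) i *
        (if j = k then -(f v * (s v : EuclideanSpace ℝ (Fin n)) l)
        else if j = l then f v * (s v : EuclideanSpace ℝ (Fin n)) k else 0)) 0 := by
  have := (bare_deriv_coord h f s u i).fun_mul (bare_deriv_coord h f s v j)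
  simp only [bare_Flow_zero] at this
  exact this

theorem bare_cont_mul (u v : ι) (i j : Fin n) :
    Continuous fun s : Cf ι n => (s u : EuclideanSpace ℝ (Fin n)) i *
      (s v : EuclideanSpace ℝ (Fin n)) j :=
  (bare_cont_coord u i).mul (bare_cont_coord v j)

theorem bare_cont_cur (k l : Fin n) (u v : ι) :
    Continuous fun s : Cf ι n => cur k l (s u) (s v) := by
  unfold cur
  exact (bare_cont_mul u v l k).sub (bare_cont_mul u v k l)

theorem bare_continuous_XI (G : Gr ι E) (k l : Fin n) (f : ι → ℝ) :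
    Continuous (XI G k l f : Cf ι n → ℝ) := by
  unfold XI
  exact continuous_finsetSum _ fun e _ => continuous_const.mul (bare_cont_cur k l _ _)

variable (G : Gr ι E) {k l m : Fin n}

theorem DX_I (h : k ≠ l) (f : ι → ℝ) : DX h f (G.I : Cf ι n → ℝ) (XI G k l f) := by
  refine ⟨?_, bare_continuous_XI G k l f, fun s => ?_⟩
  · unfold Gr.I
    refine continuous_finsetSum _ fun e _ => continuous_const.mul ?_
    simp only [bare_inner]
    exact continuous_finsetSum _ fun i _ => bare_cont_mul _ _ i i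
  · unfold Gr.I XI
    refine HasDerivAt.fun_sum fun e _ => ?_
    have key : HasDerivAt (fun t => inner ℝ
        (Flow h f t s (G.src e) : EuclideanSpace ℝ (Fin n)) (Flow h f t s (G.tgt e)))
        ((f (G.tgt e) - f (G.src e)) * cur k l (s (G.src e)) (s (G.tgt e))) 0 := by
      simp only [bare_inner]
      have h1 := HasDerivAt.fun_sum (u := Finset.univ) fun (i : Fin n) _ =>
        bare_deriv_mul h f s (G.src e) (G.tgt e) i i
      refine h1.congr_deriv ?_
      have hl : l ∈ (Finset.univ.erase k : Finset (Fin n)) := by simp [Ne.symm h]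
      rw [← Finset.add_sum_erase _ _ (Finset.mem_univ k), ← Finset.add_sum_erase _ _ hl,
        Finset.sum_eq_zero]
      · simp only [if_true, Ne.symm h, if_false, cur]
        ring
      · intro i hi
        have h1 : i ≠ l := Finset.ne_of_mem_erase hi
        have h2 : i ≠ k := Finset.ne_of_mem_erase (Finset.mem_of_mem_erase hi)
        simp [h1, h2]
    exact (key.const_mul (G.b e)).congr_deriv (by ring)

/-- derivative of `XI` along a flow, edge by edge -/
theorem bare_deriv_XI {a c : Fin n} (h : a ≠ c) (k l : Fin n) (p ψ : ι → ℝ)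
    (D : Cf ι n → E → ℝ)
    (hD : ∀ s e, HasDerivAt (fun t => cur k l
      (Flow h p t s (G.src e) : EuclideanSpace ℝ (Fin n)) (Flow h p t s (G.tgt e))) (D s e) 0)
    (hc : ∀ e, Continuous fun s => D s e) :
    DX h p (XI G k l ψ : Cf ι n → ℝ)
      (fun s => ∑ e, G.b e * (ψ (G.tgt e) - ψ (G.src e)) * D s e) := by
  refine ⟨bare_continuous_XI G k l ψ, continuous_finsetSum _ fun e _ => continuous_const.mul (hc e),
    fun s => ?_⟩
  unfold XI
  exact HasDerivAt.fun_sum fun e _ => (hD s e).const_mul _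

theorem DX_XI_A (hkl : k ≠ l) (hlm : l ≠ m) (hmk : m ≠ k) (p ψ : ι → ℝ) :
    DX hlm p (XI G k l ψ : Cf ι n → ℝ) (XXA G k m p ψ) := by
  have := bare_deriv_XI G hlm k l p ψ (fun s e =>
    (p (G.src e) * cur m k (s (G.src e)) (s (G.tgt e)) + (p (G.tgt e) - p (G.src e)) *
      ((s (G.src e) : EuclideanSpace ℝ (Fin n)) k * (s (G.tgt e) : EuclideanSpace ℝ (Fin n)) m)))
    (fun s e => ?_) (fun e => ?_)
  · exact this
  · have h1 := (bare_deriv_mul hlm p s (G.src e) (G.tgt e) l k).fun_sub
      (bare_deriv_mul hlm p s (G.src e) (G.tgt e) k l)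
    unfold cur
    refine h1.congr_deriv ?_
    simp only [if_true, hkl, hmk.symm, if_false]
    ring
  · exact (continuous_const.mul (bare_cont_cur m k _ _)).add
      (continuous_const.mul (bare_cont_mul _ _ k m))

theorem DX_XI_B (hkl : k ≠ l) (hlm : l ≠ m) (hmk : m ≠ k) (p ψ : ι → ℝ) :
    DX hmk p (XI G k l ψ : Cf ι n → ℝ) (XXB G l m p ψ) := by
  have := bare_deriv_XI G hmk k l p ψ (fun s e =>
    (-(p (G.src e) * cur l m (s (G.src e)) (s (G.tgt e))) + (p (G.tgt e) - p (G.src e)) *
      ((s (G.src e) : EuclideanSpace ℝ (Fin n)) l * (s (G.tgt e) : EuclideanSpace ℝ (Fin n)) m)))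
    (fun s e => ?_) (fun e => ?_)
  · exact this
  · have h1 := (bare_deriv_mul hmk p s (G.src e) (G.tgt e) l k).fun_sub
      (bare_deriv_mul hmk p s (G.src e) (G.tgt e) k l)
    unfold cur
    refine h1.congr_deriv ?_
    simp only [if_true, hkl.symm, hmk.symm, hlm, if_false]
    ring
  · exact ((continuous_const.mul (bare_cont_cur l m _ _)).neg).add
      (continuous_const.mul (bare_cont_mul _ _ l m))

/-- (b3) -/
theorem commutator (hkl : k ≠ l) (hlm : l ≠ m) (hmk : m ≠ k) (p : ι → ℝ) :
    ∃ FA FB : Cf ι n → ℝ, DX hlm p (XI G m k p) FA ∧ DX hmk p (XI G l m p) FB ∧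
      ∀ s, FA s - FB s = - XI G k l (fun v => p v ^ 2) s := by
  refine ⟨_, _, bare_deriv_XI G hlm m k p p (fun s e =>
      p (G.tgt e) * ((s (G.src e) : EuclideanSpace ℝ (Fin n)) k *
        (s (G.tgt e) : EuclideanSpace ℝ (Fin n)) l) -
      p (G.src e) * ((s (G.src e) : EuclideanSpace ℝ (Fin n)) l *
        (s (G.tgt e) : EuclideanSpace ℝ (Fin n)) k)) (fun s e => ?_) (fun e => ?_),
    bare_deriv_XI G hmk l m p p (fun s e =>
      p (G.tgt e) * ((s (G.src e) : EuclideanSpace ℝ (Fin n)) l *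
        (s (G.tgt e) : EuclideanSpace ℝ (Fin n)) k) -
      p (G.src e) * ((s (G.src e) : EuclideanSpace ℝ (Fin n)) k *
        (s (G.tgt e) : EuclideanSpace ℝ (Fin n)) l)) (fun s e => ?_) (fun e => ?_), fun s => ?_⟩
  · have h1 := (bare_deriv_mul hlm p s (G.src e) (G.tgt e) k m).fun_sub
      (bare_deriv_mul hlm p s (G.src e) (G.tgt e) m k)
    unfold cur
    refine h1.congr_deriv ?_
    simp only [if_true, hkl, hmk.symm, hlm.symm, if_false]
    ring
  · exact (continuous_const.mul (bare_cont_mul _ _ k l)).sub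
      (continuous_const.mul (bare_cont_mul _ _ l k))
  · have h1 := (bare_deriv_mul hmk p s (G.src e) (G.tgt e) m l).fun_sub
      (bare_deriv_mul hmk p s (G.src e) (G.tgt e) l m)
    unfold cur
    refine h1.congr_deriv ?_
    simp only [if_true, hkl.symm, hlm, if_false]
    ring
  · exact (continuous_const.mul (bare_cont_mul _ _ l k)).sub
      (continuous_const.mul (bare_cont_mul _ _ k l))
  · unfold XI
    rw [← Finset.sum_sub_distrib, ← Finset.sum_neg_distrib]
    refine Finset.sum_congr rfl fun e _ => ?_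
    unfold cur
    ring

/-- two coordinates of unit vectors -/
theorem bare_two_coord (h : k ≠ l) (x y : Sp n) :
    |(x : EuclideanSpace ℝ (Fin n)) k * (y : EuclideanSpace ℝ (Fin n)) k +
      (x : EuclideanSpace ℝ (Fin n)) l * (y : EuclideanSpace ℝ (Fin n)) l| ≤ 1 := by
  have key : ∀ z : Sp n, (z : EuclideanSpace ℝ (Fin n)) k ^ 2 +
      (z : EuclideanSpace ℝ (Fin n)) l ^ 2 ≤ 1 := by
    intro z
    have h1 : ‖(z : EuclideanSpace ℝ (Fin n))‖ = 1 := by simp
    have h2 : ∑ i, ‖(z : EuclideanSpace ℝ (Fin n)) i‖ ^ 2 = 1 := by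
      rw [← EuclideanSpace.norm_sq_eq, h1]; norm_num
    have h3 : ∑ i ∈ ({k, l} : Finset (Fin n)), ‖(z : EuclideanSpace ℝ (Fin n)) i‖ ^ 2 ≤
        ∑ i, ‖(z : EuclideanSpace ℝ (Fin n)) i‖ ^ 2 :=
      Finset.sum_le_sum_of_subset_of_nonneg (Finset.subset_univ _) fun i _ _ => sq_nonneg _
    rw [Finset.sum_pair h, h2] at h3
    simpa [Real.norm_eq_abs, sq_abs] using h3
  have hx := key x
  have hy := key y
  rw [abs_le]
  constructor <;>
  nlinarith [sq_nonneg ((x : EuclideanSpace ℝ (Fin n)) k + (y : EuclideanSpace ℝ (Fin n)) k),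
    sq_nonneg ((x : EuclideanSpace ℝ (Fin n)) l + (y : EuclideanSpace ℝ (Fin n)) l),
    sq_nonneg ((x : EuclideanSpace ℝ (Fin n)) k - (y : EuclideanSpace ℝ (Fin n)) k),
    sq_nonneg ((x : EuclideanSpace ℝ (Fin n)) l - (y : EuclideanSpace ℝ (Fin n)) l)]

/-- (b4) -/
theorem DX_XI_C (hb : ∀ e, 0 ≤ G.b e) (h : k ≠ l) (f : ι → ℝ) :
    ∃ FC : Cf ι n → ℝ, DX h f (XI G k l f) FC ∧ ∀ s, |FC s| ≤ G.En f := by
  refine ⟨_, bare_deriv_XI G h k l f f (fun s e =>
      -((f (G.tgt e) - f (G.src e)) * ((s (G.src e) : EuclideanSpace ℝ (Fin n)) k *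
        (s (G.tgt e) : EuclideanSpace ℝ (Fin n)) k + (s (G.src e) : EuclideanSpace ℝ (Fin n)) l *
        (s (G.tgt e) : EuclideanSpace ℝ (Fin n)) l))) (fun s e => ?_) (fun e => ?_), fun s => ?_⟩
  · have h1 := (bare_deriv_mul h f s (G.src e) (G.tgt e) l k).fun_sub
      (bare_deriv_mul h f s (G.src e) (G.tgt e) k l)
    unfold cur
    refine h1.congr_deriv ?_
    simp only [if_true, h.symm, if_false]
    ring
  · exact (continuous_const.mul ((bare_cont_mul _ _ k k).add (bare_cont_mul _ _ l l))).neg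
  · unfold Gr.En
    refine (Finset.abs_sum_le_sum_abs _ _).trans (Finset.sum_le_sum fun e _ => ?_)
    have h1 := bare_two_coord h (s (G.src e)) (s (G.tgt e))
    have h2 : G.b e * (f (G.tgt e) - f (G.src e)) *
        -((f (G.tgt e) - f (G.src e)) * ((s (G.src e) : EuclideanSpace ℝ (Fin n)) k *
        (s (G.tgt e) : EuclideanSpace ℝ (Fin n)) k + (s (G.src e) : EuclideanSpace ℝ (Fin n)) l *
        (s (G.tgt e) : EuclideanSpace ℝ (Fin n)) l)) =
        -((G.b e * (f (G.tgt e) - f (G.src e)) ^ 2) *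
        ((s (G.src e) : EuclideanSpace ℝ (Fin n)) k *
        (s (G.tgt e) : EuclideanSpace ℝ (Fin n)) k + (s (G.src e) : EuclideanSpace ℝ (Fin n)) l *
        (s (G.tgt e) : EuclideanSpace ℝ (Fin n)) l)) := by ring
    have h3 : 0 ≤ G.b e * (f (G.tgt e) - f (G.src e)) ^ 2 := mul_nonneg (hb e) (sq_nonneg _)
    rw [h2, abs_neg, abs_mul, abs_of_nonneg h3]
    exact mul_le_of_le_one_right h3 h1

end Bare

end Crest.Agent.R167
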