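import Crest.Agent.R167.Defs

set_option autoImplicit false
open MeasureTheory Crest.ProbabilityR.SpinModel

/-!
# Row 167: operator calculus of `P`
-/

namespace Crest.Agent.R167

set_option linter.unusedSectionVars false
set_option linter.style.haveILetI false

variable {ι E : Type} [Fintype ι] [Fintype E] {n : ℕ}

/-! ### continuity helpers (pointwise forms) -/

lemma c_mul {Y : Type*} [TopologicalSpace Y] {F H : Y → ℝ} (hF : Continuous F)
    (hH : Continuous H) : Continuous fun s => F s * H s := hF.mul hH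

lemma c_add {Y : Type*} [TopologicalSpace Y] {F H : Y → ℝ} (hF : Continuous F)
    (hH : Continuous H) : Continuous fun s => F s + H s := hF.add hH

lemma c_sub {Y : Type*} [TopologicalSpace Y] {F H : Y → ℝ} (hF : Continuous F)
    (hH : Continuous H) : Continuous fun s => F s - H s := hF.sub hH

lemma c_neg {Y : Type*} [TopologicalSpace Y] {F : Y → ℝ} (hF : Continuous F) :
    Continuous fun s => - F s := hF.neg

lemma c_sq {Y : Type*} [TopologicalSpace Y] {F : Y → ℝ} (hF : Continuous F) :
    Continuous fun s => F s ^ 2 := hF.pow 2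

lemma c_smul {Y : Type*} [TopologicalSpace Y] {F : Y → ℝ} (c : ℝ) (hF : Continuous F) :
    Continuous fun s => c * F s := hF.const_mul c

/-! ### the uniform measure -/

instance unif_prob [NeZero n] : IsProbabilityMeasure (unif n) := by
  constructor
  haveI : Nontrivial (EuclideanSpace ℝ (Fin n)) := by
    haveI : Nonempty (Fin n) := ⟨⟨0, Nat.pos_of_ne_zero (NeZero.ne n)⟩⟩
    infer_instance
  unfold unif
  rw [Measure.smul_apply, smul_eq_mul]
  have h0 : (volume : Measure (EuclideanSpace ℝ (Fin n))).toSphere Set.univ ≠ 0 := by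
    intro h
    rw [Measure.toSphere_apply_univ] at h
    have hb : (volume : Measure (EuclideanSpace ℝ (Fin n))) (Metric.ball 0 1) ≠ 0 :=
      (Metric.measure_ball_pos volume 0 one_pos).ne'
    have hd : Module.finrank ℝ (EuclideanSpace ℝ (Fin n)) ≠ 0 := by
      simp [NeZero.ne n]
    rcases mul_eq_zero.mp h with h | h
    · exact hd (by exact_mod_cast h)
    · exact hb h
  exact ENNReal.inv_mul_cancel h0 (measure_ne_top _ _)

instance nu_prob [NeZero n] : IsProbabilityMeasure (nu ι n) := by
  unfold nu; infer_instance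

/-! ### gluing -/

@[simp] lemma glue_mem {A : Set ι} {v : ι} (h : v ∈ A) (s s' : Cf ι n) : glue A s s' v = s v := by
  simp [glue, h]

@[simp] lemma glue_not_mem {A : Set ι} {v : ι} (h : v ∉ A) (s s' : Cf ι n) :
    glue A s s' v = s' v := by
  simp [glue, h]

lemma Dep.glue {A : Set ι} {F : Cf ι n → ℝ} (h : Dep A F) (s s' : Cf ι n) :
    F (glue A s s') = F s := h _ _ fun _ hv => glue_mem hv s s'

lemma Dep.mono {A B : Set ι} {F : Cf ι n → ℝ} (h : Dep A F) (hAB : A ⊆ B) : Dep B F :=
  fun s t hst => h s t fun v hv => hst v (hAB hv)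

lemma Dep.mul {A : Set ι} {F H : Cf ι n → ℝ} (hF : Dep A F) (hH : Dep A H) :
    Dep A (fun s => F s * H s) := fun s t h => by
  simp only [hF s t h, hH s t h]

lemma Dep.add {A : Set ι} {F H : Cf ι n → ℝ} (hF : Dep A F) (hH : Dep A H) :
    Dep A (fun s => F s + H s) := fun s t h => by
  simp only [hF s t h, hH s t h]

lemma Dep.sub {A : Set ι} {F H : Cf ι n → ℝ} (hF : Dep A F) (hH : Dep A H) :
    Dep A (fun s => F s - H s) := fun s t h => by
  simp only [hF s t h, hH s t h]

lemma Dep.univ (F : Cf ι n → ℝ) : Dep Set.univ F := fun s t h => by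
  rw [show s = t from funext fun v => h v trivial]

lemma Dep.const (A : Set ι) (c : ℝ) : Dep A (fun _ : Cf ι n => c) := fun _ _ _ => rfl

lemma Dep.comp {A : Set ι} {F : Cf ι n → ℝ} (hF : Dep A F) (φ : ℝ → ℝ) :
    Dep A (fun s => φ (F s)) := fun s t h => by
  simp only [hF s t h]

lemma continuous_glue (A : Set ι) : Continuous fun p : Cf ι n × Cf ι n => glue A p.1 p.2 := by
  refine continuous_pi fun v => ?_
  by_cases hv : v ∈ A
  · simp only [glue_mem hv]
    exact (continuous_apply v).comp continuous_fst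
  · simp only [glue_not_mem hv]
    exact (continuous_apply v).comp continuous_snd

lemma continuous_glue_right (A : Set ι) (s : Cf ι n) : Continuous fun s' => glue A s s' :=
  (continuous_glue A).comp (Continuous.prodMk_right s)

lemma continuous_glue_left (A : Set ι) (s' : Cf ι n) : Continuous fun s => glue A s s' :=
  (continuous_glue A).comp (Continuous.prodMk_left s')

lemma glue_glue {A B : Set ι} (h : A ⊆ B) (s s' s'' : Cf ι n) :
    glue B (glue A s s') s'' = glue A s (glue B s' s'') := by
  funext v
  by_cases hA : v ∈ A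
  · simp [hA, h hA]
  · by_cases hB : v ∈ B
    · simp [hA, hB]
    · simp [hA, hB]

lemma glue_glue_left {A B : Set ι} (h : A ⊆ B) (s s' s'' : Cf ι n) :
    glue A (glue B s s') s'' = glue A s s'' := by
  funext v
  by_cases hA : v ∈ A
  · simp [hA, h hA]
  · simp [hA]

lemma glue_self (A : Set ι) (s : Cf ι n) : glue A s s = s := by
  funext v
  by_cases hA : v ∈ A <;> simp [hA]

/-- resampling the spins off `A` does not change the product law. -/
lemma mp_glue [NeZero n] (A : Set ι) :
    MeasurePreserving (fun p : Cf ι n × Cf ι n => glue A p.1 p.2)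
      ((nu ι n).prod (nu ι n)) (nu ι n) := by
  refine ⟨(continuous_glue A).measurable, ?_⟩
  classical
  symm
  unfold nu
  refine Measure.pi_eq fun B hB => ?_
  rw [Measure.map_apply (continuous_glue A).measurable (MeasurableSet.univ_pi hB)]
  have hpre : (fun p : Cf ι n × Cf ι n => glue A p.1 p.2) ⁻¹' (Set.univ.pi B)
      = (Set.univ.pi fun v => if v ∈ A then B v else Set.univ) ×ˢ
        (Set.univ.pi fun v => if v ∈ A then Set.univ else B v) := by
    ext p
    simp only [Set.mem_preimage, Set.mem_pi, Set.mem_univ, true_implies, Set.mem_prod]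
    constructor
    · intro h
      refine ⟨fun v => ?_, fun v => ?_⟩
      · by_cases hv : v ∈ A
        · simpa [hv] using h v
        · simp [hv]
      · by_cases hv : v ∈ A
        · simp [hv]
        · simpa [hv] using h v
    · rintro ⟨h1, h2⟩ v
      by_cases hv : v ∈ A
      · simpa [hv] using h1 v
      · simpa [hv] using h2 v
  rw [hpre, Measure.prod_prod, Measure.pi_pi, Measure.pi_pi, ← Finset.prod_mul_distrib]
  refine Finset.prod_congr rfl fun v _ => ?_
  by_cases hv : v ∈ A <;> simp [hv]

/-! ### integrability of continuous functions -/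

lemma cont_bdd {F : Cf ι n → ℝ} (hF : Continuous F) : ∃ M : ℝ, 0 ≤ M ∧ ∀ s, |F s| ≤ M := by
  obtain ⟨M, hM⟩ := (isCompact_univ (X := Cf ι n)).exists_bound_of_continuousOn
    hF.continuousOn
  refine ⟨max M 0, le_max_right _ _, fun s => ?_⟩
  exact (hM s trivial).trans (le_max_left _ _)

lemma integrable_of_cont [NeZero n] {F : Cf ι n → ℝ} (hF : Continuous F) :
    Integrable F (nu ι n) := by
  obtain ⟨M, _, hM⟩ := cont_bdd hF
  exact Integrable.of_bound hF.aestronglyMeasurable M (Filter.Eventually.of_forall hM)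

lemma integrable_of_cont₂ [NeZero n] {F : Cf ι n × Cf ι n → ℝ} (hF : Continuous F) :
    Integrable F ((nu ι n).prod (nu ι n)) := by
  obtain ⟨M, hM⟩ := (isCompact_univ (X := Cf ι n × Cf ι n)).exists_bound_of_continuousOn
    hF.continuousOn
  exact Integrable.of_bound hF.aestronglyMeasurable M
    (Filter.Eventually.of_forall fun p => hM p trivial)

/-- `∫ F = ∫∫ F (glue A s s')`. -/
lemma integral_glue [NeZero n] (A : Set ι) {F : Cf ι n → ℝ} (hF : Continuous F) :
    ∫ s, F s ∂(nu ι n) = ∫ s, ∫ s', F (glue A s s') ∂(nu ι n) ∂(nu ι n) := by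
  rw [← (mp_glue (n := n) A).map_eq, integral_map (continuous_glue A).aemeasurable
    hF.aestronglyMeasurable]
  rw [(mp_glue (n := n) A).map_eq]
  exact integral_prod _ (integrable_of_cont₂ (hF.comp (continuous_glue A)))

/-- independence: functions of the spins in `D` and of those off `D`. -/
lemma integral_mul_dep [NeZero n] {D : Set ι} {F H : Cf ι n → ℝ} (hF : Continuous F)
    (hH : Continuous H) (dF : Dep D F) (dH : Dep Dᶜ H) :
    ∫ s, F s * H s ∂(nu ι n) = (∫ s, F s ∂(nu ι n)) * ∫ s, H s ∂(nu ι n) := by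
  rw [integral_glue D (c_mul hF hH)]
  have : ∀ s s' : Cf ι n, F (glue D s s') * H (glue D s s') = F s * H s' := by
    intro s s'
    rw [dF.glue]
    congr 1
    exact dH _ _ fun v hv => glue_not_mem hv s s'
  simp only [this]
  simp only [integral_const_mul, integral_mul_const]

/-! ### the weight -/

lemma continuous_inner_edge (u v : ι) :
    Continuous fun s : Cf ι n => (inner ℝ (s u : EuclideanSpace ℝ (Fin n)) (s v) : ℝ) :=
  (continuous_subtype_val.comp (continuous_apply u)).inner
    (continuous_subtype_val.comp (continuous_apply v))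

theorem continuous_I (G : Gr ι E) : Continuous (G.I : Cf ι n → ℝ) := by
  unfold Gr.I
  exact continuous_finsetSum _ fun e _ => (continuous_inner_edge _ _).const_mul _

lemma continuous_w (G : Gr ι E) : Continuous fun s : Cf ι n => Real.exp (G.I s) :=
  Real.continuous_exp.comp (continuous_I G)

lemma continuous_cur (k l : Fin n) (u v : ι) :
    Continuous fun s : Cf ι n => cur k l (s u) (s v) := by
  unfold cur
  have h : ∀ (u : ι) (i : Fin n),
      Continuous fun s : Cf ι n => (s u : EuclideanSpace ℝ (Fin n)) i := fun u i =>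
    (EuclideanSpace.proj (𝕜 := ℝ) i).continuous.comp
      (continuous_subtype_val.comp (continuous_apply u))
  exact ((h u l).mul (h v k)).sub ((h u k).mul (h v l))

theorem continuous_XI (G : Gr ι E) (k l : Fin n) (f : ι → ℝ) :
    Continuous (XI G k l f : Cf ι n → ℝ) := by
  unfold XI
  exact continuous_finsetSum _ fun e _ => (continuous_cur _ _ _ _).const_mul _

/-- the denominator of `P`. -/
noncomputable def Zf (G : Gr ι E) (A : Set ι) (s : Cf ι n) : ℝ :=
  ∫ s', Real.exp (G.I (glue A s s')) ∂(nu ι n)

/-- the numerator of `P`. -/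
noncomputable def Nf (G : Gr ι E) (A : Set ι) (F : Cf ι n → ℝ) (s : Cf ι n) : ℝ :=
  ∫ s', F (glue A s s') * Real.exp (G.I (glue A s s')) ∂(nu ι n)

lemma P_eq (G : Gr ι E) (A : Set ι) (F : Cf ι n → ℝ) (s : Cf ι n) :
    P G A F s = Nf G A F s / Zf G A s := rfl

lemma continuous_param [NeZero n] {F : Cf ι n × Cf ι n → ℝ} (hF : Continuous F) :
    Continuous fun s => ∫ s', F (s, s') ∂(nu ι n) := by
  obtain ⟨M, hM⟩ := (isCompact_univ (X := Cf ι n × Cf ι n)).exists_bound_of_continuousOn
    hF.continuousOn
  refine continuous_of_dominated (bound := fun _ => M)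
    (fun s => (hF.comp (Continuous.prodMk_right s)).aestronglyMeasurable)
    (fun s => Filter.Eventually.of_forall fun s' => hM (s, s') trivial)
    (integrable_const _)
    (Filter.Eventually.of_forall fun s' => hF.comp (Continuous.prodMk_left s'))

lemma Zf_pos [NeZero n] (G : Gr ι E) (A : Set ι) (s : Cf ι n) : 0 < Zf G A s := by
  unfold Zf
  obtain ⟨M, _, hM⟩ := cont_bdd (continuous_I (n := n) G)
  have h1 : ∀ s' : Cf ι n, Real.exp (-M) ≤ Real.exp (G.I (glue A s s')) := fun s' =>
    Real.exp_le_exp.mpr (abs_le.mp (hM _)).1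
  have h2 : Real.exp (-M) ≤ ∫ s', Real.exp (G.I (glue A s s')) ∂(nu ι n) := by
    calc Real.exp (-M) = ∫ _s' : Cf ι n, Real.exp (-M) ∂(nu ι n) := by simp
      _ ≤ _ := integral_mono (integrable_const _)
        (integrable_of_cont ((continuous_w G).comp (continuous_glue_right A s))) h1
  exact (Real.exp_pos _).trans_le h2

lemma continuous_Zf [NeZero n] (G : Gr ι E) (A : Set ι) : Continuous (Zf (n := n) G A) :=
  continuous_param ((continuous_w G).comp (continuous_glue A))

lemma continuous_Nf [NeZero n] (G : Gr ι E) (A : Set ι) {F : Cf ι n → ℝ} (hF : Continuous F) :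
    Continuous (Nf G A F) :=
  continuous_param ((hF.mul (continuous_w G)).comp (continuous_glue A))

lemma P_mul_Zf [NeZero n] (G : Gr ι E) (A : Set ι) (F : Cf ι n → ℝ) (s : Cf ι n) :
    P G A F s * Zf G A s = Nf G A F s := by
  rw [P_eq, div_mul_cancel₀ _ (Zf_pos G A s).ne']

lemma glue_congr_left {A : Set ι} {s t : Cf ι n} (h : ∀ v ∈ A, s v = t v) (s' : Cf ι n) :
    glue A s s' = glue A t s' := by
  funext v
  by_cases hv : v ∈ A
  · simp [hv, h v hv]
  · simp [hv]

lemma dep_Zf (G : Gr ι E) (A : Set ι) : Dep A (Zf (n := n) G A) := by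
  intro s t h
  unfold Zf
  simp only [glue_congr_left h]

lemma dep_Nf (G : Gr ι E) (A : Set ι) (F : Cf ι n → ℝ) : Dep A (Nf G A F) := by
  intro s t h
  unfold Nf
  simp only [glue_congr_left h]

lemma P_congr_glue (G : Gr ι E) (A : Set ι) {F H : Cf ι n → ℝ} (s : Cf ι n)
    (h : ∀ s', F (glue A s s') = H (glue A s s')) : P G A F s = P G A H s := by
  unfold P
  simp only [h]

/-! ### the API -/

section PCalc
variable [NeZero n] (G : Gr ι E) {A B : Set ι} {F H : Cf ι n → ℝ}

theorem continuous_P (hF : Continuous F) : Continuous (P G A F) :=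
  (continuous_Nf G A hF).div (continuous_Zf G A) fun s => (Zf_pos G A s).ne'

theorem dep_P (A : Set ι) (F : Cf ι n → ℝ) : Dep A (P G A F) := by
  intro s t h
  rw [P_eq, P_eq, dep_Nf G A F s t h, dep_Zf G A s t h]

theorem P_mul_dep (hd : Dep A F) (H : Cf ι n → ℝ) (s : Cf ι n) :
    P G A (fun s => F s * H s) s = F s * P G A H s := by
  unfold P
  simp only [hd.glue, mul_assoc, integral_const_mul, mul_div_assoc]

theorem P_dep_mul (hd : Dep A F) (H : Cf ι n → ℝ) (s : Cf ι n) :
    P G A (fun s => H s * F s) s = P G A H s * F s := by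
  simp only [mul_comm _ (F _)]
  exact P_mul_dep G hd H s

theorem P_const_mul (c : ℝ) (F : Cf ι n → ℝ) (s : Cf ι n) :
    P G A (fun s => c * F s) s = c * P G A F s :=
  P_mul_dep G (Dep.const A c) F s

theorem P_const (c : ℝ) (s : Cf ι n) : P G A (fun _ => c) s = c := by
  have := Zf_pos G A s
  unfold P
  rw [integral_const_mul]
  exact mul_div_cancel_right₀ _ this.ne'

theorem P_of_dep (hd : Dep A F) (s : Cf ι n) : P G A F s = F s := by
  have := P_mul_dep G hd (fun _ => 1) s
  simpa [P_const] using this

theorem P_add (hF : Continuous F) (hH : Continuous H) (s : Cf ι n) :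
    P G A (fun s => F s + H s) s = P G A F s + P G A H s := by
  unfold P
  simp only [add_mul]
  rw [integral_add, add_div]
  · exact integrable_of_cont ((hF.mul (continuous_w G)).comp (continuous_glue_right A s))
  · exact integrable_of_cont ((hH.mul (continuous_w G)).comp (continuous_glue_right A s))

theorem P_neg (F : Cf ι n → ℝ) (s : Cf ι n) :
    P G A (fun s => - F s) s = - P G A F s := by
  unfold P
  simp only [neg_mul, integral_neg, neg_div]

theorem P_sub (hF : Continuous F) (hH : Continuous H) (s : Cf ι n) :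
    P G A (fun s => F s - H s) s = P G A F s - P G A H s := by
  simp only [sub_eq_add_neg]
  rw [P_add G hF (c_neg hH), P_neg]

theorem P_sum {κ : Type} (T : Finset κ)
    {F : κ → Cf ι n → ℝ} (hF : ∀ i ∈ T, Continuous (F i)) (s : Cf ι n) :
    P G A (fun s => ∑ i ∈ T, F i s) s = ∑ i ∈ T, P G A (F i) s := by
  classical
  induction T using Finset.induction_on with
  | empty => simp [P_const]
  | insert a T ha ih =>
    simp only [Finset.sum_insert ha]
    rw [P_add G (hF a (Finset.mem_insert_self _ _))
      (continuous_finsetSum _ fun i hi => hF i (Finset.mem_insert_of_mem hi)),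
      ih fun i hi => hF i (Finset.mem_insert_of_mem hi)]

theorem P_mono (hF : Continuous F) (hH : Continuous H) (h : ∀ s, F s ≤ H s) (s : Cf ι n) :
    P G A F s ≤ P G A H s := by
  unfold P
  refine div_le_div_of_nonneg_right ?_ (Zf_pos G A s).le
  exact integral_mono
    (integrable_of_cont ((hF.mul (continuous_w G)).comp (continuous_glue_right A s)))
    (integrable_of_cont ((hH.mul (continuous_w G)).comp (continuous_glue_right A s)))
    fun s' => mul_le_mul_of_nonneg_right (h _) (Real.exp_pos _).le

theorem P_nonneg (h : ∀ s, 0 ≤ F s) (s : Cf ι n) : 0 ≤ P G A F s := by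
  unfold P
  exact div_nonneg (integral_nonneg fun s' => mul_nonneg (h _) (Real.exp_pos _).le)
    (Zf_pos G A s).le

theorem P_abs_le (hF : Continuous F) {M : ℝ} (h : ∀ s, |F s| ≤ M) (s : Cf ι n) :
    |P G A F s| ≤ M := by
  rw [abs_le]
  constructor
  · have := P_mono G (A := A) continuous_const hF (fun s => (abs_le.mp (h s)).1) s
    rwa [P_const] at this
  · have := P_mono G (A := A) hF continuous_const (fun s => (abs_le.mp (h s)).2) s
    rwa [P_const] at this

/-- tower property. -/
theorem P_tower (h : A ⊆ B) (hF : Continuous F) (s : Cf ι n) :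
    P G A (P G B F) s = P G A F s := by
  have key : ∀ {H : Cf ι n → ℝ}, Continuous H → ∀ s : Cf ι n,
      ∫ s', H (glue A s s') ∂(nu ι n)
        = ∫ s', ∫ s'', H (glue B (glue A s s') s'') ∂(nu ι n) ∂(nu ι n) := by
    intro H hH s
    have h1 := integral_glue B (F := fun s' => H (glue A s s'))
      (hH.comp (continuous_glue_right A s))
    rw [h1]
    simp only [glue_glue h]
  rw [P_eq, P_eq]
  congr 1
  unfold Nf
  rw [key (c_mul (continuous_P G hF) (continuous_w G)), key (c_mul hF (continuous_w G))]
  refine integral_congr_ae (Filter.Eventually.of_forall fun s' => ?_)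
  simp only
  have h1 : ∀ s'', P G B F (glue B (glue A s s') s'') = P G B F (glue A s s') := fun s'' =>
    (dep_P G B F).glue _ _
  simp only [h1, integral_const_mul]
  exact P_mul_Zf G B F (glue A s s')

/-- `E[P_S F · H] = E[P_S F · P_S H]`. -/
theorem P_selfadj (h : A ⊆ B) (hF : Continuous F) (hH : Continuous H) (s : Cf ι n) :
    P G A (fun s => P G B F s * H s) s = P G A (fun s => P G B F s * P G B H s) s := by
  rw [← P_tower G h (c_mul (continuous_P G hF) hH)]
  refine congrArg (fun f => P G A f s) ?_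
  funext t
  exact P_mul_dep G (dep_P G B F) H t

theorem P_selfadj' (h : A ⊆ B) (hF : Continuous F) (hH : Continuous H) (s : Cf ι n) :
    P G A (fun s => F s * P G B H s) s = P G A (fun s => P G B F s * P G B H s) s := by
  have h1 := P_selfadj G h hH hF s
  simp only [mul_comm (P G B H _)] at h1
  exact h1

/-- Cauchy–Schwarz. -/
theorem P_mul_sq_le (hF : Continuous F) (hH : Continuous H) (s : Cf ι n) :
    (P G A (fun s => F s * H s) s) ^ 2
      ≤ P G A (fun s => F s ^ 2) s * P G A (fun s => H s ^ 2) s := by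
  set a := P G A (fun s => F s ^ 2) s with ha
  set c := P G A (fun s => H s ^ 2) s with hc
  set b := P G A (fun s => F s * H s) s with hb
  have hquad : ∀ x y : ℝ, 0 ≤ x ^ 2 * a + 2 * x * y * b + y ^ 2 * c := by
    intro x y
    have h := P_nonneg G (A := A) (F := fun s => (x * F s + y * H s) ^ 2)
      (fun s => sq_nonneg _) s
    have e : (fun s => (x * F s + y * H s) ^ 2)
        = fun s => (x ^ 2 * F s ^ 2 + (2 * x * y) * (F s * H s)) + y ^ 2 * H s ^ 2 := by
      funext s; ring
    rw [e, P_add G (c_add (c_smul _ (c_sq hF)) (c_smul _ (c_mul hF hH)))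
      (c_smul _ (c_sq hH)), P_add G (c_smul _ (c_sq hF)) (c_smul _ (c_mul hF hH)),
      P_const_mul, P_const_mul, P_const_mul] at h
    exact h
  have ha0 : 0 ≤ a := P_nonneg G (fun s => sq_nonneg _) s
  have hc0 : 0 ≤ c := P_nonneg G (fun s => sq_nonneg _) s
  by_cases hcz : c = 0
  · by_contra hcon
    push Not at hcon
    rw [hcz, mul_zero] at hcon
    have hb0 : b ≠ 0 := by rintro h0; simp [h0] at hcon
    have h1 := hquad 1 (-(a + 1) / (2 * b))
    rw [hcz] at h1
    have h2 : (1:ℝ) ^ 2 * a + 2 * 1 * (-(a + 1) / (2 * b)) * b + (-(a + 1) / (2 * b)) ^ 2 * 0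
        = -1 := by
      field_simp
      ring
    linarith
  · have hcpos : 0 < c := lt_of_le_of_ne hc0 (Ne.symm hcz)
    have h1 := hquad c (-b)
    have h2 : 0 ≤ c * (a * c - b ^ 2) := by nlinarith
    have h3 := nonneg_of_mul_nonneg_right h2 hcpos
    linarith

theorem P_abs_mul_le (hF : Continuous F) (hH : Continuous H) (s : Cf ι n) :
    |P G A (fun s => F s * H s) s|
      ≤ Real.sqrt (P G A (fun s => F s ^ 2) s) * Real.sqrt (P G A (fun s => H s ^ 2) s) := by
  rw [← Real.sqrt_mul (P_nonneg G (fun s => sq_nonneg _) s)]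
  exact Real.abs_le_sqrt (P_mul_sq_le G hF hH s)

/-- Jensen: `(P F)^2 ≤ P (F^2)`. -/
theorem P_sq_le (hF : Continuous F) (s : Cf ι n) :
    (P G A F s) ^ 2 ≤ P G A (fun s => F s ^ 2) s := by
  have h := P_mul_sq_le G (A := A) hF continuous_const (H := fun _ => 1) s
  simpa [P_const] using h

/-- `P F0 ((P S F)^2) ≤ P F0 (F^2)`. -/
theorem P_P_sq_le (h : A ⊆ B) (hF : Continuous F) (s : Cf ι n) :
    P G A (fun s => P G B F s ^ 2) s ≤ P G A (fun s => F s ^ 2) s := by
  rw [← P_tower G h (c_sq hF)]
  exact P_mono G (c_sq (continuous_P G hF)) (continuous_P G (c_sq hF))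
    (fun t => P_sq_le G hF t) s

/-- the energies decrease when fewer spins are frozen. -/
theorem P_energy_anti {D : Set ι} (h : A ⊆ B) (h' : B ⊆ D) (hF : Continuous F) (s : Cf ι n) :
    P G A (fun s => P G B F s ^ 2) s ≤ P G A (fun s => P G D F s ^ 2) s := by
  have e : P G B F = P G B (P G D F) := by
    funext t; exact (P_tower G h' hF t).symm
  rw [e]
  exact P_P_sq_le G h (continuous_P G hF) s

/-- orthogonality of increments. -/
theorem P_incr_orth {D : Set ι} (h : A ⊆ B) (h' : B ⊆ D) (hF : Continuous F)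
    (hH : Continuous H) (dH : Dep B H) (s : Cf ι n) :
    P G A (fun s => (P G D F s - P G B F s) * H s) s = 0 := by
  have hc : Continuous fun s => P G D F s - P G B F s :=
    c_sub (continuous_P G hF) (continuous_P G hF)
  rw [← P_tower G h (c_mul hc hH)]
  have : ∀ t, P G B (fun s => (P G D F s - P G B F s) * H s) t = 0 := by
    intro t
    rw [P_dep_mul G dH, P_sub G (continuous_P G hF) (continuous_P G hF),
      P_tower G h' hF, P_tower G subset_rfl hF, sub_self, zero_mul]
  have e : P G B (fun s => (P G D F s - P G B F s) * H s) = fun _ => 0 := funext this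
  rw [e, P_const]

/-- `A ⊆ B ⊆ D`: Pythagoras. -/
theorem P_pyth {D : Set ι} (h : A ⊆ B) (h' : B ⊆ D) (hF : Continuous F) (s : Cf ι n) :
    P G A (fun s => (P G D F s - P G B F s) ^ 2) s
      = P G A (fun s => P G D F s ^ 2) s - P G A (fun s => P G B F s ^ 2) s := by
  have hB := continuous_P G (A := B) hF
  have hC := continuous_P G (A := D) hF
  have h0 := P_incr_orth G h h' hF hB (dep_P G B F) s
  have e : (fun s => (P G D F s - P G B F s) ^ 2)
      = fun s => (P G D F s ^ 2 - P G B F s ^ 2)
        - 2 * ((P G D F s - P G B F s) * P G B F s) := by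
    funext s; ring
  rw [e, P_sub G (c_sub (c_sq hC) (c_sq hB)) (c_smul _ (c_mul (c_sub hC hB) hB)),
    P_const_mul, h0, P_sub G (c_sq hC) (c_sq hB)]
  ring

end PCalc

end Crest.Agent.R167
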