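import Crest.Agent.R167.Sph
import Crest.Agent.R167.PCalc
import Crest.Agent.R167.Bare

set_option autoImplicit false
open MeasureTheory Crest.ProbabilityR.SpinModel

/-!
# Row 167: Ward identity for flow invariant functions
-/

namespace Crest.Agent.R167

set_option linter.unusedSectionVars false

variable {ι E : Type} [Fintype ι] [Fintype E] {n : ℕ}

lemma bil_Flow_glue {k l : Fin n} (h : k ≠ l) {f : ι → ℝ} {F0 : Set ι} (hf : ∀ v ∈ F0, f v = 0)
    (t : ℝ) (τ s : Cf ι n) : Flow h f t (glue F0 τ s) = glue F0 τ (Flow h f t s) := by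
  funext v
  by_cases hv : v ∈ F0
  · rw [glue_mem hv]
    unfold Flow
    rw [glue_mem hv, hf v hv, mul_zero, rotS_zero]
  · rw [glue_not_mem hv]
    unfold Flow
    rw [glue_not_mem hv]

lemma bil_deriv_I (G : Gr ι E) {k l : Fin n} (h : k ≠ l) (f : ι → ℝ) (x : Cf ι n) (t0 : ℝ) :
    HasDerivAt (fun t => G.I (Flow h f t x)) (XI G k l f (Flow h f t0 x)) t0 := by
  have h1 := (DX_I G h f).deriv (Flow h f t0 x)
  have h2 : HasDerivAt (fun t => G.I (Flow h f (t - t0) (Flow h f t0 x)))
      (XI G k l f (Flow h f t0 x)) t0 := by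
    have h3 : HasDerivAt (fun u => G.I (Flow h f u (Flow h f t0 x)))
        (XI G k l f (Flow h f t0 x)) (t0 - t0) := by rw [sub_self]; exact h1
    exact h3.comp_sub_const t0 t0
  refine h2.congr_of_eventuallyEq (Filter.Eventually.of_forall fun t => ?_)
  show G.I (Flow h f t x) = G.I (Flow h f (t - t0) (Flow h f t0 x))
  rw [← Flow_add, sub_add_cancel]

theorem bil_ward_inv [NeZero n] (G : Gr ι E) {k l : Fin n} {h : k ≠ l} {f : ι → ℝ}
    {F : Cf ι n → ℝ} {A : Set ι} (hf : ∀ v ∈ A, f v = 0) (hF : Continuous F)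
    (hinv : ∀ t s, F (Flow h f t s) = F s) (s : Cf ι n) :
    P G A (fun s => F s * XI G k l f s) s = 0 := by
  have hcF : ∀ t : ℝ, Continuous fun x : Cf ι n => Flow h f t x := fun t =>
    Continuous.comp (g := fun p : ℝ × Cf ι n => Flow h f p.1 p.2) (f := fun x => (t, x))
      (continuous_Flow h f) (Continuous.prodMk_right t)
  -- the rotated integral
  let φ : ℝ → Cf ι n → ℝ := fun t s' =>
    F (glue A s s') * Real.exp (G.I (Flow h f t (glue A s s')))
  let φ' : ℝ → Cf ι n → ℝ := fun t s' =>
    F (glue A s s') * (Real.exp (G.I (Flow h f t (glue A s s'))) *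
      XI G k l f (Flow h f t (glue A s s')))
  have hconst : ∀ t, ∫ s', φ t s' ∂(nu ι n) = ∫ s', φ 0 s' ∂(nu ι n) := by
    intro t
    have mp := mp_Flow (ι := ι) (n := n) h f t
    have hc : Continuous fun s' : Cf ι n => F (glue A s s') * Real.exp (G.I (glue A s s')) :=
      (hF.mul (continuous_w G)).comp (continuous_glue_right A s)
    have h2 := integral_map (μ := nu ι n) mp.aemeasurable
      (f := fun s' => F (glue A s s') * Real.exp (G.I (glue A s s'))) hc.aestronglyMeasurable
    rw [mp.map_eq] at h2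
    have h0 : ∀ s', φ 0 s' = F (glue A s s') * Real.exp (G.I (glue A s s')) := by
      intro s'
      show F (glue A s s') * Real.exp (G.I (Flow h f 0 (glue A s s'))) = _
      rw [Flow_zero]
    have h1 : ∀ s', φ t s' = F (glue A s (Flow h f t s')) *
        Real.exp (G.I (glue A s (Flow h f t s'))) := by
      intro s'
      show F (glue A s s') * Real.exp (G.I (Flow h f t (glue A s s'))) = _
      rw [← bil_Flow_glue h hf t s s', hinv]
    simp only [h0, h1]
    exact h2.symm
  have hder : HasDerivAt (fun t => ∫ s', φ t s' ∂(nu ι n)) (∫ s', φ' 0 s' ∂(nu ι n)) 0 := by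
    obtain ⟨MF, hMF0, hMF⟩ := cont_bdd hF
    obtain ⟨MI, hMI0, hMI⟩ := cont_bdd (continuous_w (n := n) G)
    obtain ⟨MX, hMX0, hMX⟩ := cont_bdd (continuous_XI (n := n) G k l f)
    have hcφ : ∀ t, Continuous (φ t) := fun t =>
      (hF.comp (continuous_glue_right A s)).mul
        ((continuous_w G).comp ((hcF t).comp (continuous_glue_right A s)))
    have hcφ' : ∀ t, Continuous (φ' t) := fun t =>
      (hF.comp (continuous_glue_right A s)).mul
        (((continuous_w G).comp ((hcF t).comp (continuous_glue_right A s))).mul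
          ((continuous_XI G k l f).comp ((hcF t).comp (continuous_glue_right A s))))
    refine (hasDerivAt_integral_of_dominated_loc_of_deriv_le (μ := nu ι n) (F := φ) (F' := φ')
      (x₀ := (0 : ℝ)) (s := Set.univ) (bound := fun _ => MF * (MI * MX)) Filter.univ_mem
      (Filter.Eventually.of_forall fun t => (hcφ t).aestronglyMeasurable)
      (integrable_of_cont (hcφ 0)) (hcφ' 0).aestronglyMeasurable
      (Filter.Eventually.of_forall fun s' t _ => ?_) (integrable_const _)
      (Filter.Eventually.of_forall fun s' t _ => ?_)).2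
    · show ‖F (glue A s s') * (Real.exp (G.I (Flow h f t (glue A s s'))) *
        XI G k l f (Flow h f t (glue A s s')))‖ ≤ MF * (MI * MX)
      rw [norm_mul, norm_mul]
      exact mul_le_mul (hMF _) (mul_le_mul (hMI _) (hMX _) (norm_nonneg _) hMI0)
        (by positivity) hMF0
    · exact ((bil_deriv_I G h f (glue A s s') t).exp).const_mul (F (glue A s s'))
  have h3 : ∫ s', φ' 0 s' ∂(nu ι n) = 0 := by
    have h4 : (fun t => ∫ s', φ t s' ∂(nu ι n)) = fun _ => ∫ s', φ 0 s' ∂(nu ι n) := by
      funext t; exact hconst t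
    rw [h4] at hder
    exact hder.unique (hasDerivAt_const _ _)
  unfold P
  have h5 : ∫ s', (fun s => F s * XI G k l f s) (glue A s s') * Real.exp (G.I (glue A s s'))
      ∂(nu ι n) = 0 := by
    rw [← h3]
    refine integral_congr_ae (Filter.Eventually.of_forall fun s' => ?_)
    show F (glue A s s') * XI G k l f (glue A s s') * Real.exp (G.I (glue A s s'))
      = F (glue A s s') * (Real.exp (G.I (Flow h f 0 (glue A s s'))) *
        XI G k l f (Flow h f 0 (glue A s s')))
    rw [Flow_zero]
    ring
  rw [h5, zero_div]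

end Crest.Agent.R167
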