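import Crest.Agent.R167.PCAbs
import Crest.Agent.R167.PCalc

/-! Row 167, PCALC part 2 (helper40): Markov property and locality on the frozen definitions. -/

set_option autoImplicit false
open MeasureTheory Crest.ProbabilityR.SpinModel

namespace Crest.Agent.R167

section bridge
variable {ι E : Type} {n : ℕ}

theorem glue_eq_abs (A : Set ι) (s s' : Cf ι n) : glue A s s' = PC.glue A s s' := rfl

theorem dep_iff_abs (A : Set ι) (F : Cf ι n → ℝ) : Dep A F ↔ PC.Dep A F := PC.dep_iff.symm

variable [Fintype ι] [Fintype E]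

/-- bridge to the abstract calculus -/
theorem P_eq_abs (G : Gr ι E) (A : Set ι) (F : Cf ι n → ℝ) :
    P G A F = PC.P (unif n) (fun s => Real.exp (G.I s)) A F := rfl

theorem bm_of_continuous {F : Cf ι n → ℝ} (hF : Continuous F) : PC.BM F := by
  refine ⟨hF.measurable, ?_⟩
  obtain ⟨C, hC⟩ := (isCompact_range hF).isBounded.exists_norm_le
  exact ⟨C, fun s => by simpa using hC _ (Set.mem_range_self s)⟩

omit [Fintype ι] in
theorem continuous_Gr_I (G : Gr ι E) : Continuous (G.I : Cf ι n → ℝ) := by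
  unfold Gr.I
  fun_prop

theorem wt_exp_I (G : Gr ι E) : PC.Wt (fun s : Cf ι n => Real.exp (G.I s)) :=
  PC.Wt.exp (bm_of_continuous (continuous_Gr_I G))

open Classical in
/-- the part of the interaction carried by the edges satisfying `p` -/
noncomputable def IPart (G : Gr ι E) (p : E → Prop) (s : Cf ι n) : ℝ :=
  ∑ e, (if p e then
    G.b e * inner ℝ (s (G.src e) : EuclideanSpace ℝ (Fin n)) (s (G.tgt e)) else 0)

/-- the edges touching `U` -/
def Touch (G : Gr ι E) (U : Set ι) (e : E) : Prop := G.src e ∈ U ∨ G.tgt e ∈ U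

variable (G : Gr ι E)

omit [Fintype ι] in
theorem continuous_IPart (p : E → Prop) : Continuous (IPart G p : Cf ι n → ℝ) := by
  classical
  unfold IPart
  refine continuous_finsetSum _ fun e _ => ?_
  split_ifs
  · fun_prop
  · exact continuous_const

omit [Fintype ι] in
theorem I_eq_add (p : E → Prop) (s : Cf ι n) :
    G.I s = IPart G p s + IPart G (fun e => ¬ p e) s := by
  classical
  unfold Gr.I IPart
  rw [← Finset.sum_add_distrib]
  refine Finset.sum_congr rfl fun e _ => ?_
  by_cases h : p e <;> simp [h]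

omit [Fintype ι] in
theorem dep_IPart {p : E → Prop} {Q : Set ι} (h : ∀ e, p e → G.src e ∈ Q ∧ G.tgt e ∈ Q) :
    PC.Dep Q (IPart G p : Cf ι n → ℝ) := by
  classical
  rw [PC.dep_iff]
  intro s t hst
  unfold IPart
  refine Finset.sum_congr rfl fun e _ => ?_
  by_cases hp : p e
  · simp only [hp, if_true, hst _ (h e hp).1, hst _ (h e hp).2]
  · simp [hp]

omit [Fintype ι] in
theorem exp_I_eq (p : E → Prop) : (fun s : Cf ι n => Real.exp (G.I s)) =
    fun s => Real.exp (IPart G p s) * Real.exp (IPart G (fun e => ¬ p e) s) := by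
  ext s
  rw [I_eq_add G p, Real.exp_add]

end bridge

section markov
variable {ι E : Type} [Fintype ι] [Fintype E] {n : ℕ} [NeZero n]
  (G : Gr ι E) {A B : Set ι} {F H : Cf ι n → ℝ}

/-- Markov property: if every vertex of `Q \ S` has all its edges inside `Q` and `F` depends only
on `Q`, then `P_S F` depends only on `S ∩ Q` (bounded measurable version). -/
theorem P_dep_of_closed_bm (S Q : Set ι) (hF : Dep Q F) (bF : PC.BM F)
    (hcl : ∀ e, (G.src e ∈ Q \ S ∨ G.tgt e ∈ Q \ S) → G.src e ∈ Q ∧ G.tgt e ∈ Q) :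
    Dep (S ∩ Q) (P G S F) := by
  rw [dep_iff_abs, P_eq_abs, exp_I_eq G (Touch G (Q \ S))]
  refine PC.P_dep_local (S := (Q \ S)ᶜ) (PC.Wt.exp (bm_of_continuous (continuous_IPart G _)))
    (PC.Wt.exp (bm_of_continuous (continuous_IPart G _))) ((dep_iff_abs _ _).1 hF)
    ((dep_IPart G hcl).comp Real.exp) ((dep_IPart G fun e he => ?_).comp Real.exp) ?_ bF
  · unfold Touch at he
    rw [not_or] at he
    exact he
  · rintro v ⟨h1, h2⟩
    by_contra h3
    exact h2 ⟨h1, h3⟩

/-- Locality: `Qo ⊆ Q`, the edges touching `Qo` are inside `Q`, `Q \ Qo ⊆ S`; if `F` does not see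
the spins of `Qo`, then freezing or not freezing the spins of `S ∩ Qo` makes no difference. -/
theorem P_eq_of_closed (S Q Qo : Set ι) (hQ : Q \ Qo ⊆ S)
    (hcl : ∀ e, (G.src e ∈ Qo ∨ G.tgt e ∈ Qo) → G.src e ∈ Q ∧ G.tgt e ∈ Q)
    (hF : Dep Qoᶜ F) (cF : Continuous F) (s : Cf ι n) :
    P G S F s = P G (S \ Qo) F s := by
  rw [P_eq_abs, P_eq_abs, exp_I_eq G (Touch G Qo)]
  refine PC.P_eq_of_local (B := Q) (S := Qoᶜ) (PC.Wt.exp (bm_of_continuous (continuous_IPart G _)))
    (PC.Wt.exp (bm_of_continuous (continuous_IPart G _))) ((dep_iff_abs _ _).1 hF)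
    ((dep_IPart G hcl).comp Real.exp) ((dep_IPart G fun e he => ?_).comp Real.exp) ?_ ?_ ?_
    (bm_of_continuous cF) s
  · unfold Touch at he
    rw [not_or] at he
    exact he
  · rintro v ⟨h1, h2⟩
    exact hQ ⟨h1, h2⟩
  · rintro v ⟨h1, h2⟩
    exact ⟨hQ ⟨h1, h2⟩, h2⟩
  · ext v
    simp only [Set.mem_inter_iff, Set.mem_compl_iff, Set.mem_sdiff]
    tauto

/-- conditional independence across a frozen boundary: `F` sees only `Q`, `H` does not see `Qo`,
`Q \ Qo ⊆ S`, the edges touching `Qo` are inside `Q`. -/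
theorem P_mul_of_closed (S Q Qo : Set ι) (hQ : Q \ Qo ⊆ S)
    (hcl : ∀ e, (G.src e ∈ Qo ∨ G.tgt e ∈ Qo) → G.src e ∈ Q ∧ G.tgt e ∈ Q)
    (hF : Dep Q F) (hH : Dep Qoᶜ H) (cF : Continuous F) (cH : Continuous H) (s : Cf ι n) :
    P G S (fun s => F s * H s) s = P G S F s * P G S H s := by
  rw [P_eq_abs, P_eq_abs, P_eq_abs, exp_I_eq G (Touch G Qo)]
  refine PC.P_mul_local (B := Q) (S := Qoᶜ) (PC.Wt.exp (bm_of_continuous (continuous_IPart G _)))
    (PC.Wt.exp (bm_of_continuous (continuous_IPart G _))) ((dep_iff_abs _ _).1 hF)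
    ((dep_IPart G hcl).comp Real.exp) ((dep_IPart G fun e he => ?_).comp Real.exp)
    ((dep_iff_abs _ _).1 hH) ?_ (bm_of_continuous cF) (bm_of_continuous cH) s
  · unfold Touch at he
    rw [not_or] at he
    exact he
  · rintro v ⟨h1, h2⟩
    exact hQ ⟨h1, h2⟩

/-- product formula for functions of disjoint sets of spins, without any regularity. -/
theorem integral_mul_dep' {U : Set ι} {f h : Cf ι n → ℝ} (hf : Dep U f) (hh : Dep Uᶜ h)
    (s₀ : Cf ι n) :
    ∫ s, f s * h s ∂(nu ι n) = (∫ s, f s ∂(nu ι n)) * ∫ s, h s ∂(nu ι n) := by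
  classical
  let e := MeasurableEquiv.piEquivPiSubtypeProd (fun _ : ι => Sp n) (fun i => i ∈ U)
  have hmp : MeasurePreserving e (nu ι n)
      ((Measure.pi fun _ : {i // i ∈ U} => unif n).prod
        (Measure.pi fun _ : {i // ¬ i ∈ U} => unif n)) :=
    measurePreserving_piEquivPiSubtypeProd (fun _ : ι => unif n) (fun i => i ∈ U)
  have hsymm := hmp.symm e
  have hint : ∀ g : Cf ι n → ℝ, ∫ s, g s ∂(nu ι n) =
      ∫ p, g (e.symm p) ∂((Measure.pi fun _ : {i // i ∈ U} => unif n).prod
        (Measure.pi fun _ : {i // ¬ i ∈ U} => unif n)) := fun g =>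
    (hsymm.integral_comp e.symm.measurableEmbedding g).symm
  set a₀ := (e s₀).1
  set b₀ := (e s₀).2
  have e_mem : ∀ p i (hi : i ∈ U), e.symm p i = p.1 ⟨i, hi⟩ := by
    intro p i hi
    simp [e, MeasurableEquiv.piEquivPiSubtypeProd, Equiv.piEquivPiSubtypeProd, hi]
  have e_not : ∀ p i (hi : ¬ i ∈ U), e.symm p i = p.2 ⟨i, hi⟩ := by
    intro p i hi
    simp [e, MeasurableEquiv.piEquivPiSubtypeProd, Equiv.piEquivPiSubtypeProd, hi]
  have h1 : ∀ p, f (e.symm p) = f (e.symm (p.1, b₀)) := fun p =>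
    hf _ _ fun i hi => by rw [e_mem _ i hi, e_mem _ i hi]
  have h2 : ∀ p, h (e.symm p) = h (e.symm (a₀, p.2)) := fun p =>
    hh _ _ fun i hi => by rw [e_not _ i hi, e_not _ i hi]
  have key : ∀ f h : Cf ι n → ℝ, (∀ p, f (e.symm p) = f (e.symm (p.1, b₀))) →
      (∀ p, h (e.symm p) = h (e.symm (a₀, p.2))) → ∫ s, f s * h s ∂(nu ι n) =
      (∫ a, f (e.symm (a, b₀)) ∂(Measure.pi fun _ : {i // i ∈ U} => unif n)) *
        ∫ b, h (e.symm (a₀, b)) ∂(Measure.pi fun _ : {i // ¬ i ∈ U} => unif n) := by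
    intro f h h1 h2
    rw [hint]
    rw [← integral_prod_mul]
    refine integral_congr_ae (Filter.Eventually.of_forall fun p => ?_)
    simp only
    rw [h1 p, h2 p]
  have k1 := key f h h1 h2
  have k2 := key f (fun _ => 1) h1 (fun _ => rfl)
  have k3 := key (fun _ => 1) h (fun _ => rfl) h2
  simp only [mul_one, one_mul, integral_const, probReal_univ, smul_eq_mul] at k2 k3
  rw [k1, k2, k3]

/-- Markov property: if every vertex of `Q \ S` has all its edges inside `Q` and `F` depends only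
on `Q`, then `P_S F` depends only on `S ∩ Q`. -/
theorem P_dep_of_closed (S Q : Set ι) (hF : Dep Q F)
    (hcl : ∀ e, (G.src e ∈ Q \ S ∨ G.tgt e ∈ Q \ S) → G.src e ∈ Q ∧ G.tgt e ∈ Q) :
    Dep (S ∩ Q) (P G S F) := by
  classical
  set U : Set ι := Q \ S with hU
  set p : E → Prop := Touch G U with hp
  have d1 : ∀ s t : Cf ι n, (∀ v ∈ Q, s v = t v) → IPart G p s = IPart G p t := fun s t hst =>
    PC.dep_iff.1 (dep_IPart G (p := p) hcl) s t hst
  have d2 : ∀ s t : Cf ι n, (∀ v ∈ Uᶜ, s v = t v) →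
      IPart G (fun e => ¬ p e) s = IPart G (fun e => ¬ p e) t := fun s t hst =>
    PC.dep_iff.1 (dep_IPart G (p := fun e => ¬ p e) (Q := Uᶜ) fun e he => not_or.1 he) s t hst
  -- the numerator and the denominator factorize
  have fac : ∀ (K : Cf ι n → ℝ), Dep Q K → ∀ s : Cf ι n,
      ∫ s', K (glue S s s') * Real.exp (G.I (glue S s s')) ∂(nu ι n) =
        (∫ s', K (glue S s s') * Real.exp (IPart G p (glue S s s')) ∂(nu ι n)) *
          ∫ s', Real.exp (IPart G (fun e => ¬ p e) (glue S s s')) ∂(nu ι n) := by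
    intro K hK s
    rw [← integral_mul_dep' (U := U) ?_ ?_ s]
    · refine integral_congr_ae (Filter.Eventually.of_forall fun s' => ?_)
      simp only
      rw [I_eq_add G p, Real.exp_add]
      ring
    · intro t t' htt
      have hg : ∀ v ∈ Q, glue S s t v = glue S s t' v := by
        intro v hv
        by_cases hS : v ∈ S
        · simp [glue, hS]
        · simp only [glue, hS, if_false]
          exact htt v ⟨hv, hS⟩
      simp only
      rw [hK _ _ hg, d1 _ _ hg]
    · intro t t' htt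
      simp only
      congr 1
      refine d2 _ _ fun v hv => ?_
      by_cases hS : v ∈ S
      · simp [glue, hS]
      · simp only [glue, hS, if_false]
        exact htt v hv
  have hpos : ∀ s : Cf ι n,
      0 < ∫ s', Real.exp (IPart G (fun e => ¬ p e) (glue S s s')) ∂(nu ι n) := by
    intro s
    have hc : Continuous fun s' : Cf ι n => IPart G (fun e => ¬ p e) (glue S s s') := by
      refine (continuous_IPart G _).comp ?_
      refine continuous_pi fun v => ?_
      by_cases hS : v ∈ S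
      · simpa [glue, hS] using continuous_const
      · simpa [glue, hS] using continuous_apply v
    refine integral_exp_pos ?_
    exact (bm_of_continuous (Real.continuous_exp.comp hc)).integrable _
  have cong : ∀ (K : Cf ι n → ℝ), Dep Q K → ∀ s t : Cf ι n, (∀ v ∈ S ∩ Q, s v = t v) →
      ∫ s', K (glue S s s') * Real.exp (IPart G p (glue S s s')) ∂(nu ι n) =
        ∫ s', K (glue S t s') * Real.exp (IPart G p (glue S t s')) ∂(nu ι n) := by
    intro K hK s t hst
    refine integral_congr_ae (Filter.Eventually.of_forall fun s' => ?_)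
    have hg : ∀ v ∈ Q, glue S s s' v = glue S t s' v := by
      intro v hv
      by_cases hS : v ∈ S
      · simp only [glue, hS, if_true]
        exact hst v ⟨hS, hv⟩
      · simp [glue, hS]
    simp only
    rw [hK _ _ hg, d1 _ _ hg]
  intro s t hst
  have e1 : ∀ s : Cf ι n, P G S F s =
      (∫ s', F (glue S s s') * Real.exp (IPart G p (glue S s s')) ∂(nu ι n)) /
        ∫ s', (fun _ => (1:ℝ)) (glue S s s') * Real.exp (IPart G p (glue S s s')) ∂(nu ι n) := by
    intro s
    have f1 := fac F hF s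
    have f2 := fac (fun _ => 1) (fun _ _ _ => rfl) s
    simp only [one_mul] at f2
    unfold P
    rw [f1, f2]
    simp only [one_mul]
    exact mul_div_mul_right _ _ (hpos s).ne'
  rw [e1 s, e1 t, cong F hF s t hst, cong (fun _ => 1) (fun _ _ _ => rfl) s t hst]

end markov

end Crest.Agent.R167
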