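import Crest.Agent.R167.Bil0
import Crest.Agent.R167.PCalc2
import Crest.Agent.R167.BilWard

set_option autoImplicit false
open MeasureTheory Crest.ProbabilityR.SpinModel

/-!
# Row 167, NODE STEP, (S1), (S2), (S3), (S5), (B4), (B5): the parts using Markov and Ward
-/

namespace Crest.Agent.R167

set_option linter.unusedSectionVars false

variable {ι E : Type} [Fintype ι] [Fintype E] {n : ℕ}

/-! ### (S1): `P_S X_ψ I` depends only on the spins of the cell -/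

section S1

variable [NeZero n] (G : Gr ι E) (k l : Fin n) {S Q Qo : Set ι}

theorem dep_P_XI (hcl : ∀ e, (G.src e ∈ Qo ∨ G.tgt e ∈ Qo) → G.src e ∈ Q ∧ G.tgt e ∈ Q)
    (hbd : Q \ Qo ⊆ S) {ψ : ι → ℝ} (hψ : ∀ v, v ∉ Qo → ψ v = 0) :
    Dep (S ∩ Q) (P G S (XI G k l ψ : Cf ι n → ℝ)) := by
  refine P_dep_of_closed G S Q (dep_XI G k l hcl hψ) fun e he => hcl e ?_
  have h1 : ∀ v, v ∈ Q \ S → v ∈ Qo := fun v hv => by
    by_contra hvo
    exact hv.2 (hbd ⟨hv.1, hvo⟩)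
  exact he.imp (h1 _) (h1 _)

/-- locality: conditional averages over `S` and `S \ Qo` agree on functions not seeing `Qo`. -/
theorem P_eq_diff (hcl : ∀ e, (G.src e ∈ Qo ∨ G.tgt e ∈ Qo) → G.src e ∈ Q ∧ G.tgt e ∈ Q)
    (hbd : Q \ Qo ⊆ S) {F : Cf ι n → ℝ} (hF : Continuous F) (hd : Dep Qoᶜ F) (s : Cf ι n) :
    P G (S \ Qo) F s = P G S F s := by
  have h1 : Dep (S ∩ Qoᶜ) (P G S F) := by
    refine P_dep_of_closed G S Qoᶜ hd fun e he => ?_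
    rcases he with he | he
    · refine ⟨he.1, fun h2 => ?_⟩
      exact he.2 (hbd ⟨(hcl e (Or.inr h2)).1, he.1⟩)
    · refine ⟨fun h2 => ?_, he.1⟩
      exact he.2 (hbd ⟨(hcl e (Or.inl h2)).2, he.1⟩)
  rw [← P_tower (B := S) G Set.sdiff_subset hF s, P_of_dep (A := S \ Qo) G h1]

/-- (B5) -/
theorem loc (hcl : ∀ e, (G.src e ∈ Qo ∨ G.tgt e ∈ Qo) → G.src e ∈ Q ∧ G.tgt e ∈ Q)
    (hbd : Q \ Qo ⊆ S) {g h : ι → ℝ} {c : ℝ} (hgh : ∀ v ∈ Q, g v - h v = c) (s : Cf ι n) :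
    P G S (XI G k l g) s - P G (S \ Qo) (XI G k l g) s
      = P G S (XI G k l h) s - P G (S \ Qo) (XI G k l h) s := by
  have h1 := P_eq_diff G hcl hbd (continuous_XI G k l (fun v => g v - h v))
    (dep_XI_compl G k l hcl hgh) s
  have h2 : ∀ A : Set ι, P G A (XI G k l (fun v => g v - h v)) s
      = P G A (XI G k l g) s - P G A (XI G k l h) s := by
    intro A
    rw [← P_sub G (continuous_XI G k l g) (continuous_XI G k l h) s]
    congr 1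
    funext s
    exact XI_sub G k l g h s
  rw [h2, h2] at h1
  linarith

end S1

/-! ### the bilinear form on cells -/

section BBcell

variable [NeZero n] (G : Gr ι E) {F0 S : Set ι} {k l : Fin n} (τ : Cf ι n)

variable {Q Qo : Set ι}

/-- (B4): `BB(ψ,h) = 0` if `ψ` is supported in the open cell and `h` is constant on the closed
cell and vanishes on `F0`. -/
theorem BB_eq_zero (hkl : k ≠ l) (hS : F0 ⊆ S)
    (hcl : ∀ e, (G.src e ∈ Qo ∨ G.tgt e ∈ Qo) → G.src e ∈ Q ∧ G.tgt e ∈ Q)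
    (hbd : Q \ Qo ⊆ S) {ψ h : ι → ℝ} (hψ : ∀ v, v ∉ Qo → ψ v = 0) {c : ℝ}
    (hc : ∀ v ∈ Q, h v = c) (hh : ∀ v ∈ F0, h v = 0) :
    BB G F0 S k l ψ h τ = 0 := by
  unfold BB
  rw [← P_selfadj G hS (continuous_XI G k l ψ) (continuous_XI G k l h) τ]
  refine bil_ward_inv G (h := hkl) hh (continuous_PXI G k l S ψ) (fun t s => ?_) τ
  have h1 : P G S (XI G k l ψ) (Flow hkl h t s)
      = P G S (XI G k l ψ) (Flow hkl (fun _ => 1) (t * c) s) := by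
    refine dep_P_XI G k l hcl hbd hψ _ _ fun v hv => ?_
    rw [Flow_one_apply]
    unfold Flow
    rw [hc v hv.2]
  rw [h1]
  exact P_inv G hkl S (continuous_XI G k l ψ) (fun t s => XI_inv G hkl ψ t s) _ _

theorem BB_eq_zero' (hkl : k ≠ l) (hS : F0 ⊆ S)
    (hcl : ∀ e, (G.src e ∈ Qo ∨ G.tgt e ∈ Qo) → G.src e ∈ Q ∧ G.tgt e ∈ Q)
    (hbd : Q \ Qo ⊆ S) {ψ h : ι → ℝ} (hψ : ∀ v, v ∉ Qo → ψ v = 0) {c : ℝ}
    (hc : ∀ v ∈ Q, h v = c) (hh : ∀ v ∈ F0, h v = 0) :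
    BB G F0 S k l h ψ τ = 0 := by
  rw [BB_comm]
  exact BB_eq_zero G τ hkl hS hcl hbd hψ hc hh

/-- (S5): for `p = f - f_z` on the closed cell, with `p = 0` on `F0` and `χ = 1` on the closed
cell, `χ = 0` on `F0`: `BB(ψ,p²) = BB(ψ,f²) - 2 f_z BB(ψ,f)`. -/
theorem BB_sq (hkl : k ≠ l) (hS : F0 ⊆ S)
    (hcl : ∀ e, (G.src e ∈ Qo ∨ G.tgt e ∈ Qo) → G.src e ∈ Q ∧ G.tgt e ∈ Q)
    (hbd : Q \ Qo ⊆ S) {ψ f p : ι → ℝ} (hψ : ∀ v, v ∉ Qo → ψ v = 0) {c : ℝ}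
    (hp : ∀ v ∈ Q, p v = f v - c) (hp0 : ∀ v ∈ F0, p v = 0) (hf0 : ∀ v ∈ F0, f v = 0) :
    BB G F0 S k l ψ (fun v => p v ^ 2) τ
      = BB G F0 S k l ψ (fun v => f v ^ 2) τ - 2 * c * BB G F0 S k l ψ f τ := by
  have h1 : BB G F0 S k l ψ (fun v => p v ^ 2 - (f v ^ 2 - 2 * c * f v)) τ = 0 := by
    refine BB_eq_zero G τ hkl hS hcl hbd hψ (c := c ^ 2) (fun v hv => ?_) (fun v hv => ?_)
    · rw [hp v hv]; ring
    · rw [hp0 v hv, hf0 v hv]; ring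
  rw [BB_sub_right G F0 S k l τ ψ (fun v => p v ^ 2) (fun v => f v ^ 2 - 2 * c * f v),
    BB_sub_right G F0 S k l τ ψ (fun v => f v ^ 2) (fun v => 2 * c * f v),
    BB_const_mul_right] at h1
  linarith

end BBcell

end Crest.Agent.R167
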