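import Crest.Agent.R167.Defs

set_option autoImplicit false
open MeasureTheory Crest.ProbabilityR.SpinModel

/-!
# Row 167, block M, part A: rotations

`rotV` is linear, isometric, a one-parameter group; `rotS` preserves `unif`, vertexwise
maps preserve `nu`.
-/

namespace Crest.Agent.R167

variable {n : ℕ}

namespace M

/-- the vector with `k`-th entry `a`, `l`-th entry `b`, other entries `0`. -/
noncomputable def pl (k l : Fin n) (a b : ℝ) : EuclideanSpace ℝ (Fin n) :=
  WithLp.toLp 2 fun i => if i = k then a else if i = l then b else 0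

lemma pl_apply (k l : Fin n) (a b : ℝ) (i : Fin n) :
    pl k l a b i = if i = k then a else if i = l then b else 0 := rfl

lemma inner_eq_sum (x y : EuclideanSpace ℝ (Fin n)) : inner ℝ x y = ∑ i, x i * y i := by
  simp [PiLp.inner_apply, mul_comm]

lemma inner_pl {k l : Fin n} (h : k ≠ l) (a b : ℝ) (y : EuclideanSpace ℝ (Fin n)) :
    inner ℝ (pl k l a b) y = a * y k + b * y l := by
  rw [inner_eq_sum]
  have hl : l ∈ (Finset.univ.erase k : Finset (Fin n)) := by simp [Ne.symm h]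
  rw [← Finset.add_sum_erase _ _ (Finset.mem_univ k), ← Finset.add_sum_erase _ _ hl]
  rw [Finset.sum_eq_zero]
  · simp [pl_apply, Ne.symm h]
  · intro i hi
    have h1 : i ≠ l := Finset.ne_of_mem_erase hi
    have h2 : i ≠ k := Finset.ne_of_mem_erase (Finset.mem_of_mem_erase hi)
    simp [pl_apply, h1, h2]

lemma pl_k (k l : Fin n) (a b : ℝ) : pl k l a b k = a := by simp [pl_apply]

lemma pl_l {k l : Fin n} (h : k ≠ l) (a b : ℝ) : pl k l a b l = b := by
  simp [pl_apply, Ne.symm h]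

lemma norm_pl_sq {k l : Fin n} (h : k ≠ l) (a b : ℝ) : ‖pl k l a b‖ ^ 2 = a ^ 2 + b ^ 2 := by
  rw [← real_inner_self_eq_norm_sq, inner_pl h, pl_k, pl_l h]; ring

/-- two coordinates are bounded by the norm. -/
lemma two_le_norm_sq {k l : Fin n} (h : k ≠ l) (x : EuclideanSpace ℝ (Fin n)) :
    x k ^ 2 + x l ^ 2 ≤ ‖x‖ ^ 2 := by
  have h1 : inner ℝ (pl k l (x k) (x l)) x = x k ^ 2 + x l ^ 2 := by
    rw [inner_pl h]; ring
  have h2 := real_inner_le_norm (pl k l (x k) (x l)) x
  rw [h1] at h2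
  have h3 := norm_pl_sq h (x k) (x l)
  nlinarith [norm_nonneg (pl k l (x k) (x l)), norm_nonneg x, sq_nonneg (‖pl k l (x k) (x l)‖ - ‖x‖)]

lemma rotV_apply (k l : Fin n) (θ : ℝ) (x : EuclideanSpace ℝ (Fin n)) (i : Fin n) :
    rotV k l θ x i = if i = k then Real.cos θ * x k - Real.sin θ * x l
      else if i = l then Real.sin θ * x k + Real.cos θ * x l else x i := rfl

lemma rotV_k (k l : Fin n) (θ : ℝ) (x : EuclideanSpace ℝ (Fin n)) :
    rotV k l θ x k = Real.cos θ * x k - Real.sin θ * x l := by simp [rotV_apply]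

lemma rotV_l {k l : Fin n} (h : k ≠ l) (θ : ℝ) (x : EuclideanSpace ℝ (Fin n)) :
    rotV k l θ x l = Real.sin θ * x k + Real.cos θ * x l := by
  simp [rotV_apply, Ne.symm h]

lemma rotV_o {k l m : Fin n} (h1 : m ≠ k) (h2 : m ≠ l) (θ : ℝ) (x : EuclideanSpace ℝ (Fin n)) :
    rotV k l θ x m = x m := by
  simp [rotV_apply, h1, h2]

lemma rotV_eq {k l : Fin n} (h : k ≠ l) (θ : ℝ) (x : EuclideanSpace ℝ (Fin n)) :
    rotV k l θ x = x + pl k l ((Real.cos θ - 1) * x k - Real.sin θ * x l)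
      (Real.sin θ * x k + (Real.cos θ - 1) * x l) := by
  ext i
  rw [rotV_apply, PiLp.add_apply, pl_apply]
  split_ifs with h1 h2
  · subst h1; ring
  · subst h2; ring
  · ring

lemma rotV_add (k l : Fin n) (θ : ℝ) (x y : EuclideanSpace ℝ (Fin n)) :
    rotV k l θ (x + y) = rotV k l θ x + rotV k l θ y := by
  ext i
  simp only [rotV_apply, PiLp.add_apply]
  split_ifs <;> ring

lemma rotV_smul (k l : Fin n) (θ c : ℝ) (x : EuclideanSpace ℝ (Fin n)) :
    rotV k l θ (c • x) = c • rotV k l θ x := by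
  ext i
  simp only [rotV_apply, PiLp.smul_apply, smul_eq_mul]
  split_ifs <;> ring

lemma rotV_rotV {k l : Fin n} (h : k ≠ l) (a b : ℝ) (x : EuclideanSpace ℝ (Fin n)) :
    rotV k l a (rotV k l b x) = rotV k l (a + b) x := by
  ext i
  rw [rotV_apply, rotV_k, rotV_l h, rotV_apply, rotV_apply, Real.cos_add, Real.sin_add]
  split_ifs with h1 h2
  · ring
  · ring
  · rfl

lemma rotV_zero (k l : Fin n) (x : EuclideanSpace ℝ (Fin n)) : rotV k l 0 x = x := by
  ext i
  rw [rotV_apply, Real.cos_zero, Real.sin_zero]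
  split_ifs with h1 h2
  · subst h1; ring
  · subst h2; ring
  · rfl

/-- `rotV` as a linear isometry equivalence. -/
noncomputable def rotE {k l : Fin n} (h : k ≠ l) (θ : ℝ) :
    EuclideanSpace ℝ (Fin n) ≃ₗᵢ[ℝ] EuclideanSpace ℝ (Fin n) where
  toFun := rotV k l θ
  invFun := rotV k l (-θ)
  left_inv x := by rw [rotV_rotV h, neg_add_cancel, rotV_zero]
  right_inv x := by rw [rotV_rotV h, add_neg_cancel, rotV_zero]
  map_add' := rotV_add k l θ
  map_smul' c x := by simp [rotV_smul]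
  norm_map' x := norm_rotV h θ x

@[simp] lemma rotE_apply {k l : Fin n} (h : k ≠ l) (θ : ℝ) (x : EuclideanSpace ℝ (Fin n)) :
    rotE h θ x = rotV k l θ x := rfl

lemma inner_rotV {k l : Fin n} (h : k ≠ l) (θ : ℝ) (x y : EuclideanSpace ℝ (Fin n)) :
    inner ℝ (rotV k l θ x) (rotV k l θ y) = inner ℝ x y :=
  (rotE h θ).inner_map_map x y

/-- the restriction of a linear isometry equivalence to the sphere. -/
noncomputable def sphMap (T : EuclideanSpace ℝ (Fin n) ≃ₗᵢ[ℝ] EuclideanSpace ℝ (Fin n))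
    (s : Sp n) : Sp n :=
  ⟨T s, by
    have h1 : ‖(s : EuclideanSpace ℝ (Fin n))‖ = 1 := by simp
    simp [T.norm_map]⟩

@[simp] lemma sphMap_coe (T : EuclideanSpace ℝ (Fin n) ≃ₗᵢ[ℝ] EuclideanSpace ℝ (Fin n))
    (s : Sp n) : ((sphMap T s : Sp n) : EuclideanSpace ℝ (Fin n)) = T s := rfl

lemma rotS_eq {k l : Fin n} (h : k ≠ l) (θ : ℝ) (s : Sp n) : rotS h θ s = sphMap (rotE h θ) s :=
  rfl

lemma rotS_coe {k l : Fin n} (h : k ≠ l) (θ : ℝ) (s : Sp n) :
    ((rotS h θ s : Sp n) : EuclideanSpace ℝ (Fin n)) = rotV k l θ s := rfl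

lemma continuous_sphMap (T : EuclideanSpace ℝ (Fin n) ≃ₗᵢ[ℝ] EuclideanSpace ℝ (Fin n)) :
    Continuous (sphMap T) :=
  (T.continuous.comp continuous_subtype_val).subtype_mk _

open scoped Pointwise in
lemma measurePreserving_toSphere (T : EuclideanSpace ℝ (Fin n) ≃ₗᵢ[ℝ] EuclideanSpace ℝ (Fin n)) :
    MeasurePreserving (sphMap T) ((volume : Measure (EuclideanSpace ℝ (Fin n))).toSphere)
      ((volume : Measure (EuclideanSpace ℝ (Fin n))).toSphere) := by
  refine ⟨(continuous_sphMap T).measurable, ?_⟩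
  ext s hs
  rw [Measure.map_apply (continuous_sphMap T).measurable hs, Measure.toSphere_apply' _ hs,
    Measure.toSphere_apply' _ ((continuous_sphMap T).measurable hs)]
  congr 1
  have h1 : (Set.Ioo (0 : ℝ) 1 • ((↑) '' (sphMap T ⁻¹' s) : Set (EuclideanSpace ℝ (Fin n))))
      = T ⁻¹' (Set.Ioo (0 : ℝ) 1 • ((↑) '' s : Set (EuclideanSpace ℝ (Fin n)))) := by
    ext x
    constructor
    · rintro ⟨r, hr, y, ⟨z, hz, rfl⟩, rfl⟩
      refine ⟨r, hr, T z, ⟨sphMap T z, hz, rfl⟩, ?_⟩
      simp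
    · rintro ⟨r, hr, y, ⟨z, hz, rfl⟩, hx⟩
      have hx' : r • (z : EuclideanSpace ℝ (Fin n)) = T x := hx
      refine ⟨r, hr, T.symm z, ⟨sphMap T.symm z, ?_, rfl⟩, ?_⟩
      · have : sphMap T (sphMap T.symm z) = z := by
          apply Subtype.ext; simp
        simpa [this] using hz
      · show r • T.symm (z : EuclideanSpace ℝ (Fin n)) = x
        rw [← map_smul, hx', T.symm_apply_apply]
  rw [h1]
  exact T.measurePreserving.measure_preimage_equiv
    (f := T.toHomeomorph.toMeasurableEquiv) _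

lemma measurePreserving_unif (T : EuclideanSpace ℝ (Fin n) ≃ₗᵢ[ℝ] EuclideanSpace ℝ (Fin n)) :
    MeasurePreserving (sphMap T) (unif n) (unif n) := by
  unfold unif
  exact (measurePreserving_toSphere T).smul_measure _

instance isFiniteMeasure_unif : IsFiniteMeasure (unif n) := by
  unfold unif
  by_cases h : (volume : Measure (EuclideanSpace ℝ (Fin n))).toSphere Set.univ = 0
  · have : (volume : Measure (EuclideanSpace ℝ (Fin n))).toSphere = 0 := by
      rwa [Measure.measure_univ_eq_zero] at h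
    rw [this]; simp; infer_instance
  · refine ⟨?_⟩
    rw [Measure.smul_apply, smul_eq_mul, ENNReal.inv_mul_cancel h (measure_ne_top _ _)]
    exact ENNReal.one_lt_top

lemma measurePreserving_nu {ι : Type} [Fintype ι]
    (T : ι → (EuclideanSpace ℝ (Fin n) ≃ₗᵢ[ℝ] EuclideanSpace ℝ (Fin n))) :
    MeasurePreserving (fun (s : Cf ι n) v => sphMap (T v) (s v)) (nu ι n) (nu ι n) := by
  unfold nu
  exact measurePreserving_pi _ _ fun v => measurePreserving_unif (T v)

end M

end Crest.Agent.R167
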