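import Mathlib

/-!
Row 167, node MOMENTS (helper287), part 1: rotations in coordinate planes of `EuclideanSpace ℝ (Fin n)`,
their generators, and the quadratic remainder bounds.
-/

set_option autoImplicit false

namespace Crest.Agent.R167.MomR

open Real

variable {n : ℕ}

/-- infinitesimal rotation in the `(i,j)` plane: `(gen i j s) i = - s j`, `(gen i j s) j = s i`. -/
noncomputable def gen (i j : Fin n) (s : EuclideanSpace ℝ (Fin n)) : EuclideanSpace ℝ (Fin n) :=
  EuclideanSpace.single i (-(s j)) + EuclideanSpace.single j (s i)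

/-- rotation by the angle `t` in the `(i,j)` plane (`= exp (t * gen i j)` for `i ≠ j`). -/
noncomputable def rot (i j : Fin n) (t : ℝ) (s : EuclideanSpace ℝ (Fin n)) :
    EuclideanSpace ℝ (Fin n) :=
  s + (EuclideanSpace.single i ((cos t - 1) * s i - sin t * s j)
    + EuclideanSpace.single j (sin t * s i + (cos t - 1) * s j))

theorem rot_zero (i j : Fin n) (s : EuclideanSpace ℝ (Fin n)) : rot i j 0 s = s := by
  ext k; simp [rot]

theorem gen_apply_left {i j : Fin n} (h : i ≠ j) (s : EuclideanSpace ℝ (Fin n)) :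
    gen i j s i = -(s j) := by
  simp [gen, h]

theorem gen_apply_right {i j : Fin n} (h : i ≠ j) (s : EuclideanSpace ℝ (Fin n)) :
    gen i j s j = s i := by
  simp [gen, h.symm]

theorem gen_apply_of_ne {i j k : Fin n} (hi : k ≠ i) (hj : k ≠ j) (s : EuclideanSpace ℝ (Fin n)) :
    gen i j s k = 0 := by
  simp [gen, hi, hj]

theorem rot_apply_left {i j : Fin n} (h : i ≠ j) (t : ℝ) (s : EuclideanSpace ℝ (Fin n)) :
    rot i j t s i = cos t * s i - sin t * s j := by
  simp [rot, h]; ring

theorem rot_apply_right {i j : Fin n} (h : i ≠ j) (t : ℝ) (s : EuclideanSpace ℝ (Fin n)) :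
    rot i j t s j = sin t * s i + cos t * s j := by
  simp [rot, h.symm]; ring

theorem rot_apply_of_ne {i j k : Fin n} (hi : k ≠ i) (hj : k ≠ j) (t : ℝ)
    (s : EuclideanSpace ℝ (Fin n)) : rot i j t s k = s k := by
  simp [rot, hi, hj]

theorem inner_single_right' (i : Fin n) (a : ℝ) (u : EuclideanSpace ℝ (Fin n)) :
    inner ℝ u (EuclideanSpace.single i a) = a * u i := by
  simp [EuclideanSpace.inner_single_right]

theorem inner_single_left' (i : Fin n) (a : ℝ) (u : EuclideanSpace ℝ (Fin n)) :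
    inner ℝ (EuclideanSpace.single i a) u = a * u i := by
  simp [EuclideanSpace.inner_single_left]

theorem inner_gen (i j : Fin n) (u v : EuclideanSpace ℝ (Fin n)) :
    inner ℝ u (gen i j v) = u j * v i - u i * v j := by
  rw [gen, inner_add_right, inner_single_right', inner_single_right']; ring

theorem inner_rot (i j : Fin n) (t : ℝ) (u v : EuclideanSpace ℝ (Fin n)) :
    inner ℝ u (rot i j t v) = inner ℝ u v + (u i * ((cos t - 1) * v i - sin t * v j)
      + u j * (sin t * v i + (cos t - 1) * v j)) := by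
  rw [rot, inner_add_right, inner_add_right, inner_single_right', inner_single_right']; ring

theorem inner_rot_left (i j : Fin n) (t : ℝ) (u v : EuclideanSpace ℝ (Fin n)) :
    inner ℝ (rot i j t u) v = inner ℝ u v + (((cos t - 1) * u i - sin t * u j) * v i
      + (sin t * u i + (cos t - 1) * u j) * v j) := by
  rw [rot, inner_add_left, inner_add_left, inner_single_left', inner_single_left']

/-- moving a rotation from one side of the inner product to the other -/
theorem inner_rot_rot {i j : Fin n} (h : i ≠ j) (t t' : ℝ) (u v : EuclideanSpace ℝ (Fin n)) :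
    inner ℝ (rot i j t u) (rot i j t' v) = inner ℝ u (rot i j (t' - t) v) := by
  rw [inner_rot_left, rot_apply_left h, rot_apply_right h, inner_rot, inner_rot, cos_sub, sin_sub]
  ring

theorem inner_rot_symm {i j : Fin n} (h : i ≠ j) (t : ℝ) (u v : EuclideanSpace ℝ (Fin n)) :
    inner ℝ (rot i j t u) v = inner ℝ u (rot i j (-t) v) := by
  have := inner_rot_rot h t 0 u v
  rwa [rot_zero, zero_sub] at this

theorem rot_rot {i j : Fin n} (h : i ≠ j) (t t' : ℝ) (v : EuclideanSpace ℝ (Fin n)) :
    rot i j t (rot i j t' v) = rot i j (t + t') v := by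
  ext k
  by_cases hi : k = i
  · subst hi
    rw [rot_apply_left h, rot_apply_left h, rot_apply_right h, rot_apply_left h, cos_add, sin_add]
    ring
  · by_cases hj : k = j
    · subst hj
      rw [rot_apply_right h, rot_apply_left h, rot_apply_right h, rot_apply_right h, cos_add,
        sin_add]
      ring
    · rw [rot_apply_of_ne hi hj, rot_apply_of_ne hi hj, rot_apply_of_ne hi hj]

theorem norm_rot {i j : Fin n} (h : i ≠ j) (t : ℝ) (v : EuclideanSpace ℝ (Fin n)) :
    ‖rot i j t v‖ = ‖v‖ := by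
  have h1 : ‖rot i j t v‖ ^ 2 = ‖v‖ ^ 2 := by
    rw [← real_inner_self_eq_norm_sq, ← real_inner_self_eq_norm_sq, inner_rot_rot h, sub_self,
      rot_zero]
  exact (sq_eq_sq₀ (norm_nonneg _) (norm_nonneg _)).1 h1

theorem norm_two {i j : Fin n} (h : i ≠ j) (a b : ℝ) :
    ‖(EuclideanSpace.single i a + EuclideanSpace.single j b : EuclideanSpace ℝ (Fin n))‖ ^ 2
      = a ^ 2 + b ^ 2 := by
  rw [← real_inner_self_eq_norm_sq, inner_add_left, inner_single_left', inner_single_left']
  simp [h, h.symm]; ring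

theorem two_le {i j : Fin n} (h : i ≠ j) (v : EuclideanSpace ℝ (Fin n)) :
    v i ^ 2 + v j ^ 2 ≤ ‖v‖ ^ 2 := by
  rw [EuclideanSpace.norm_sq_eq]
  have : ∑ k ∈ ({i, j} : Finset (Fin n)), ‖v k‖ ^ 2 ≤ ∑ k, ‖v k‖ ^ 2 :=
    Finset.sum_le_sum_of_subset_of_nonneg (Finset.subset_univ _) (fun _ _ _ => by positivity)
  rw [Finset.sum_pair h] at this
  simpa using this

theorem norm_gen_le {i j : Fin n} (h : i ≠ j) (v : EuclideanSpace ℝ (Fin n)) :
    ‖gen i j v‖ ≤ ‖v‖ := by
  have h1 : ‖gen i j v‖ ^ 2 ≤ ‖v‖ ^ 2 := by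
    rw [gen, norm_two h]
    have := two_le h v
    nlinarith
  exact (sq_le_sq₀ (norm_nonneg _) (norm_nonneg _)).1 h1

/-- `|e^{it} - 1 - it| ≤ t²/2` -/
theorem trig_two (t : ℝ) : (cos t - 1) ^ 2 + (sin t - t) ^ 2 ≤ (t ^ 2 / 2) ^ 2 := by
  have key : ∀ x : ℝ, 0 ≤ x → 0 ≤ x ^ 4 / 4 - (2 - 2 * cos x + x ^ 2 - 2 * x * sin x) := by
    intro x hx
    have hmono : MonotoneOn (fun y : ℝ => y ^ 4 / 4 - (2 - 2 * cos y + y ^ 2 - 2 * y * sin y))
        (Set.Ici 0) := by
      apply monotoneOn_of_deriv_nonneg (convex_Ici 0)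
      · fun_prop
      · fun_prop
      · intro y hy
        rw [interior_Ici] at hy
        have hy0 : (0 : ℝ) < y := hy
        have hd : HasDerivAt (fun y : ℝ => y ^ 4 / 4 - (2 - 2 * cos y + y ^ 2 - 2 * y * sin y))
            (y * (y ^ 2 - 2 * (1 - cos y))) y := by
          have h1 : HasDerivAt (fun y : ℝ => y ^ 4 / 4) (y ^ 3) y := by
            have := (hasDerivAt_pow 4 y).div_const 4
            refine this.congr_deriv ?_
            norm_num
          have h2 : HasDerivAt (fun y : ℝ => 2 * cos y) (2 * -sin y) y :=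
            (hasDerivAt_cos y).const_mul 2
          have h3 : HasDerivAt (fun y : ℝ => y ^ 2) (2 * y) y := by
            simpa using hasDerivAt_pow 2 y
          have h4 : HasDerivAt (fun y : ℝ => 2 * y * sin y) (2 * sin y + 2 * y * cos y) y := by
            have h5 : HasDerivAt (fun y : ℝ => 2 * y) (2 * 1) y := (hasDerivAt_id y).const_mul 2
            have := h5.mul (hasDerivAt_sin y)
            refine this.congr_deriv ?_
            ring
          have h6 := h1.sub (((h2.const_sub 2).add h3).sub h4)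
          refine h6.congr_deriv ?_
          ring
        rw [hd.deriv]
        have := Real.one_sub_sq_div_two_le_cos (x := y)
        have h7 : 0 ≤ y ^ 2 - 2 * (1 - cos y) := by linarith
        positivity
    have h0 := hmono (Set.mem_Ici.2 le_rfl) (Set.mem_Ici.2 hx) hx
    simpa using h0
  have h1 : 0 ≤ t ^ 4 / 4 - (2 - 2 * cos t + t ^ 2 - 2 * t * sin t) := by
    rcases le_total 0 t with ht | ht
    · exact key t ht
    · have := key (-t) (by linarith)
      rw [cos_neg, sin_neg] at this
      have e : (-t) ^ 4 / 4 - (2 - 2 * cos t + (-t) ^ 2 - 2 * (-t) * -sin t)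
        = t ^ 4 / 4 - (2 - 2 * cos t + t ^ 2 - 2 * t * sin t) := by ring
      rwa [e] at this
  nlinarith [sin_sq_add_cos_sq t]

/-- `|e^{it} - 1| ≤ |t|` -/
theorem trig_one (t : ℝ) : (cos t - 1) ^ 2 + sin t ^ 2 ≤ t ^ 2 := by
  have := Real.one_sub_sq_div_two_le_cos (x := t)
  nlinarith [sin_sq_add_cos_sq t]

theorem norm_rot_sub_le {i j : Fin n} (h : i ≠ j) (t : ℝ) (v : EuclideanSpace ℝ (Fin n)) :
    ‖rot i j t v - v‖ ≤ |t| * ‖v‖ := by
  have h1 : ‖rot i j t v - v‖ ^ 2 ≤ (|t| * ‖v‖) ^ 2 := by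
    rw [rot, add_sub_cancel_left, norm_two h, mul_pow, sq_abs]
    have h2 := two_le h v
    have h3 := trig_one t
    have e : ((cos t - 1) * v i - sin t * v j) ^ 2 + (sin t * v i + (cos t - 1) * v j) ^ 2
      = ((cos t - 1) ^ 2 + sin t ^ 2) * (v i ^ 2 + v j ^ 2) := by ring
    rw [e]
    exact mul_le_mul h3 h2 (by positivity) (by positivity)
  exact (sq_le_sq₀ (norm_nonneg _) (by positivity)).1 h1

theorem norm_rot_sub_sub_le {i j : Fin n} (h : i ≠ j) (t : ℝ) (v : EuclideanSpace ℝ (Fin n)) :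
    ‖rot i j t v - v - t • gen i j v‖ ≤ t ^ 2 / 2 * ‖v‖ := by
  have h1 : ‖rot i j t v - v - t • gen i j v‖ ^ 2 ≤ (t ^ 2 / 2 * ‖v‖) ^ 2 := by
    have e0 : rot i j t v - v - t • gen i j v
      = EuclideanSpace.single i ((cos t - 1) * v i - (sin t - t) * v j)
        + EuclideanSpace.single j ((sin t - t) * v i + (cos t - 1) * v j) := by
      rw [rot, add_sub_cancel_left, gen, smul_add]
      ext k
      by_cases hi : k = i
      · subst hi; simp [h]; ring
      · by_cases hj : k = j
        · subst hj; simp [hi]; ring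
        · simp [hi, hj]
    rw [e0, norm_two h, mul_pow]
    have h2 := two_le h v
    have h3 := trig_two t
    have e : ((cos t - 1) * v i - (sin t - t) * v j) ^ 2
        + ((sin t - t) * v i + (cos t - 1) * v j) ^ 2
      = ((cos t - 1) ^ 2 + (sin t - t) ^ 2) * (v i ^ 2 + v j ^ 2) := by ring
    rw [e]
    exact mul_le_mul h3 h2 (by positivity) (by positivity)
  exact (sq_le_sq₀ (norm_nonneg _) (by positivity)).1 h1

theorem gen_sub (i j : Fin n) (u v : EuclideanSpace ℝ (Fin n)) :
    gen i j (u - v) = gen i j u - gen i j v := by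
  ext k
  simp only [gen, PiLp.add_apply, PiLp.sub_apply, PiLp.single_apply]
  split_ifs <;> ring

/-- one plane: lower bound for an edge -/
theorem edge_one {i j : Fin n} (h : i ≠ j) (a c : ℝ) (u v : EuclideanSpace ℝ (Fin n))
    (hu : ‖u‖ = 1) (hv : ‖v‖ = 1) :
    inner ℝ u v + (c - a) * inner ℝ u (gen i j v) - (c - a) ^ 2 / 2
      ≤ inner ℝ (rot i j a u) (rot i j c v) := by
  rw [inner_rot_rot h]
  have h1 := norm_rot_sub_sub_le h (c - a) v
  have h2 := abs_real_inner_le_norm u (rot i j (c - a) v - v - (c - a) • gen i j v)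
  rw [hu, one_mul] at h2
  rw [hv, mul_one] at h1
  have h3 := (abs_le.1 (h2.trans h1)).1
  rw [inner_sub_right, inner_sub_right, inner_smul_right] at h3
  linarith

/-- two planes: `rot l m dp ∘ rot k l ψ`, lower bound for an edge -/
theorem edge_two {k l m : Fin n} (hkl : k ≠ l) (hlm : l ≠ m) (hmk : m ≠ k) (a c p q : ℝ)
    (u v : EuclideanSpace ℝ (Fin n)) (hu : ‖u‖ = 1) (hv : ‖v‖ = 1) :
    inner ℝ u v + ((c - a) * inner ℝ u (gen k l v)
        + (q - p) * (cos c * inner ℝ u (gen l m v) - sin c * inner ℝ u (gen m k v)))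
        - ((c - a) ^ 2 + (q - p) ^ 2)
      ≤ inner ℝ (rot l m p (rot k l a u)) (rot l m q (rot k l c v)) := by
  set x := rot k l c v with hx
  set y := rot k l c u with hy
  have hx1 : ‖x‖ = 1 := by rw [hx, norm_rot hkl, hv]
  have hy1 : ‖y‖ = 1 := by rw [hy, norm_rot hkl, hu]
  have e1 : rot k l a u = rot k l (-(c - a)) y := by
    rw [hy, rot_rot hkl]; congr 1; ring
  set w := rot l m (q - p) x with hw
  have hw1 : ‖w‖ = 1 := by rw [hw, norm_rot hlm, hx1]
  have e2 : inner ℝ (rot l m p (rot k l a u)) (rot l m q x) = inner ℝ y (rot k l (c - a) w) := by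
    rw [inner_rot_rot hlm, e1, inner_rot_symm hkl, neg_neg]
  rw [e2]
  have e3 : rot k l (c - a) w - x - ((c - a) • gen k l x + (q - p) • gen l m x)
      = (rot k l (c - a) w - w - (c - a) • gen k l w) + (c - a) • gen k l (w - x)
        + (w - x - (q - p) • gen l m x) := by
    rw [gen_sub, smul_sub]; abel
  have n1 : ‖rot k l (c - a) w - w - (c - a) • gen k l w‖ ≤ (c - a) ^ 2 / 2 := by
    have := norm_rot_sub_sub_le hkl (c - a) w
    rwa [hw1, mul_one] at this
  have n2 : ‖(c - a) • gen k l (w - x)‖ ≤ |c - a| * |q - p| := by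
    rw [norm_smul, Real.norm_eq_abs]
    have h1 := norm_gen_le hkl (w - x)
    have h2 := norm_rot_sub_le hlm (q - p) x
    rw [hx1, mul_one] at h2
    exact mul_le_mul_of_nonneg_left (h1.trans h2) (abs_nonneg _)
  have n3 : ‖w - x - (q - p) • gen l m x‖ ≤ (q - p) ^ 2 / 2 := by
    have := norm_rot_sub_sub_le hlm (q - p) x
    rwa [hx1, mul_one] at this
  have n4 : ‖rot k l (c - a) w - x - ((c - a) • gen k l x + (q - p) • gen l m x)‖
      ≤ (c - a) ^ 2 + (q - p) ^ 2 := by
    rw [e3]
    refine (norm_add₃_le).trans ?_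
    have h5 : |c - a| * |q - p| ≤ ((c - a) ^ 2 + (q - p) ^ 2) / 2 := by
      nlinarith [sq_nonneg (|c - a| - |q - p|), sq_abs (c - a), sq_abs (q - p)]
    linarith
  have h2 := abs_real_inner_le_norm y
    (rot k l (c - a) w - x - ((c - a) • gen k l x + (q - p) • gen l m x))
  rw [hy1, one_mul] at h2
  have h3 := (abs_le.1 (h2.trans n4)).1
  rw [inner_sub_right, inner_sub_right, inner_add_right, inner_smul_right, inner_smul_right] at h3
  have f1 : inner ℝ y x = inner ℝ u v := by
    rw [hy, hx, inner_rot_rot hkl, sub_self, rot_zero]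
  have f2 : inner ℝ y (gen k l x) = inner ℝ u (gen k l v) := by
    rw [inner_gen, inner_gen, hy, hx, rot_apply_left hkl, rot_apply_right hkl, rot_apply_left hkl,
      rot_apply_right hkl]
    have := sin_sq_add_cos_sq c
    linear_combination (u l * v k - u k * v l) * this
  have f3 : inner ℝ y (gen l m x)
      = cos c * inner ℝ u (gen l m v) - sin c * inner ℝ u (gen m k v) := by
    rw [inner_gen, inner_gen, inner_gen, hy, hx, rot_apply_right hkl, rot_apply_right hkl,
      rot_apply_of_ne hmk hlm.symm, rot_apply_of_ne hmk hlm.symm]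
    ring
  rw [f1, f2, f3] at h3
  linarith

end Crest.Agent.R167.MomR
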