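import Crest.Agent.R167.Defs
import Crest.Agent.R167.Mom1

/-!
Row 167, node MOMENTS (helper287): lower bounds of the interaction after a rotation field, on the
frozen definitions of `Defs.lean`.
-/

set_option autoImplicit false
open MeasureTheory Crest.ProbabilityR.SpinModel

namespace Crest.Agent.R167.MomE

variable {ι E : Type} [Fintype ι] [Fintype E] {n : ℕ}

theorem rotV_eq_rot {k l : Fin n} (h : k ≠ l) (θ : ℝ) (x : EuclideanSpace ℝ (Fin n)) :
    rotV k l θ x = MomR.rot k l θ x := by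
  ext i
  by_cases hk : i = k
  · subst hk; rw [MomR.rot_apply_left h]; simp [rotV]
  · by_cases hl : i = l
    · subst hl; rw [MomR.rot_apply_right h]; simp [rotV, hk]
    · rw [MomR.rot_apply_of_ne hk hl]; simp [rotV, hk, hl]

theorem cur_eq_inner (k l : Fin n) (x y : EuclideanSpace ℝ (Fin n)) :
    cur k l x y = inner ℝ x (MomR.gen k l y) := by
  rw [MomR.inner_gen]; rfl

theorem norm_sp (x : Sp n) : ‖(x : EuclideanSpace ℝ (Fin n))‖ = 1 := by simp

/-- edge bound, one plane. -/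
theorem edge_one_ge {k l : Fin n} (h : k ≠ l) (a c : ℝ) (x y : Sp n) :
    inner ℝ (x : EuclideanSpace ℝ (Fin n)) y + (c - a) * cur k l x y - (c - a) ^ 2 / 2
      ≤ inner ℝ (rotS h a x : EuclideanSpace ℝ (Fin n)) (rotS h c y) := by
  have := MomR.edge_one h a c (x : EuclideanSpace ℝ (Fin n)) y (norm_sp x) (norm_sp y)
  rw [← cur_eq_inner, ← rotV_eq_rot h, ← rotV_eq_rot h] at this
  exact this

/-- edge bound, two planes. -/
theorem edge_two_ge {k l m : Fin n} (hkl : k ≠ l) (hlm : l ≠ m) (hmk : m ≠ k) (a c p q : ℝ)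
    (x y : Sp n) :
    inner ℝ (x : EuclideanSpace ℝ (Fin n)) y + ((c - a) * cur k l x y
        + (q - p) * (Real.cos c * cur l m x y - Real.sin c * cur m k x y))
        - ((c - a) ^ 2 + (q - p) ^ 2)
      ≤ inner ℝ (rotS hlm p (rotS hkl a x) : EuclideanSpace ℝ (Fin n))
          (rotS hlm q (rotS hkl c y)) := by
  have := MomR.edge_two hkl hlm hmk a c p q (x : EuclideanSpace ℝ (Fin n)) y (norm_sp x) (norm_sp y)
  rw [← cur_eq_inner, ← cur_eq_inner, ← cur_eq_inner, ← rotV_eq_rot hkl, ← rotV_eq_rot hkl,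
    ← rotV_eq_rot hlm, ← rotV_eq_rot hlm] at this
  exact this

/-- (M1), deterministic part. -/
theorem I_flow_ge {G : Gr ι E} (hb : ∀ e, 0 ≤ G.b e) {k l : Fin n} (h : k ≠ l) (f : ι → ℝ) (t : ℝ)
    (s : Cf ι n) : G.I s + t * XI G k l f s - t ^ 2 * G.En f / 2 ≤ G.I (Flow h f t s) := by
  unfold Gr.I XI Gr.En
  rw [Finset.mul_sum, Finset.mul_sum, Finset.sum_div, ← Finset.sum_add_distrib,
    ← Finset.sum_sub_distrib]
  refine Finset.sum_le_sum fun e _ => ?_
  have h1 := mul_le_mul_of_nonneg_left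
    (edge_one_ge h (t * f (G.src e)) (t * f (G.tgt e)) (s (G.src e)) (s (G.tgt e))) (hb e)
  refine le_trans (le_of_eq ?_) h1
  ring

/-- the linear form of (M2). -/
noncomputable def YI (G : Gr ι E) (k l m : Fin n) (p ψ : ι → ℝ) (s : Cf ι n) : ℝ :=
  ∑ e, G.b e * ((ψ (G.tgt e) - ψ (G.src e)) * cur k l (s (G.src e)) (s (G.tgt e))
    + (p (G.tgt e) - p (G.src e)) * (Real.cos (ψ (G.tgt e)) * cur l m (s (G.src e)) (s (G.tgt e))
      - Real.sin (ψ (G.tgt e)) * cur m k (s (G.src e)) (s (G.tgt e))))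

/-- (M2), deterministic part. -/
theorem I_two_ge {G : Gr ι E} (hb : ∀ e, 0 ≤ G.b e) {k l m : Fin n} (hkl : k ≠ l) (hlm : l ≠ m)
    (hmk : m ≠ k) (p ψ : ι → ℝ) (s : Cf ι n) :
    G.I s + YI G k l m p ψ s - (G.En ψ + G.En p)
      ≤ G.I (fun v => rotS hlm (p v) (rotS hkl (ψ v) (s v))) := by
  unfold Gr.I YI Gr.En
  rw [← Finset.sum_add_distrib, ← Finset.sum_add_distrib, ← Finset.sum_sub_distrib]
  refine Finset.sum_le_sum fun e _ => ?_
  have h1 := mul_le_mul_of_nonneg_left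
    (edge_two_ge hkl hlm hmk (ψ (G.src e)) (ψ (G.tgt e)) (p (G.src e)) (p (G.tgt e))
      (s (G.src e)) (s (G.tgt e))) (hb e)
  refine le_trans (le_of_eq ?_) h1
  ring

/-- the form `K(p, ψ) = ∑ b (p_v - p_u) sin ψ_v <s_u, B s_v>`, `B = L_{mk}`. -/
noncomputable def KI (G : Gr ι E) (m k : Fin n) (p ψ : ι → ℝ) (s : Cf ι n) : ℝ :=
  ∑ e, G.b e * ((p (G.tgt e) - p (G.src e)) * Real.sin (ψ (G.tgt e))
    * cur m k (s (G.src e)) (s (G.tgt e)))

/-- averaging `(-p, ψ)` and `(p, -ψ)`. -/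
theorem YI_add (G : Gr ι E) (k l m : Fin n) (p ψ : ι → ℝ) (s : Cf ι n) :
    YI G k l m (fun v => -p v) ψ s + YI G k l m p (fun v => -ψ v) s = 2 * KI G m k p ψ s := by
  unfold YI KI
  rw [Finset.mul_sum, ← Finset.sum_add_distrib]
  refine Finset.sum_congr rfl fun e _ => ?_
  rw [Real.cos_neg, Real.sin_neg]
  ring

theorem En_neg (G : Gr ι E) (f : ι → ℝ) : G.En (fun v => -f v) = G.En f := by
  unfold Gr.En
  refine Finset.sum_congr rfl fun e _ => ?_
  ring

theorem KI_neg (G : Gr ι E) (m k : Fin n) (p ψ : ι → ℝ) (s : Cf ι n) :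
    KI G m k (fun v => -p v) ψ s = - KI G m k p ψ s := by
  unfold KI
  rw [← Finset.sum_neg_distrib]
  refine Finset.sum_congr rfl fun e _ => ?_
  ring

end Crest.Agent.R167.MomE
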