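import Crest.Agent.R167.PCalc
import Crest.Agent.R167.MomEdge
import Crest.Agent.R167.MA

set_option autoImplicit false
open MeasureTheory Crest.ProbabilityR.SpinModel

/-!
# Row 167, node MOM, (M1): exponential, second and fourth moments of `X_f I`
-/

namespace Crest.Agent.R167

variable {ι E : Type} [Fintype ι] [Fintype E] {n : ℕ}

namespace M

lemma mp_Flow_M {k l : Fin n} (h : k ≠ l) (f : ι → ℝ) (t : ℝ) :
    MeasurePreserving (Flow h f t) (nu ι n) (nu ι n) :=
  measurePreserving_nu (fun v => rotE h (t * f v))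

lemma continuous_Flow_M {k l : Fin n} (h : k ≠ l) (f : ι → ℝ) (t : ℝ) :
    Continuous (Flow h f t : Cf ι n → Cf ι n) :=
  continuous_pi fun v => (continuous_sphMap (rotE h (t * f v))).comp (continuous_apply v)

lemma rotS_zero_M {k l : Fin n} (h : k ≠ l) (s : Sp n) : rotS h 0 s = s := by
  apply Subtype.ext
  rw [rotS_coe, rotV_zero]

lemma Flow_glue {k l : Fin n} (h : k ≠ l) {f : ι → ℝ} {F0 : Set ι} (hf : ∀ v ∈ F0, f v = 0)
    (t : ℝ) (τ s : Cf ι n) : Flow h f t (glue F0 τ s) = glue F0 τ (Flow h f t s) := by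
  funext v
  unfold Flow glue
  by_cases hv : v ∈ F0
  · simp [hv, hf v hv, rotS_zero_M]
  · simp [hv]

/-- the density of the rotated Gibbs measure has expectation `1`. -/
lemma expI_flow [NeZero n] (G : Gr ι E) {k l : Fin n} (h : k ≠ l) {f : ι → ℝ} {F0 : Set ι}
    (hf : ∀ v ∈ F0, f v = 0) (t : ℝ) (τ : Cf ι n) :
    P G F0 (fun s => Real.exp (G.I (Flow h f t s) - G.I s)) τ = 1 := by
  have hZ := Zf_pos G F0 τ
  unfold Zf at hZ
  unfold P
  rw [div_eq_one_iff_eq hZ.ne']
  have hc : Continuous fun s' : Cf ι n => Real.exp (G.I (glue F0 τ s')) :=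
    (continuous_w G).comp (continuous_glue_right F0 τ)
  have h1 : (fun s' => Real.exp (G.I (Flow h f t (glue F0 τ s')) - G.I (glue F0 τ s'))
      * Real.exp (G.I (glue F0 τ s')))
      = fun s' => Real.exp (G.I (glue F0 τ (Flow h f t s'))) := by
    funext s'
    rw [← Real.exp_add, Flow_glue h hf]
    congr 1; ring
  rw [h1]
  have h2 := integral_map (μ := nu ι n) (mp_Flow_M h f t).aemeasurable
    (f := fun s' => Real.exp (G.I (glue F0 τ s'))) hc.aestronglyMeasurable
  rw [(mp_Flow_M h f t).map_eq] at h2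
  exact h2.symm

lemma sq_le_exp_add (y : ℝ) : y ^ 2 + 2 ≤ Real.exp y + Real.exp (-y) := by
  have h := sum_le_hasSum (Finset.range 2)
    (fun i _ => by
      have : 0 ≤ y ^ (2 * i) := by rw [pow_mul]; positivity
      positivity) (Real.hasSum_cosh y)
  rw [Real.cosh_eq] at h
  simp only [Finset.sum_range_succ, Finset.sum_range_zero] at h
  norm_num at h
  linarith

lemma four_le_exp_add (y : ℝ) : y ^ 4 / 12 ≤ Real.exp y + Real.exp (-y) := by
  have h := sum_le_hasSum (Finset.range 3)
    (fun i _ => by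
      have : 0 ≤ y ^ (2 * i) := by rw [pow_mul]; positivity
      positivity) (Real.hasSum_cosh y)
  rw [Real.cosh_eq] at h
  simp only [Finset.sum_range_succ, Finset.sum_range_zero, Nat.factorial] at h
  norm_num at h
  nlinarith [sq_nonneg y]

end M

section Mom
variable [NeZero n] (G : Gr ι E) {k l m : Fin n} {F0 : Set ι}

lemma M.continuous_exp_XI (k l : Fin n) (f : ι → ℝ) (t : ℝ) :
    Continuous fun s : Cf ι n => Real.exp (t * XI G k l f s) :=
  Real.continuous_exp.comp (continuous_const.mul (continuous_XI G k l f))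

theorem E_exp_XI (hb : ∀ e, 0 ≤ G.b e) (h : k ≠ l) {f : ι → ℝ} (hf : ∀ v ∈ F0, f v = 0)
    (t : ℝ) (τ : Cf ι n) :
    P G F0 (fun s => Real.exp (t * XI G k l f s)) τ ≤ Real.exp (t ^ 2 * G.En f / 2) := by
  have hc2 : Continuous fun s : Cf ι n => Real.exp (G.I (Flow h f t s) - G.I s) :=
    Real.continuous_exp.comp (((continuous_I G).comp (M.continuous_Flow_M h f t)).sub
      (continuous_I G))
  have h1 : P G F0 (fun s => Real.exp (t * XI G k l f s)) τ
      ≤ P G F0 (fun s => Real.exp (t ^ 2 * G.En f / 2)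
        * Real.exp (G.I (Flow h f t s) - G.I s)) τ := by
    refine P_mono G (M.continuous_exp_XI G k l f t) (c_smul _ hc2) (fun s => ?_) τ
    show Real.exp (t * XI G k l f s)
      ≤ Real.exp (t ^ 2 * G.En f / 2) * Real.exp (G.I (Flow h f t s) - G.I s)
    rw [← Real.exp_add]
    apply Real.exp_le_exp.2
    have := MomE.I_flow_ge hb h f t s
    linarith
  rw [P_const_mul, M.expI_flow G h hf, mul_one] at h1
  exact h1

lemma M.E_exp_XI' (hb : ∀ e, 0 ≤ G.b e) (h : k ≠ l) {f : ι → ℝ} (hf : ∀ v ∈ F0, f v = 0)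
    (t : ℝ) (τ : Cf ι n) :
    P G F0 (fun s => Real.exp (t * XI G k l f s) + Real.exp (-(t * XI G k l f s))) τ
      ≤ 2 * Real.exp (t ^ 2 * G.En f / 2) := by
  have h1 := E_exp_XI G hb h hf t τ
  have h2 := E_exp_XI G hb h hf (-t) τ
  have h3 : (fun s : Cf ι n => Real.exp (-t * XI G k l f s))
      = fun s => Real.exp (-(t * XI G k l f s)) := by
    funext s; rw [neg_mul]
  rw [h3, neg_sq] at h2
  have hc2 : Continuous fun s : Cf ι n => Real.exp (-(t * XI G k l f s)) := by
    rw [← h3]; exact M.continuous_exp_XI G k l f (-t)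
  rw [P_add G (M.continuous_exp_XI G k l f t) hc2]
  linarith

lemma M.En_nonneg {G : Gr ι E} (hb : ∀ e, 0 ≤ G.b e) (f : ι → ℝ) : 0 ≤ G.En f :=
  Finset.sum_nonneg fun e _ => mul_nonneg (hb e) (sq_nonneg _)

theorem E_sq_XI (hb : ∀ e, 0 ≤ G.b e) (h : k ≠ l) {f : ι → ℝ} (hf : ∀ v ∈ F0, f v = 0)
    (τ : Cf ι n) : P G F0 (fun s => XI G k l f s ^ 2) τ ≤ G.En f := by
  set e := G.En f with he
  have he0 : 0 ≤ e := M.En_nonneg hb f
  set V := P G F0 (fun s => XI G k l f s ^ 2) τ with hV
  have hX := continuous_XI G k l (n := n) f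
  -- for all `t > 0`: `V ≤ e * exp (t ^ 2 * e / 2)`
  have key : ∀ t : ℝ, 0 < t → V ≤ e * Real.exp (t ^ 2 * e / 2) := by
    intro t ht
    have h1 := M.E_exp_XI' G hb h hf t τ
    have hcc : Continuous fun s : Cf ι n =>
        Real.exp (t * XI G k l f s) + Real.exp (-(t * XI G k l f s)) :=
      (M.continuous_exp_XI G k l f t).add
        (Real.continuous_exp.comp (continuous_const.mul hX).neg)
    have hc4 : Continuous fun s : Cf ι n => t ^ 2 * XI G k l f s ^ 2 := c_smul _ (c_sq hX)
    have h2 : P G F0 (fun s => t ^ 2 * XI G k l f s ^ 2 + 2) τ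
        ≤ P G F0 (fun s => Real.exp (t * XI G k l f s) + Real.exp (-(t * XI G k l f s))) τ := by
      refine P_mono G (c_add hc4 continuous_const) hcc (fun s => ?_) τ
      have := M.sq_le_exp_add (t * XI G k l f s)
      rw [mul_pow] at this
      exact this
    rw [P_add G hc4 continuous_const, P_const_mul, P_const] at h2
    have h3 : t ^ 2 * V ≤ 2 * (Real.exp (t ^ 2 * e / 2) - 1) := by
      have := h2.trans h1
      linarith
    -- `exp x - 1 ≤ x exp x`
    have h4 : Real.exp (t ^ 2 * e / 2) - 1 ≤ (t ^ 2 * e / 2) * Real.exp (t ^ 2 * e / 2) := by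
      have h5 := Real.add_one_le_exp (-(t ^ 2 * e / 2))
      have h6 : Real.exp (-(t ^ 2 * e / 2)) * Real.exp (t ^ 2 * e / 2) = 1 := by
        rw [← Real.exp_add]; simp
      have h7 := Real.exp_pos (t ^ 2 * e / 2)
      nlinarith [mul_le_mul_of_nonneg_right h5 h7.le]
    have h5 : t ^ 2 * V ≤ t ^ 2 * (e * Real.exp (t ^ 2 * e / 2)) := by nlinarith
    exact le_of_mul_le_mul_left h5 (by positivity)
  have hlim : Filter.Tendsto (fun t : ℝ => e * Real.exp (t ^ 2 * e / 2))
      (nhdsWithin 0 (Set.Ioi 0)) (nhds e) := by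
    have hcont : Continuous fun t : ℝ => e * Real.exp (t ^ 2 * e / 2) := by fun_prop
    have := hcont.tendsto 0
    simp only [ne_eq, OfNat.ofNat_ne_zero, not_false_eq_true, zero_pow, zero_mul, zero_div,
      Real.exp_zero, mul_one] at this
    exact this.mono_left nhdsWithin_le_nhds
  refine ge_of_tendsto hlim ?_
  filter_upwards [self_mem_nhdsWithin] with t ht
  exact key t ht

theorem E_four_XI (hb : ∀ e, 0 ≤ G.b e) (h : k ≠ l) {f : ι → ℝ} (hf : ∀ v ∈ F0, f v = 0)
    (τ : Cf ι n) : P G F0 (fun s => XI G k l f s ^ 4) τ ≤ 40 * G.En f ^ 2 := by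
  set e := G.En f with he
  have he0 : 0 ≤ e := M.En_nonneg hb f
  set V := P G F0 (fun s => XI G k l f s ^ 4) τ with hV
  have hX := continuous_XI G k l (n := n) f
  have key : ∀ t : ℝ, 0 < t → t ^ 4 * V ≤ 24 * Real.exp (t ^ 2 * e / 2) := by
    intro t ht
    have h1 := M.E_exp_XI' G hb h hf t τ
    have hcc : Continuous fun s : Cf ι n =>
        Real.exp (t * XI G k l f s) + Real.exp (-(t * XI G k l f s)) :=
      (M.continuous_exp_XI G k l f t).add
        (Real.continuous_exp.comp (continuous_const.mul hX).neg)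
    have hc4 : Continuous fun s : Cf ι n => t ^ 4 / 12 * XI G k l f s ^ 4 :=
      continuous_const.mul (hX.pow 4)
    have h2 : P G F0 (fun s => t ^ 4 / 12 * XI G k l f s ^ 4) τ
        ≤ P G F0 (fun s => Real.exp (t * XI G k l f s) + Real.exp (-(t * XI G k l f s))) τ := by
      refine P_mono G hc4 hcc (fun s => ?_) τ
      have := M.four_le_exp_add (t * XI G k l f s)
      rw [mul_pow] at this
      show t ^ 4 / 12 * XI G k l f s ^ 4
        ≤ Real.exp (t * XI G k l f s) + Real.exp (-(t * XI G k l f s))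
      linarith
    rw [P_const_mul] at h2
    have := h2.trans h1
    linarith
  rcases he0.eq_or_lt with h0 | h0
  · -- `e = 0`
    rw [← h0] at key ⊢
    have h1 : ∀ t : ℝ, 0 < t → t ^ 4 * V ≤ 24 := by
      intro t ht
      have := key t ht
      simpa using this
    by_contra hcon
    push Not at hcon
    have hVpos : 0 < V := by simpa using hcon
    have h2 := h1 (1 + 24 / V) (by positivity)
    have h3 : (1 + 24 / V) ≤ (1 + 24 / V) ^ 4 := by
      have : (1 : ℝ) ≤ 1 + 24 / V := by
        have : 0 ≤ 24 / V := by positivity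
        linarith
      exact le_self_pow₀ this (by norm_num)
    have h4 : (1 + 24 / V) * V ≤ 24 := (mul_le_mul_of_nonneg_right h3 hVpos.le).trans h2
    have h5 : (1 + 24 / V) * V = V + 24 := by field_simp
    linarith
  · have h1 := key (Real.sqrt (1 / e)) (Real.sqrt_pos.2 (by positivity))
    have h2 : Real.sqrt (1 / e) ^ 2 = 1 / e := Real.sq_sqrt (by positivity)
    have h3 : Real.sqrt (1 / e) ^ 4 = 1 / e ^ 2 := by
      have : Real.sqrt (1 / e) ^ 4 = (Real.sqrt (1 / e) ^ 2) ^ 2 := by ring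
      rw [this, h2]; field_simp
    rw [h2, h3] at h1
    have h4 : 1 / e * e / 2 = 1 / 2 := by field_simp
    rw [h4] at h1
    have h5 : Real.exp (1 / 2) ≤ 5 / 3 := by
      have h6 : Real.exp (1 / 2) ^ 2 = Real.exp 1 := by
        rw [← Real.exp_nat_mul]; norm_num
      have h7 := Real.exp_one_lt_d9
      have h8 := Real.exp_pos (1 / 2)
      nlinarith
    have h6 : V = e ^ 2 * (1 / e ^ 2 * V) := by field_simp
    rw [h6]
    have h7 : 1 / e ^ 2 * V ≤ 40 := by linarith
    nlinarith [mul_le_mul_of_nonneg_left h7 (sq_nonneg e)]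

end Mom

end Crest.Agent.R167
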