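import Crest.Agent.R167.Defs

set_option autoImplicit false
open MeasureTheory Crest.ProbabilityR.SpinModel

/-! # Row 167: the uniform measure on the sphere, rotations, flows (node SPH) -/

namespace Crest.Agent.R167

open scoped Pointwise

variable {ι E : Type} [Fintype ι] [Fintype E] {n : ℕ}

instance isProb_unif [NeZero n] : IsProbabilityMeasure (unif n) := by
  have hn : 0 < n := Nat.pos_of_ne_zero (NeZero.ne n)
  have : Nontrivial (EuclideanSpace ℝ (Fin n)) := by
    have : Nonempty (Fin n) := ⟨⟨0, hn⟩⟩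
    infer_instance
  have : NeZero ((volume : Measure (EuclideanSpace ℝ (Fin n))).toSphere) :=
    ⟨Measure.toSphere_ne_zero _⟩
  unfold unif
  infer_instance

instance isProb_nu [NeZero n] : IsProbabilityMeasure (nu ι n) := by
  unfold nu
  infer_instance

/-- any linear isometry equivalence of `ℝⁿ` acting on the sphere preserves `unif`. -/
noncomputable def isoS (g : EuclideanSpace ℝ (Fin n) ≃ₗᵢ[ℝ] EuclideanSpace ℝ (Fin n)) (s : Sp n) :
    Sp n := ⟨g s, by simp⟩

theorem continuous_isoS (g : EuclideanSpace ℝ (Fin n) ≃ₗᵢ[ℝ] EuclideanSpace ℝ (Fin n)) :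
    Continuous (isoS g) := by
  unfold isoS
  exact Continuous.subtype_mk (g.continuous.comp continuous_subtype_val) _

theorem mp_isoS_toSphere (g : EuclideanSpace ℝ (Fin n) ≃ₗᵢ[ℝ] EuclideanSpace ℝ (Fin n)) :
    MeasurePreserving (isoS g) (volume : Measure (EuclideanSpace ℝ (Fin n))).toSphere
      (volume : Measure (EuclideanSpace ℝ (Fin n))).toSphere := by
  refine ⟨(continuous_isoS g).measurable, ?_⟩
  ext s hs
  rw [Measure.map_apply (continuous_isoS g).measurable hs,
    Measure.toSphere_apply' _ ((continuous_isoS g).measurable hs), Measure.toSphere_apply' _ hs]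
  congr 1
  have h1 : (Set.Ioo (0 : ℝ) 1 • ((↑) '' (isoS g ⁻¹' s) : Set (EuclideanSpace ℝ (Fin n))))
      = g ⁻¹' (Set.Ioo (0 : ℝ) 1 • ((↑) '' s : Set (EuclideanSpace ℝ (Fin n)))) := by
    ext x
    simp only [Set.mem_smul, Set.mem_image, Set.mem_preimage]
    constructor
    · rintro ⟨r, hr, _, ⟨y, hy, rfl⟩, rfl⟩
      exact ⟨r, hr, _, ⟨isoS g y, hy, rfl⟩, by simp [isoS]⟩
    · rintro ⟨r, hr, _, ⟨y, hy, rfl⟩, hx⟩
      refine ⟨r, hr, _, ⟨isoS g.symm y, ?_, rfl⟩, ?_⟩
      · have : isoS g (isoS g.symm y) = y := by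
          ext1; simp [isoS]
        rwa [this]
      · apply g.injective
        simp only [isoS, map_smul, LinearIsometryEquiv.apply_symm_apply]
        exact hx
  rw [h1]
  exact (g.measurePreserving).measure_preimage_equiv (f := g.toHomeomorph.toMeasurableEquiv) _

theorem mp_isoS [NeZero n] (g : EuclideanSpace ℝ (Fin n) ≃ₗᵢ[ℝ] EuclideanSpace ℝ (Fin n)) :
    MeasurePreserving (isoS g) (unif n) (unif n) := by
  have h := mp_isoS_toSphere g
  refine ⟨h.measurable, ?_⟩
  unfold unif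
  rw [Measure.map_smul, h.map_eq]

theorem rotV_apply_k {k l : Fin n} (θ : ℝ) (x : EuclideanSpace ℝ (Fin n)) :
    rotV k l θ x k = Real.cos θ * x k - Real.sin θ * x l := by simp [rotV]

theorem rotV_apply_l {k l : Fin n} (h : k ≠ l) (θ : ℝ) (x : EuclideanSpace ℝ (Fin n)) :
    rotV k l θ x l = Real.sin θ * x k + Real.cos θ * x l := by simp [rotV, Ne.symm h]

theorem rotV_apply_of_ne {k l i : Fin n} (h1 : i ≠ k) (h2 : i ≠ l) (θ : ℝ)
    (x : EuclideanSpace ℝ (Fin n)) : rotV k l θ x i = x i := by simp [rotV, h1, h2]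

theorem rotV_zero {k l : Fin n} (x : EuclideanSpace ℝ (Fin n)) : rotV k l 0 x = x := by
  ext i
  by_cases h1 : i = k
  · subst h1; simp [rotV]
  · by_cases h2 : i = l
    · subst h2; simp [rotV, h1]
    · simp [rotV, h1, h2]

theorem rotV_add {k l : Fin n} (h : k ≠ l) (a c : ℝ) (x : EuclideanSpace ℝ (Fin n)) :
    rotV k l (a + c) x = rotV k l a (rotV k l c x) := by
  ext i
  by_cases h1 : i = k
  · subst h1
    rw [rotV_apply_k, rotV_apply_k, rotV_apply_k, rotV_apply_l h, Real.cos_add, Real.sin_add]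
    ring
  · by_cases h2 : i = l
    · subst h2
      rw [rotV_apply_l h, rotV_apply_l h, rotV_apply_k, rotV_apply_l h, Real.cos_add,
        Real.sin_add]
      ring
    · rw [rotV_apply_of_ne h1 h2, rotV_apply_of_ne h1 h2, rotV_apply_of_ne h1 h2]

/-- `rotV` as a linear isometry equivalence. -/
noncomputable def rotE {k l : Fin n} (h : k ≠ l) (θ : ℝ) :
    EuclideanSpace ℝ (Fin n) ≃ₗᵢ[ℝ] EuclideanSpace ℝ (Fin n) where
  toFun := rotV k l θ
  invFun := rotV k l (-θ)
  map_add' x y := by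
    ext i
    simp only [rotV, PiLp.add_apply]
    split_ifs <;> ring
  map_smul' c x := by
    ext i
    simp only [rotV, PiLp.smul_apply, smul_eq_mul, RingHom.id_apply]
    split_ifs <;> ring
  left_inv x := by rw [← rotV_add h, neg_add_cancel, rotV_zero]
  right_inv x := by rw [← rotV_add h, add_neg_cancel, rotV_zero]
  norm_map' x := norm_rotV h θ x

@[simp] theorem rotE_apply {k l : Fin n} (h : k ≠ l) (θ : ℝ) (x : EuclideanSpace ℝ (Fin n)) :
    rotE h θ x = rotV k l θ x := rfl

theorem rotS_eq_isoS {k l : Fin n} (h : k ≠ l) (θ : ℝ) :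
    (rotS h θ : Sp n → Sp n) = isoS (rotE h θ) := rfl

theorem mp_rotS [NeZero n] {k l : Fin n} (h : k ≠ l) (θ : ℝ) :
    MeasurePreserving (rotS h θ) (unif n) (unif n) := by
  rw [rotS_eq_isoS]
  exact mp_isoS _

theorem coe_rotS {k l : Fin n} (h : k ≠ l) (θ : ℝ) (s : Sp n) :
    ((rotS h θ s : Sp n) : EuclideanSpace ℝ (Fin n)) = rotV k l θ s := rfl

theorem continuous_rotV {k l : Fin n} :
    Continuous fun p : ℝ × EuclideanSpace ℝ (Fin n) => rotV k l p.1 p.2 := by
  unfold rotV
  refine (PiLp.continuous_toLp 2 _).comp (continuous_pi fun i => ?_)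
  split_ifs <;> fun_prop

theorem continuous_rotS {k l : Fin n} (h : k ≠ l) :
    Continuous fun p : ℝ × Sp n => rotS h p.1 p.2 := by
  refine Continuous.subtype_mk ?_ _
  exact continuous_rotV.comp (f := fun p : ℝ × Sp n => (p.1, (p.2 : EuclideanSpace ℝ (Fin n))))
    (by fun_prop)

theorem rotS_zero {k l : Fin n} (h : k ≠ l) (s : Sp n) : rotS h 0 s = s := by
  ext1
  rw [coe_rotS, rotV_zero]

theorem rotS_add {k l : Fin n} (h : k ≠ l) (a c : ℝ) (s : Sp n) :
    rotS h (a + c) s = rotS h a (rotS h c s) := by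
  ext1
  rw [coe_rotS, coe_rotS, coe_rotS, rotV_add h]

theorem Flow_zero {k l : Fin n} (h : k ≠ l) (f : ι → ℝ) (s : Cf ι n) : Flow h f 0 s = s := by
  funext v
  simp only [Flow, zero_mul, rotS_zero]

theorem Flow_add {k l : Fin n} (h : k ≠ l) (f : ι → ℝ) (a c : ℝ) (s : Cf ι n) :
    Flow h f (a + c) s = Flow h f a (Flow h f c s) := by
  funext v
  simp only [Flow, add_mul, rotS_add]

theorem continuous_Flow {k l : Fin n} (h : k ≠ l) (f : ι → ℝ) :
    Continuous fun p : ℝ × Cf ι n => Flow h f p.1 p.2 := by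
  refine continuous_pi fun v => ?_
  exact (continuous_rotS h).comp (f := fun p : ℝ × Cf ι n => (p.1 * f v, p.2 v)) (by fun_prop)

theorem mp_Flow [NeZero n] {k l : Fin n} (h : k ≠ l) (f : ι → ℝ) (t : ℝ) :
    MeasurePreserving (Flow h f t) (nu ι n) (nu ι n) := by
  unfold nu Flow
  exact measurePreserving_pi _ _ fun v => mp_rotS h (t * f v)

end Crest.Agent.R167
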