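import Crest.Agent.R167.Defs

set_option autoImplicit false
open MeasureTheory Crest.ProbabilityR.SpinModel

/-! # Row 167: geometric definitions and the frozen intermediate statements -/

namespace Crest.Agent.R167

variable {ι E : Type} [Fintype ι] [Fintype E] {n : ℕ}

/-- `K^{kl}(S) = E[(P_S X_f I)²]`, `E = P_{F0}(·)(τ)`. -/
noncomputable def KK (G : Gr ι E) (F0 S : Set ι) (k l : Fin n) (f : ι → ℝ) (τ : Cf ι n) : ℝ :=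
  P G F0 (fun s => P G S (XI G k l f) s ^ 2) τ

/-- one-dimensional cut-off: `1` for `|t| ≤ 3R/2`, `0` for `|t| ≥ 5R/2`, linear between. -/
noncomputable def phi (R : ℕ) (t : ℤ) : ℝ := max 0 (min 1 (5 / 2 - |(t : ℝ)| / R))

/-- the cut-off `f`. -/
noncomputable def cut (x : ℤ × ℤ) (R : ℕ) (v : ℤ × ℤ) : ℝ := phi R (v.1 - x.1) * phi R (v.2 - x.2)

/-- one-dimensional hat of width `a`. -/
noncomputable def hat1 (a : ℕ) (t : ℤ) : ℝ := max 0 (1 - |(t : ℝ)| / a)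

/-- hat function `ψ_z` at the node `z` for the mesh `a`. -/
noncomputable def hat (a : ℕ) (z v : ℤ × ℤ) : ℝ := hat1 a (v.1 - z.1) * hat1 a (v.2 - z.2)

/-- vertices on the grid lines of mesh `a` and offset `o`. -/
def Grid (V : Finset (ℤ × ℤ)) (a : ℕ) (o : ℤ × ℤ) : Set V :=
  {v | (a : ℤ) ∣ (v : ℤ × ℤ).1 - o.1 ∨ (a : ℤ) ∣ (v : ℤ × ℤ).2 - o.2}

/-- open cell around `z`: `|v - z| < a` in sup norm. -/
def ocell (V : Finset (ℤ × ℤ)) (z : ℤ × ℤ) (a : ℕ) : Set V :=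
  {v | |(v : ℤ × ℤ).1 - z.1| < a ∧ |(v : ℤ × ℤ).2 - z.2| < a}

/-- restriction of a function on `ℤ²` to `V`. -/
def rs (V : Finset (ℤ × ℤ)) (g : ℤ × ℤ → ℝ) (v : V) : ℝ := g v

/-- NODE STEP: one dyadic coarse-graining step. `F0` = frozen set, `A = (l,m)`, `B = (m,k)`,
`C = (k,l)`. -/
def StepProp : Prop := ∀ (n : ℕ), 3 ≤ n → ∀ β : ℝ, 0 < β → ∃ C : ℝ, 0 ≤ C ∧
  ∀ (R a : ℕ), 1 ≤ a → 100 * a ≤ R →
  ∀ (V : Finset (ℤ × ℤ)) (b : ℤ × ℤ → Fin 2 → ℝ), (∀ u i, 0 ≤ b u i ∧ b u i ≤ β) →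
  ∀ (x : ℤ × ℤ) (k l m : Fin n), k ≠ l → l ≠ m → m ≠ k →
  ∀ (o : ℤ × ℤ) (S : Set V), (bx V x (4 * R))ᶜ ⊆ S → bx V x R ⊆ S → Grid V a o ⊆ S →
  ∀ τ : Cf V n, ∃ (o' : ℤ × ℤ) (S' : Set V), S' ⊆ S ∧ (bx V x (4 * R))ᶜ ⊆ S' ∧ bx V x R ⊆ S' ∧
    Grid V (2 * a) o' ⊆ S' ∧
    KK (latG V b) (bx V x (4 * R))ᶜ S k l (rs V (cut x R)) τ ≤
      C * Real.sqrt
        ((KK (latG V b) (bx V x (4 * R))ᶜ S l m (rs V (cut x R)) τ +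
            KK (latG V b) (bx V x (4 * R))ᶜ S m k (rs V (cut x R)) τ) -
          (KK (latG V b) (bx V x (4 * R))ᶜ S' l m (rs V (cut x R)) τ +
            KK (latG V b) (bx V x (4 * R))ᶜ S' m k (rs V (cut x R)) τ))
      + C * Real.sqrt (a / R)

/-- output of NODE CHAIN: the torque across the annulus is small. -/
def AnnulusSmall : Prop := ∀ (n : ℕ), 3 ≤ n → ∀ β ε : ℝ, 0 < β → 0 < ε → ∃ R0 : ℕ, 1 ≤ R0 ∧
  ∀ R : ℕ, R0 ≤ R →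
  ∀ (V : Finset (ℤ × ℤ)) (b : ℤ × ℤ → Fin 2 → ℝ), (∀ u i, 0 ≤ b u i ∧ b u i ≤ β) →
  ∀ (x : ℤ × ℤ) (k l : Fin n), k ≠ l → ∀ τ : Cf V n,
    KK (latG V b) (bx V x (4 * R))ᶜ ((bx V x (4 * R))ᶜ ∪ bx V x R) k l (rs V (cut x R)) τ ≤ ε

end Crest.Agent.R167
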