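import Crest.Agent.R167.PCalc
import Crest.Agent.R167.MomM1
import Crest.Agent.R167.Iface

set_option autoImplicit false
open MeasureTheory Crest.ProbabilityR.SpinModel

/-! # Row 167, NODE CHAIN: `StepProp → AnnulusSmall` -/

namespace Crest.Agent.R167

/-! ## the energy of the cut-off -/

lemma Chain.phi_nonneg (R : ℕ) (t : ℤ) : 0 ≤ phi R t := le_max_left _ _

lemma Chain.phi_le_one (R : ℕ) (t : ℤ) : phi R t ≤ 1 :=
  max_le (by norm_num) (min_le_left _ _)

lemma Chain.phi_zero (R : ℕ) (hR : 1 ≤ R) (t : ℤ) (ht : (4 : ℤ) * R ≤ |t|) : phi R t = 0 := by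
  have hR' : (0 : ℝ) < R := by exact_mod_cast hR
  have h1 : (4 : ℝ) * R ≤ |(t : ℝ)| := by exact_mod_cast ht
  have h2 : (4 : ℝ) ≤ |(t : ℝ)| / R := by rw [le_div_iff₀ hR']; exact h1
  unfold phi
  apply max_eq_left
  exact (min_le_right _ _).trans (by linarith)

lemma Chain.phi_step (R : ℕ) (hR : 1 ≤ R) (t t' : ℤ) (h : |t - t'| ≤ 1) :
    |phi R t - phi R t'| ≤ 1 / R := by
  have hR' : (0 : ℝ) < R := by exact_mod_cast hR
  unfold phi
  have h1 : abs (|(t : ℝ)| - |(t' : ℝ)|) ≤ 1 := by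
    refine (abs_abs_sub_abs_le _ _).trans ?_
    exact_mod_cast h
  calc |max 0 (min 1 (5 / 2 - |(t : ℝ)| / R)) - max 0 (min 1 (5 / 2 - |(t' : ℝ)| / R))|
      ≤ |min 1 (5 / 2 - |(t : ℝ)| / R) - min 1 (5 / 2 - |(t' : ℝ)| / R)| := by
        refine (abs_max_sub_max_le_max _ _ _ _).trans ?_
        simp
    _ ≤ |(5 / 2 - |(t : ℝ)| / R) - (5 / 2 - |(t' : ℝ)| / R)| := by
        refine (abs_min_sub_min_le_max _ _ _ _).trans ?_
        simp
    _ = abs (|(t : ℝ)| - |(t' : ℝ)|) / R := by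
        rw [show (5 / 2 - |(t : ℝ)| / R) - (5 / 2 - |(t' : ℝ)| / R)
          = -((|(t : ℝ)| - |(t' : ℝ)|) / R) by ring, abs_neg, abs_div, abs_of_pos hR']
    _ ≤ 1 / R := by gcongr

/-- the cut-off vanishes off the box of radius `4R`. -/
lemma Chain.cut_zero (x : ℤ × ℤ) (R : ℕ) (hR : 1 ≤ R) (v : ℤ × ℤ)
    (hv : (4 : ℤ) * R ≤ |v.1 - x.1| ∨ (4 : ℤ) * R ≤ |v.2 - x.2|) : cut x R v = 0 := by
  unfold cut
  rcases hv with h | h
  · rw [Chain.phi_zero R hR _ h, zero_mul]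
  · rw [Chain.phi_zero R hR _ h, mul_zero]

lemma Chain.cut_step (x : ℤ × ℤ) (R : ℕ) (hR : 1 ≤ R) (v : ℤ × ℤ) (i : Fin 2) :
    |cut x R (v + latticeDir i) - cut x R v| ≤ 1 / R := by
  unfold cut
  fin_cases i
  · simp only [latticeDir, Fin.zero_eta, if_true, Prod.fst_add, Prod.snd_add, add_zero]
    rw [← sub_mul, abs_mul]
    calc _ ≤ (1 / R) * (1 : ℝ) := by
            refine mul_le_mul (Chain.phi_step R hR _ _ (by simp)) ?_ (abs_nonneg _) (by positivity)
            rw [abs_of_nonneg (Chain.phi_nonneg _ _)]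
            exact Chain.phi_le_one _ _
      _ = 1 / R := mul_one _
  · simp only [latticeDir, Fin.mk_one, one_ne_zero, if_false, Prod.fst_add, Prod.snd_add, add_zero]
    rw [← mul_sub, abs_mul]
    calc _ ≤ (1 : ℝ) * (1 / R) := by
            refine mul_le_mul ?_ (Chain.phi_step R hR _ _ (by simp)) (abs_nonneg _) (by norm_num)
            rw [abs_of_nonneg (Chain.phi_nonneg _ _)]
            exact Chain.phi_le_one _ _
      _ = 1 / R := one_mul _

lemma Chain.card_bx (V : Finset (ℤ × ℤ)) (x : ℤ × ℤ) (R : ℕ) (W : Finset V)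
    (hW : ∀ v ∈ W, v ∈ bx V x R) : (W.card : ℝ) ≤ (2 * R + 1) ^ 2 := by
  have h1 : W.card ≤ ((Finset.Icc (x.1 - R) (x.1 + R)) ×ˢ (Finset.Icc (x.2 - R) (x.2 + R))).card := by
    refine Finset.card_le_card_of_injOn (fun v : V => (v : ℤ × ℤ)) ?_ ?_
    · intro v hv
      obtain ⟨h1, h2⟩ := hW v hv
      rw [abs_le] at h1 h2
      simp only [Finset.coe_product, Finset.coe_Icc, Set.mem_prod, Set.mem_Icc]
      omega
    · intro a _ c _ h
      exact Subtype.ext h
  have h2 : ((Finset.Icc (x.1 - R) (x.1 + R)) ×ˢ (Finset.Icc (x.2 - R) (x.2 + R))).card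
      = (2 * R + 1) ^ 2 := by
    rw [Finset.card_product, Int.card_Icc, Int.card_Icc, sq]
    congr 1 <;> omega
  rw [h2] at h1
  exact_mod_cast h1

lemma Chain.En_cut_le (V : Finset (ℤ × ℤ)) (b : ℤ × ℤ → Fin 2 → ℝ) (β : ℝ) (hβ : 0 < β)
    (hb : ∀ u i, 0 ≤ b u i ∧ b u i ≤ β) (x : ℤ × ℤ) (R : ℕ) (hR : 1 ≤ R) :
    (latG V b).En (rs V (cut x R)) ≤ 162 * β := by
  classical
  have hR' : (1 : ℝ) ≤ R := by exact_mod_cast hR
  have hterm : ∀ e : V × Fin 2, (latG V b).b e *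
      (rs V (cut x R) ((latG V b).tgt e) - rs V (cut x R) ((latG V b).src e)) ^ 2
      ≤ if e.1 ∈ bx V x (4 * R) then β / R ^ 2 else 0 := by
    intro e
    by_cases he : (e.1 : ℤ × ℤ) + latticeDir e.2 ∈ V
    · have h1 : (latG V b).b e = b e.1 e.2 := by simp [latG, he]
      have h2 : rs V (cut x R) ((latG V b).tgt e) = cut x R ((e.1 : ℤ × ℤ) + latticeDir e.2) := by
        simp [latG, he, rs]
      have h3 : rs V (cut x R) ((latG V b).src e) = cut x R (e.1 : ℤ × ℤ) := rfl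
      rw [h1, h2, h3]
      split_ifs with hm
      · have h4 := Chain.cut_step x R hR (e.1 : ℤ × ℤ) e.2
        have h5 : (cut x R ((e.1 : ℤ × ℤ) + latticeDir e.2) - cut x R (e.1 : ℤ × ℤ)) ^ 2
            ≤ (1 / R) ^ 2 := by
          rw [← sq_abs]
          gcongr
        calc _ ≤ β * (1 / R) ^ 2 :=
              mul_le_mul (hb _ _).2 h5 (sq_nonneg _) hβ.le
          _ = β / R ^ 2 := by ring
      · have hc : ((4 : ℤ) * R < |(e.1 : ℤ × ℤ).1 - x.1| ∨
            (4 : ℤ) * R < |(e.1 : ℤ × ℤ).2 - x.2|) := by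
          by_contra hcon
          push Not at hcon
          exact hm ⟨by push_cast; exact hcon.1, by push_cast; exact hcon.2⟩
        have h6 : cut x R (e.1 : ℤ × ℤ) = 0 :=
          Chain.cut_zero x R hR _ (hc.imp le_of_lt le_of_lt)
        have h7 : cut x R ((e.1 : ℤ × ℤ) + latticeDir e.2) = 0 := by
          apply Chain.cut_zero x R hR
          have hd1 : |(latticeDir e.2).1| ≤ 1 ∧ |(latticeDir e.2).2| ≤ 1 := by
            unfold latticeDir
            split_ifs <;> simp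
          obtain ⟨hd1, hd2⟩ := hd1
          simp only [Prod.fst_add, Prod.snd_add]
          rcases hc with h | h
          · left
            have := abs_sub_abs_le_abs_sub ((e.1 : ℤ × ℤ).1 - x.1) (-(latticeDir e.2).1)
            rw [abs_neg] at this
            have h8 : (e.1 : ℤ × ℤ).1 - x.1 - -(latticeDir e.2).1
              = (e.1 : ℤ × ℤ).1 + (latticeDir e.2).1 - x.1 := by ring
            rw [h8] at this
            omega
          · right
            have := abs_sub_abs_le_abs_sub ((e.1 : ℤ × ℤ).2 - x.2) (-(latticeDir e.2).2)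
            rw [abs_neg] at this
            have h8 : (e.1 : ℤ × ℤ).2 - x.2 - -(latticeDir e.2).2
              = (e.1 : ℤ × ℤ).2 + (latticeDir e.2).2 - x.2 := by ring
            rw [h8] at this
            omega
        rw [h6, h7]
        simp
    · have h1 : (latG V b).b e = 0 := by simp [latG, he]
      rw [h1, zero_mul]
      split_ifs
      · positivity
      · exact le_rfl
  calc (latG V b).En (rs V (cut x R))
      ≤ ∑ e : V × Fin 2, if e.1 ∈ bx V x (4 * R) then β / R ^ 2 else 0 :=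
        Finset.sum_le_sum fun e _ => hterm e
    _ = 2 * (((Finset.univ.filter fun v : V => v ∈ bx V x (4 * R)).card : ℝ) * (β / R ^ 2)) := by
        rw [Fintype.sum_prod_type, Finset.sum_comm, Fin.sum_univ_two, ← Finset.sum_filter,
          Finset.sum_const, nsmul_eq_mul]
        ring
    _ ≤ 2 * ((2 * ((4 * R : ℕ) : ℝ) + 1) ^ 2 * (β / R ^ 2)) := by
        gcongr
        exact Chain.card_bx V x (4 * R) _ (fun v hv => (Finset.mem_filter.mp hv).2)
    _ ≤ 2 * ((9 * R) ^ 2 * (β / R ^ 2)) := by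
        gcongr
        push_cast
        linarith
    _ = 162 * β := by
        field_simp
        ring

/-! ## properties of `KK` -/
section KK
variable {ι E : Type} [Fintype ι] [Fintype E] {n : ℕ} [NeZero n]

omit [Fintype ι] [NeZero n] in
lemma Chain.continuous_XI (G : Gr ι E) (k l : Fin n) (f : ι → ℝ) :
    Continuous (XI G k l f) := by
  unfold XI cur
  fun_prop

lemma Chain.KK_nonneg (G : Gr ι E) (F0 S : Set ι) (k l : Fin n) (f : ι → ℝ) (τ : Cf ι n) :
    0 ≤ KK G F0 S k l f τ := P_nonneg G (fun _ => sq_nonneg _) τ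

lemma Chain.KK_mono (G : Gr ι E) {F0 S' S : Set ι} (h0 : F0 ⊆ S') (h : S' ⊆ S) {k l : Fin n}
    (hkl : k ≠ l) (f : ι → ℝ) (τ : Cf ι n) : KK G F0 S' k l f τ ≤ KK G F0 S k l f τ := by
  have h1 := P_pyth G h0 h (Chain.continuous_XI G k l f) τ
  have h2 : 0 ≤ P G F0 (fun s => (P G S (XI G k l f) s - P G S' (XI G k l f) s) ^ 2) τ :=
    P_nonneg G (fun _ => sq_nonneg _) τ
  unfold KK
  linarith

lemma Chain.KK_univ_le (G : Gr ι E) (hb : ∀ e, 0 ≤ G.b e) {F0 : Set ι} {k l : Fin n}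
    (hkl : k ≠ l) {f : ι → ℝ} (hf : ∀ v ∈ F0, f v = 0) (τ : Cf ι n) :
    KK G F0 Set.univ k l f τ ≤ G.En f := by
  have h1 : ∀ s : Cf ι n, P G Set.univ (XI G k l f) s = XI G k l f s := by
    intro s
    refine P_of_dep G (A := Set.univ) ?_ s
    intro s t hst
    have : s = t := funext fun v => hst v (Set.mem_univ v)
    rw [this]
  unfold KK
  simp only [h1]
  exact E_sq_XI G hb hkl hf τ

end KK

/-! ## the chain -/

/-- `StepProp` at one `(n, β)` with the constant `C`. -/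
def Chain.StepAt (n : ℕ) (β C : ℝ) : Prop := 
  ∀ (R a : ℕ), 1 ≤ a → 100 * a ≤ R →
  ∀ (V : Finset (ℤ × ℤ)) (b : ℤ × ℤ → Fin 2 → ℝ), (∀ u i, 0 ≤ b u i ∧ b u i ≤ β) →
  ∀ (x : ℤ × ℤ) (k l m : Fin n), k ≠ l → l ≠ m → m ≠ k →
  ∀ (o : ℤ × ℤ) (S : Set V), (bx V x (4 * R))ᶜ ⊆ S → bx V x R ⊆ S → Grid V a o ⊆ S →
  ∀ τ : Cf V n, ∃ (o' : ℤ × ℤ) (S' : Set V), S' ⊆ S ∧ (bx V x (4 * R))ᶜ ⊆ S' ∧ bx V x R ⊆ S' ∧
    Grid V (2 * a) o' ⊆ S' ∧
    KK (latG V b) (bx V x (4 * R))ᶜ S k l (rs V (cut x R)) τ ≤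
      C * Real.sqrt
        ((KK (latG V b) (bx V x (4 * R))ᶜ S l m (rs V (cut x R)) τ +
            KK (latG V b) (bx V x (4 * R))ᶜ S m k (rs V (cut x R)) τ) -
          (KK (latG V b) (bx V x (4 * R))ᶜ S' l m (rs V (cut x R)) τ +
            KK (latG V b) (bx V x (4 * R))ᶜ S' m k (rs V (cut x R)) τ))
      + C * Real.sqrt (a / R)

lemma Chain.induct {n : ℕ} [NeZero n] {β C κ : ℝ} (hC : 0 ≤ C) (hst : Chain.StepAt n β C)
    (R : ℕ) (V : Finset (ℤ × ℤ)) (b : ℤ × ℤ → Fin 2 → ℝ)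
    (hb : ∀ u i, 0 ≤ b u i ∧ b u i ≤ β) (x : ℤ × ℤ) (k l m : Fin n) (hkl : k ≠ l) (hlm : l ≠ m)
    (hmk : m ≠ k) (τ : Cf V n) (N : ℕ) (hN : 100 * 2 ^ N ≤ R) :
    (∃ S : Set V, (bx V x (4 * R))ᶜ ⊆ S ∧ bx V x R ⊆ S ∧
      KK (latG V b) (bx V x (4 * R))ᶜ S k l (rs V (cut x R)) τ
        ≤ C * Real.sqrt κ + C * Real.sqrt (2 ^ N / R)) ∨
    (∃ (o : ℤ × ℤ) (S : Set V), (bx V x (4 * R))ᶜ ⊆ S ∧ bx V x R ⊆ S ∧ Grid V (2 ^ N) o ⊆ S ∧
      (KK (latG V b) (bx V x (4 * R))ᶜ S l m (rs V (cut x R)) τ +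
          KK (latG V b) (bx V x (4 * R))ᶜ S m k (rs V (cut x R)) τ) ≤
        (KK (latG V b) (bx V x (4 * R))ᶜ Set.univ l m (rs V (cut x R)) τ +
          KK (latG V b) (bx V x (4 * R))ᶜ Set.univ m k (rs V (cut x R)) τ) - N * κ) := by
  induction N with
  | zero =>
    right
    refine ⟨0, Set.univ, Set.subset_univ _, Set.subset_univ _, Set.subset_univ _, ?_⟩
    simp
  | succ N ih =>
    have hN' : 100 * 2 ^ N ≤ R := by
      rw [pow_succ] at hN; omega
    have hR0 : (0 : ℝ) < R := by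
      have : 0 < R := lt_of_lt_of_le (by positivity) hN
      exact_mod_cast this
    have hsq : Real.sqrt ((2 : ℝ) ^ N / R) ≤ Real.sqrt (2 ^ (N + 1) / R) := by
      apply Real.sqrt_le_sqrt
      gcongr
      · norm_num
      · omega
    rcases ih hN' with ⟨S, h1, h2, h3⟩ | ⟨o, S, h1, h2, h3, h4⟩
    · left
      refine ⟨S, h1, h2, h3.trans ?_⟩
      gcongr
    · obtain ⟨o', S', g1, g2, g3, g4, g5⟩ :=
        hst R (2 ^ N) (Nat.one_le_two_pow) hN' V b hb x k l m hkl hlm hmk o S h1 h2 h3 τ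
      by_cases hk : (KK (latG V b) (bx V x (4 * R))ᶜ S l m (rs V (cut x R)) τ +
            KK (latG V b) (bx V x (4 * R))ᶜ S m k (rs V (cut x R)) τ) -
          (KK (latG V b) (bx V x (4 * R))ᶜ S' l m (rs V (cut x R)) τ +
            KK (latG V b) (bx V x (4 * R))ᶜ S' m k (rs V (cut x R)) τ) ≤ κ
      · left
        refine ⟨S, h1, h2, g5.trans ?_⟩
        have e1 := Real.sqrt_le_sqrt hk
        have e2 : Real.sqrt (((2 ^ N : ℕ) : ℝ) / R) ≤ Real.sqrt (2 ^ (N + 1) / R) := by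
          push_cast; exact hsq
        gcongr
      · right
        refine ⟨o', S', g2, g3, ?_, ?_⟩
        · rw [pow_succ, mul_comm]; exact g4
        · push Not at hk
          push_cast
          linarith

theorem annulusSmall_of (hS : StepProp) : AnnulusSmall := by
  intro n hn β ε hβ hε
  have hn0 : NeZero n := ⟨by omega⟩
  obtain ⟨C, hC, hst⟩ := hS n hn β hβ
  -- parameters
  set κ : ℝ := (ε / (2 * (C + 1))) ^ 2 with hκ
  have hκ0 : 0 < κ := by positivity
  have hsκ : Real.sqrt κ = ε / (2 * (C + 1)) := by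
    rw [hκ, Real.sqrt_sq (by positivity)]
  have hCκ : C * Real.sqrt κ ≤ ε / 2 := by
    rw [hsκ]
    calc C * (ε / (2 * (C + 1))) ≤ (C + 1) * (ε / (2 * (C + 1))) := by gcongr; linarith
      _ = ε / 2 := by field_simp
  obtain ⟨N, hN⟩ := exists_nat_gt (324 * β / κ)
  have hNκ : 324 * β < N * κ := by rwa [div_lt_iff₀ hκ0] at hN
  obtain ⟨R1, hR1⟩ := exists_nat_ge ((2 : ℝ) ^ N / κ)
  refine ⟨max (100 * 2 ^ N) R1, ?_, ?_⟩
  · exact le_max_of_le_left (by have : 0 < 2 ^ N := by positivity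
                                omega)
  intro R hR V b hb x k l hkl τ
  have hRN : 100 * 2 ^ N ≤ R := (le_max_left _ _).trans hR
  have hRR1 : (R1 : ℝ) ≤ R := by exact_mod_cast (le_max_right _ _).trans hR
  have hR1' : 1 ≤ R := le_trans (by have : 0 < 2 ^ N := by positivity
                                    omega) hRN
  have hR0 : (0 : ℝ) < R := by exact_mod_cast hR1'
  have hq : (2 : ℝ) ^ N / R ≤ κ := by
    rw [div_le_iff₀ hR0]
    have h1 : (2 : ℝ) ^ N ≤ κ * R1 := by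
      rw [div_le_iff₀ hκ0] at hR1
      linarith
    have h2 : κ * R1 ≤ κ * R := by gcongr
    exact h1.trans h2
  -- the third index
  obtain ⟨m, hlm, hmk⟩ : ∃ m : Fin n, l ≠ m ∧ m ≠ k := by
    have h3 : ({k, l} : Finset (Fin n)).card < (Finset.univ : Finset (Fin n)).card := by
      rw [Finset.card_univ, Fintype.card_fin]
      exact lt_of_le_of_lt Finset.card_le_two (by omega)
    obtain ⟨m, -, hm⟩ := Finset.exists_mem_notMem_of_card_lt_card h3
    simp only [Finset.mem_insert, Finset.mem_singleton, not_or] at hm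
    exact ⟨m, fun h => hm.2 h.symm, hm.1⟩
  have hb0 : ∀ e, 0 ≤ (latG V b).b e := by
    intro e
    simp only [latG]
    split_ifs
    · exact (hb _ _).1
    · exact le_rfl
  have hf0 : ∀ v ∈ (bx V x (4 * R))ᶜ, rs V (cut x R) v = 0 := by
    intro v hv
    apply Chain.cut_zero x R hR1'
    by_contra hcon
    push Not at hcon
    exact hv ⟨by push_cast; exact hcon.1.le, by push_cast; exact hcon.2.le⟩
  have hEn := Chain.En_cut_le V b β hβ hb x R hR1'
  have hfin : ∀ S : Set V, (bx V x (4 * R))ᶜ ⊆ S → bx V x R ⊆ S →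
      KK (latG V b) (bx V x (4 * R))ᶜ ((bx V x (4 * R))ᶜ ∪ bx V x R) k l (rs V (cut x R)) τ
        ≤ KK (latG V b) (bx V x (4 * R))ᶜ S k l (rs V (cut x R)) τ := fun S h1 h2 =>
    Chain.KK_mono _ Set.subset_union_left (Set.union_subset h1 h2) hkl _ τ
  rcases Chain.induct (κ := κ) hC hst R V b hb x k l m hkl hlm hmk τ N hRN with
    ⟨S, h1, h2, h3⟩ | ⟨o, S, h1, h2, h3, h4⟩
  · refine (hfin S h1 h2).trans (h3.trans ?_)
    have h5 : C * Real.sqrt (2 ^ N / R) ≤ ε / 2 :=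
      (mul_le_mul_of_nonneg_left (Real.sqrt_le_sqrt hq) hC).trans hCκ
    linarith
  · exfalso
    have e1 := Chain.KK_nonneg (latG V b) (bx V x (4 * R))ᶜ S l m (rs V (cut x R)) τ
    have e2 := Chain.KK_nonneg (latG V b) (bx V x (4 * R))ᶜ S m k (rs V (cut x R)) τ
    have e3 := Chain.KK_univ_le (latG V b) hb0 hlm hf0 τ
    have e4 := Chain.KK_univ_le (latG V b) hb0 hmk hf0 τ
    linarith

end Crest.Agent.R167
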