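import Crest.Agent.R167.Ising

/-! Row 167, Part D: local field inequality for finite ferromagnetic Ising systems. -/

set_option autoImplicit false
set_option linter.unusedSectionVars false

namespace Crest.Agent.R167.Ising

open Finset

lemma tanh_lip (a b : ℝ) : |Real.tanh a - Real.tanh b| ≤ |a - b| := by
  have hd : ∀ x ∈ (Set.univ : Set ℝ), HasDerivWithinAt Real.tanh (1 / Real.cosh x ^ 2) Set.univ x := by
    intro x _
    have h1 : Real.tanh = fun x => Real.sinh x / Real.cosh x := by
      funext y; exact Real.tanh_eq_sinh_div_cosh y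
    rw [h1, hasDerivWithinAt_univ]
    have h2 := (Real.hasDerivAt_sinh x).div (Real.hasDerivAt_cosh x) (Real.cosh_pos x).ne'
    rw [show (Real.cosh x * Real.cosh x - Real.sinh x * Real.sinh x) = 1 by
      have := Real.cosh_sq x
      nlinarith] at h2
    exact h2
  have hb : ∀ x ∈ (Set.univ : Set ℝ), ‖1 / Real.cosh x ^ 2‖ ≤ 1 := by
    intro x _
    have h1 : 1 ≤ Real.cosh x := Real.one_le_cosh x
    rw [Real.norm_eq_abs, abs_of_nonneg (by positivity)]
    rw [div_le_one (by positivity)]
    nlinarith
  have := Convex.norm_image_sub_le_of_norm_hasDerivWithin_le hd hb convex_univ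
    (Set.mem_univ b) (Set.mem_univ a)
  simpa [Real.norm_eq_abs] using this

variable {V E : Type*} [Fintype V] [DecidableEq V] [Fintype E] [DecidableEq E]

/-- energy -/
noncomputable def En (s t : E → V) (J : E → ℝ) (ε : V → ℤˣ) : ℝ :=
  ∑ e, J e * (r (ε (s e)) * r (ε (t e)))

/-- local field at `z` -/
noncomputable def fld (s t : E → V) (J : E → ℝ) (z : V) (ε : V → ℤˣ) : ℝ :=
  ∑ e, J e * ((if s e = z then r (ε (t e)) else 0) + (if t e = z then r (ε (s e)) else 0))

lemma flip_apply (z u : V) (ε : V → ℤˣ) :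
    r ((flip {z} * ε) u) = if u = z then - r (ε u) else r (ε u) := by
  by_cases h : u = z
  · subst h; simp [flip, r_neg]
  · simp [flip, h]

lemma fld_flip (s t : E → V) (J : E → ℝ) (hloop : ∀ e, s e = t e → J e = 0) (z : V)
    (ε : V → ℤˣ) : fld s t J z (flip {z} * ε) = fld s t J z ε := by
  unfold fld
  refine Finset.sum_congr rfl ?_
  intro e _
  by_cases hl : s e = t e
  · simp [hloop e hl]
  · congr 1
    congr 1
    · by_cases h : s e = z
      · have : t e ≠ z := fun h2 => hl (h.trans h2.symm)
        rw [if_pos h, if_pos h, flip_apply, if_neg this]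
      · rw [if_neg h, if_neg h]
    · by_cases h : t e = z
      · have : s e ≠ z := fun h2 => hl (h2.trans h.symm)
        rw [if_pos h, if_pos h, flip_apply, if_neg this]
      · rw [if_neg h, if_neg h]

lemma En_flip (s t : E → V) (J : E → ℝ) (hloop : ∀ e, s e = t e → J e = 0) (z : V)
    (ε : V → ℤˣ) :
    En s t J (flip {z} * ε) = En s t J ε - 2 * (r (ε z) * fld s t J z ε) := by
  unfold En fld
  rw [Finset.mul_sum, Finset.mul_sum, ← Finset.sum_sub_distrib]
  refine Finset.sum_congr rfl ?_
  intro e _
  rw [flip_apply, flip_apply]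
  by_cases hl : s e = t e
  · simp [hloop e hl]
  · by_cases h : s e = z
    · have h2 : t e ≠ z := fun h2 => hl (h.trans h2.symm)
      simp only [h, h2, if_true, if_false]
      rw [← h]; ring
    · by_cases h3 : t e = z
      · simp only [h, h3, if_true, if_false]
        ring
      · simp only [h, h3, if_false]
        ring

lemma W_pair (s t : E → V) (J : E → ℝ) (hloop : ∀ e, s e = t e → J e = 0) (z : V)
    (ε : V → ℤˣ) :
    r (ε z) * (W s t J ε - W s t J (flip {z} * ε))
      = Real.tanh (fld s t J z ε) * (W s t J ε + W s t J (flip {z} * ε)) := by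
  have h1 : W s t J ε = Real.exp (En s t J ε) := rfl
  have h2 : W s t J (flip {z} * ε) = Real.exp (En s t J (flip {z} * ε)) := rfl
  rw [h1, h2, En_flip s t J hloop z ε]
  set h := fld s t J z ε
  set A := En s t J ε
  have hc : Real.cosh h ≠ 0 := (Real.cosh_pos h).ne'
  rw [Real.tanh_eq_sinh_div_cosh]
  have e1 : Real.sinh h = (Real.exp h - Real.exp (-h)) / 2 := Real.sinh_eq h
  have e2 : Real.cosh h = (Real.exp h + Real.exp (-h)) / 2 := Real.cosh_eq h
  rw [div_mul_eq_mul_div, eq_div_iff hc, e1, e2]
  rcases r_cases (ε z) with hr | hr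
  · rw [hr]
    have e3 : Real.exp A = Real.exp (A - h) * Real.exp h := by rw [← Real.exp_add]; ring_nf
    have e4 : Real.exp (A - 2 * (1 * h)) = Real.exp (A - h) * Real.exp (-h) := by
      rw [← Real.exp_add]; ring_nf
    rw [e3, e4]; ring
  · rw [hr]
    have e3 : Real.exp A = Real.exp (A + h) * Real.exp (-h) := by rw [← Real.exp_add]; ring_nf
    have e4 : Real.exp (A - 2 * (-1 * h)) = Real.exp (A + h) * Real.exp h := by
      rw [← Real.exp_add]; ring_nf
    rw [e3, e4]; ring

lemma sum_flip (z : V) (F : (V → ℤˣ) → ℝ) :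
    ∑ ε : V → ℤˣ, F (flip {z} * ε) = ∑ ε : V → ℤˣ, F ε :=
  Fintype.sum_equiv (Equiv.mulLeft (flip {z})) _ _ (fun ε => by simp [Equiv.mulLeft])

lemma sum_tanh (s t : E → V) (J : E → ℝ) (hloop : ∀ e, s e = t e → J e = 0) (z y : V)
    (hzy : y ≠ z) :
    ∑ ε : V → ℤˣ, (r (ε z) * r (ε y)) * W s t J ε
      = ∑ ε : V → ℤˣ, (r (ε y) * Real.tanh (fld s t J z ε)) * W s t J ε := by
  have h1 : ∑ ε : V → ℤˣ, (r (ε z) * r (ε y)) * W s t J ε
      = - ∑ ε : V → ℤˣ, (r (ε z) * r (ε y)) * W s t J (flip {z} * ε) := by
    rw [← sum_flip z, ← Finset.sum_neg_distrib]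
    refine Finset.sum_congr rfl (fun ε _ => ?_)
    rw [flip_apply, flip_apply, if_pos rfl, if_neg hzy]
    ring
  have h2 : ∑ ε : V → ℤˣ, (r (ε y) * Real.tanh (fld s t J z ε)) * W s t J ε
      = ∑ ε : V → ℤˣ, (r (ε y) * Real.tanh (fld s t J z ε)) * W s t J (flip {z} * ε) := by
    rw [← sum_flip z]
    refine Finset.sum_congr rfl (fun ε _ => ?_)
    rw [flip_apply, if_neg hzy, fld_flip s t J hloop z ε]
  have h3 : ∑ ε : V → ℤˣ, (r (ε z) * r (ε y)) * W s t J ε
      - ∑ ε : V → ℤˣ, (r (ε z) * r (ε y)) * W s t J (flip {z} * ε)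
      = ∑ ε : V → ℤˣ, (r (ε y) * Real.tanh (fld s t J z ε)) * W s t J ε
      + ∑ ε : V → ℤˣ, (r (ε y) * Real.tanh (fld s t J z ε)) * W s t J (flip {z} * ε) := by
    rw [← Finset.sum_sub_distrib, ← Finset.sum_add_distrib]
    refine Finset.sum_congr rfl (fun ε _ => ?_)
    have := W_pair s t J hloop z ε
    linear_combination (r (ε y)) * this
  linarith

/-- **local field inequality** -/
theorem field_le (s t : E → V) (J : E → ℝ) (hJ : ∀ e, 0 ≤ J e)
    (hloop : ∀ e, s e = t e → J e = 0) (z y : V) (hzy : y ≠ z) :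
    ∑ ε : V → ℤˣ, (r (ε z) * r (ε y)) * W s t J ε
      ≤ ∑ e, J e * ((if s e = z then ∑ ε : V → ℤˣ, (r (ε (t e)) * r (ε y)) * W s t J ε else 0)
          + (if t e = z then ∑ ε : V → ℤˣ, (r (ε (s e)) * r (ε y)) * W s t J ε else 0)) := by
  set c : V → ℝ := fun u => ∑ e, J e * ((if s e = z ∧ t e = u then (1:ℝ) else 0)
      + (if t e = z ∧ s e = u then (1:ℝ) else 0)) with hc
  have hinf : ∀ (ε : V → ℤˣ) (u : V),
      |Real.tanh (fld s t J z ε) - Real.tanh (fld s t J z (flip {u} * ε))| ≤ 2 * c u := by
    intro ε u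
    refine (tanh_lip _ _).trans ?_
    have h1 : fld s t J z ε - fld s t J z (flip {u} * ε)
        = ∑ e, J e * ((if s e = z ∧ t e = u then 2 * r (ε u) else 0)
            + (if t e = z ∧ s e = u then 2 * r (ε u) else 0)) := by
      unfold fld
      rw [← Finset.sum_sub_distrib]
      refine Finset.sum_congr rfl (fun e _ => ?_)
      rw [← mul_sub]
      congr 1
      have a1 : (if s e = z then r (ε (t e)) else 0)
          - (if s e = z then r ((flip {u} * ε) (t e)) else 0)
          = if s e = z ∧ t e = u then 2 * r (ε u) else 0 := by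
        by_cases h : s e = z
        · by_cases h2 : t e = u
          · simp only [h, h2, if_true, and_self]
            rw [flip_apply, if_pos rfl]; ring
          · simp only [h, h2, if_true, and_false, if_false]
            rw [flip_apply, if_neg h2]; ring
        · simp [h]
      have a2 : (if t e = z then r (ε (s e)) else 0)
          - (if t e = z then r ((flip {u} * ε) (s e)) else 0)
          = if t e = z ∧ s e = u then 2 * r (ε u) else 0 := by
        by_cases h : t e = z
        · by_cases h2 : s e = u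
          · simp only [h, h2, if_true, and_self]
            rw [flip_apply, if_pos rfl]; ring
          · simp only [h, h2, if_true, and_false, if_false]
            rw [flip_apply, if_neg h2]; ring
        · simp [h]
      linarith
    rw [h1, hc]
    simp only
    rw [Finset.mul_sum]
    refine (Finset.abs_sum_le_sum_abs _ _).trans (Finset.sum_le_sum (fun e _ => ?_))
    rw [abs_mul, abs_of_nonneg (hJ e)]
    have hr := abs_r (ε u)
    have key : |(if s e = z ∧ t e = u then 2 * r (ε u) else 0)
            + (if t e = z ∧ s e = u then 2 * r (ε u) else 0)|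
        ≤ 2 * ((if s e = z ∧ t e = u then (1:ℝ) else 0)
            + (if t e = z ∧ s e = u then (1:ℝ) else 0)) := by
      refine (abs_add_le _ _).trans ?_
      have b : ∀ p : Prop, ∀ [Decidable p], |if p then 2 * r (ε u) else 0|
          = 2 * (if p then (1:ℝ) else 0) := by
        intro p _
        split_ifs
        · rw [abs_mul, hr]; norm_num
        · simp
      rw [b, b]; linarith
    calc J e * _ ≤ J e * _ := mul_le_mul_of_nonneg_left key (hJ e)
      _ = _ := by ring
  rw [sum_tanh s t J hloop z y hzy]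
  refine (le_abs_self _).trans ((fk_lip s t J hJ y _ c hinf).trans (le_of_eq ?_))
  rw [hc]
  simp only
  simp_rw [Finset.sum_mul]
  rw [Finset.sum_comm]
  refine Finset.sum_congr rfl (fun e _ => ?_)
  simp_rw [mul_assoc (J e), ← Finset.mul_sum]
  congr 1
  simp_rw [add_mul]
  rw [Finset.sum_add_distrib]
  congr 1
  · by_cases h : s e = z
    · simp only [h, true_and, if_true]
      simp
    · simp [h]
  · by_cases h : t e = z
    · simp only [h, true_and, if_true]
      simp
    · simp [h]

end Crest.Agent.R167.Ising
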