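import Crest.Agent.R167.DRefl
import Crest.Agent.R167.DField

/-! Row 167, Part D: the core inequality on configuration space. -/

set_option autoImplicit false
set_option linter.unusedSectionVars false

namespace Crest.Agent.R167.D

open MeasureTheory Crest.Agent.R167 Crest.Agent.R167.Ising Finset

variable {n : ℕ} {ι E : Type} [Fintype ι] [DecidableEq ι] [Fintype E] [DecidableEq E]

/-- coordinate -/
noncomputable def co (i : Fin n) (v : ι) (s : Cf ι n) : ℝ := (s v : EuclideanSpace ℝ (Fin n)) i

lemma continuous_co (i : Fin n) (v : ι) : Continuous (co (ι := ι) i v) := by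
  unfold co
  have h1 : Continuous (fun x : EuclideanSpace ℝ (Fin n) => x i) := by fun_prop
  exact h1.comp (continuous_subtype_val.comp (continuous_apply v))

lemma co_act (i : Fin n) (v : ι) (ε : ι → ℤˣ) (s : Cf ι n) :
    co i v (act i ε s) = r (ε v) * co i v s := by
  unfold co act
  exact sg_coord i (ε v) (s v)

lemma abs_co_le (i : Fin n) (v : ι) (s : Cf ι n) : |co i v s| ≤ 1 := by
  unfold co
  have h1 : ‖(s v : EuclideanSpace ℝ (Fin n))‖ = 1 := by simp
  have h2 := PiLp.norm_apply_le (s v : EuclideanSpace ℝ (Fin n)) i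
  rw [Real.norm_eq_abs] at h2
  linarith

lemma inner_split (i : Fin n) (x y : EuclideanSpace ℝ (Fin n)) :
    inner ℝ x y = x i * y i + ∑ j ∈ univ.erase i, x j * y j := by
  rw [Finset.add_sum_erase _ (fun j => x j * y j) (Finset.mem_univ i)]
  simp [PiLp.inner_apply, mul_comm]

/-- invariant part of the interaction -/
noncomputable def rest (G : Gr ι E) (i : Fin n) (s : Cf ι n) : ℝ :=
  ∑ e, G.b e * ∑ j ∈ univ.erase i,
    (s (G.src e) : EuclideanSpace ℝ (Fin n)) j * (s (G.tgt e) : EuclideanSpace ℝ (Fin n)) j

lemma I_eq (G : Gr ι E) (i : Fin n) (s : Cf ι n) :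
    G.I s = rest G i s + ∑ e, G.b e * (co i (G.src e) s * co i (G.tgt e) s) := by
  unfold Gr.I rest co
  rw [← Finset.sum_add_distrib]
  refine Finset.sum_congr rfl (fun e _ => ?_)
  rw [inner_split i]; ring

lemma rest_act (G : Gr ι E) (i : Fin n) (ε : ι → ℤˣ) (s : Cf ι n) :
    rest G i (act i ε s) = rest G i s := by
  unfold rest act
  refine Finset.sum_congr rfl (fun e _ => ?_)
  congr 1
  refine Finset.sum_congr rfl (fun j hj => ?_)
  have hji : j ≠ i := Finset.ne_of_mem_erase hj
  rw [sg_coord_ne _ _ hji, sg_coord_ne _ _ hji]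

lemma continuous_I (G : Gr ι E) : Continuous (G.I (n := n)) := by
  unfold Gr.I
  refine continuous_finsetSum _ (fun e _ => ?_)
  refine continuous_const.mul ?_
  exact (continuous_subtype_val.comp (continuous_apply (G.src e))).inner
    (continuous_subtype_val.comp (continuous_apply (G.tgt e)))

lemma integ (hn : 1 ≤ n) (F : Cf ι n → ℝ) (hF : Continuous F) : Integrable F (nu ι n) := by
  have := isProb_nu (ι := ι) hn
  exact hF.integrable_of_hasCompactSupport (HasCompactSupport.of_compactSpace _)

/-- sign field making the coordinates nonnegative -/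
noncomputable def sgnf (i : Fin n) (s : Cf ι n) : ι → ℤˣ := fun v => if 0 ≤ co i v s then 1 else -1

/-- configuration with nonnegative coordinates -/
noncomputable def absC (i : Fin n) (s : Cf ι n) : Cf ι n := act i (sgnf i s) s

lemma co_absC (i : Fin n) (v : ι) (s : Cf ι n) : co i v (absC i s) = |co i v s| := by
  unfold absC
  rw [co_act]
  unfold sgnf
  by_cases h : 0 ≤ co i v s
  · simp [h, abs_of_nonneg h]
  · simp only [h, if_false, r_neg_one]
    rw [abs_of_neg (not_le.mp h)]; ring

lemma sum_act_absC (i : Fin n) (F : Cf ι n → ℝ) (s : Cf ι n) :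
    ∑ ε : ι → ℤˣ, F (act i ε s) = ∑ ε : ι → ℤˣ, F (act i ε (absC i s)) := by
  unfold absC
  simp_rw [← act_mul]
  exact (Fintype.sum_equiv (Equiv.mulRight (sgnf i s)) _ _ (fun ε => by
    simp [Equiv.mulRight])).symm

/-- Ising couplings -/
noncomputable def Jc (G : Gr ι E) (i : Fin n) (s : Cf ι n) (e : E) : ℝ :=
  G.b e * (|co i (G.src e) s| * |co i (G.tgt e) s|)

lemma exp_I_act (G : Gr ι E) (i : Fin n) (ε : ι → ℤˣ) (s : Cf ι n) :
    Real.exp (G.I (act i ε (absC i s))) = Real.exp (rest G i s) * W G.src G.tgt (Jc G i s) ε := by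
  rw [I_eq G i, rest_act]
  have h0 : rest G i (absC i s) = rest G i s := rest_act G i _ s
  rw [h0, Real.exp_add]
  congr 1
  unfold W
  congr 1
  refine Finset.sum_congr rfl (fun e _ => ?_)
  rw [co_act, co_act, co_absC, co_absC]
  unfold Jc
  ring

/-- unnormalised two-point function of one coordinate -/
noncomputable def H (G : Gr ι E) (i : Fin n) (u y : ι) : ℝ :=
  ∫ s, (co i u s * co i y s) * Real.exp (G.I s) ∂(nu ι n)

lemma card_pos : (0:ℝ) < (Fintype.card (ι → ℤˣ) : ℝ) := by
  have : 0 < Fintype.card (ι → ℤˣ) := Fintype.card_pos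
  exact_mod_cast this

lemma H_nonneg (hn : 1 ≤ n) (G : Gr ι E) (hb : ∀ e, 0 ≤ G.b e) (i : Fin n) (u y : ι) :
    0 ≤ H G i u y := by
  have hcont : Continuous (fun s : Cf ι n => (co i u s * co i y s) * Real.exp (G.I s)) :=
    ((continuous_co i u).mul (continuous_co i y)).mul (Real.continuous_exp.comp (continuous_I G))
  have h1 := sign_average hn i (fun s : Cf ι n => (co i u s * co i y s) * Real.exp (G.I s)) hcont
  have h2 : 0 ≤ ∫ s, (∑ ε : ι → ℤˣ, (co i u (act i ε s) * co i y (act i ε s))
      * Real.exp (G.I (act i ε s))) ∂(nu ι n) := by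
    refine integral_nonneg (fun s => ?_)
    show 0 ≤ ∑ ε : ι → ℤˣ, (co i u (act i ε s) * co i y (act i ε s)) * Real.exp (G.I (act i ε s))
    rw [sum_act_absC i (fun s : Cf ι n => (co i u s * co i y s) * Real.exp (G.I s))]
    have h3 : ∑ ε : ι → ℤˣ, (co i u (act i ε (absC i s)) * co i y (act i ε (absC i s)))
        * Real.exp (G.I (act i ε (absC i s)))
        = (|co i u s| * |co i y s| * Real.exp (rest G i s)) *
          ∑ ε : ι → ℤˣ, (r (ε u) * r (ε y)) * W G.src G.tgt (Jc G i s) ε := by
      rw [Finset.mul_sum]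
      refine Finset.sum_congr rfl (fun ε _ => ?_)
      rw [exp_I_act, co_act, co_act, co_absC, co_absC]; ring
    rw [h3]
    refine mul_nonneg (by positivity) (griffiths _ _ _ ?_ u y)
    intro e
    unfold Jc
    exact mul_nonneg (hb e) (by positivity)
  rw [h1] at h2
  have h4 := card_pos (ι := ι)
  unfold H
  by_contra hneg
  push Not at hneg
  nlinarith

/-- **core inequality** -/
theorem core (hn : 1 ≤ n) (G : Gr ι E) (hb : ∀ e, 0 ≤ G.b e)
    (hloop : ∀ e, G.src e = G.tgt e → G.b e = 0) (i : Fin n) (y : ι)
    (g : Cf ι n → ℝ) (hg : Continuous g) (c : ι → ℝ)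
    (hinf : ∀ (s : Cf ι n) (u : ι), |g s - g (act i (flip {u}) s)| ≤ 2 * c u) (hy : c y = 0) :
    |∫ s, (co i y s * g s) * Real.exp (G.I s) ∂(nu ι n)| ≤
      ∑ z, c z * ∑ e, G.b e * ((if G.src e = z then H G i (G.tgt e) y else 0)
        + (if G.tgt e = z then H G i (G.src e) y else 0)) := by
  have hcexp : Continuous (fun s : Cf ι n => Real.exp (G.I s)) :=
    Real.continuous_exp.comp (continuous_I G)
  have hF : Continuous (fun s : Cf ι n => (co i y s * g s) * Real.exp (G.I s)) :=
    ((continuous_co i y).mul hg).mul hcexp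
  -- the majorant
  set Q : Cf ι n → ℝ := fun s => (∑ z, c z * ∑ e, G.b e *
      ((if G.src e = z then co i (G.tgt e) s * co i y s else 0)
        + (if G.tgt e = z then co i (G.src e) s * co i y s else 0))) * Real.exp (G.I s) with hQ
  have hQc : Continuous Q := by
    rw [hQ]
    refine Continuous.mul ?_ hcexp
    refine continuous_finsetSum _ (fun z _ => continuous_const.mul
      (continuous_finsetSum _ (fun e _ => continuous_const.mul (Continuous.add ?_ ?_))))
    · split_ifs
      · exact (continuous_co i _).mul (continuous_co i _)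
      · exact continuous_const
    · split_ifs
      · exact (continuous_co i _).mul (continuous_co i _)
      · exact continuous_const
  have hc0 : ∀ u, 0 ≤ c u := by
    intro u
    obtain ⟨s0⟩ : Nonempty (Cf ι n) := by
      have := isProb_nu (ι := ι) hn
      exact (nonempty_of_isProbabilityMeasure (nu ι n))
    have := hinf s0 u
    have h0 := abs_nonneg (g s0 - g (act i (flip {u}) s0))
    linarith
  -- pointwise inequality
  have key : ∀ s : Cf ι n,
      |∑ ε : ι → ℤˣ, (co i y (act i ε s) * g (act i ε s)) * Real.exp (G.I (act i ε s))|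
        ≤ ∑ ε : ι → ℤˣ, Q (act i ε s) := by
    intro s
    rw [sum_act_absC i (fun s : Cf ι n => (co i y s * g s) * Real.exp (G.I s)),
      sum_act_absC i Q]
    set J := Jc G i s with hJdef
    have hJ : ∀ e, 0 ≤ J e := fun e => mul_nonneg (hb e) (by positivity)
    have hJl : ∀ e, G.src e = G.tgt e → J e = 0 := by
      intro e he
      rw [hJdef]; unfold Jc; rw [hloop e he, zero_mul]
    set T : ι → ℝ := fun u => ∑ ε : ι → ℤˣ, (r (ε u) * r (ε y)) * W G.src G.tgt J ε with hT
    have hT0 : ∀ u, 0 ≤ T u := fun u => griffiths _ _ _ hJ u y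
    set K : ℝ := Real.exp (rest G i s) with hK
    have hK0 : 0 < K := Real.exp_pos _
    have hL : ∑ ε : ι → ℤˣ, (co i y (act i ε (absC i s)) * g (act i ε (absC i s)))
        * Real.exp (G.I (act i ε (absC i s)))
        = (|co i y s| * K) * ∑ ε : ι → ℤˣ, (r (ε y) * g (act i ε (absC i s)))
          * W G.src G.tgt J ε := by
      rw [Finset.mul_sum]
      refine Finset.sum_congr rfl (fun ε _ => ?_)
      rw [exp_I_act, co_act, co_absC]; ring
    have hR : ∑ ε : ι → ℤˣ, Q (act i ε (absC i s))
        = (|co i y s| * K) * ∑ z, c z * ∑ e, G.b e *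
          ((if G.src e = z then |co i (G.tgt e) s| * T (G.tgt e) else 0)
            + (if G.tgt e = z then |co i (G.src e) s| * T (G.src e) else 0)) := by
      have hQe : ∀ ε : ι → ℤˣ, Q (act i ε (absC i s)) = (|co i y s| * K) * ∑ z, c z * ∑ e, G.b e *
          ((if G.src e = z then |co i (G.tgt e) s| * ((r (ε (G.tgt e)) * r (ε y))
              * W G.src G.tgt J ε) else 0)
            + (if G.tgt e = z then |co i (G.src e) s| * ((r (ε (G.src e)) * r (ε y))
              * W G.src G.tgt J ε) else 0)) := by
        intro ε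
        rw [hQ]
        simp only
        rw [exp_I_act]
        simp only [Finset.sum_mul, Finset.mul_sum]
        refine Finset.sum_congr rfl (fun z _ => Finset.sum_congr rfl (fun e _ => ?_))
        rw [co_act, co_act, co_act, co_absC, co_absC, co_absC]
        split_ifs <;> ring
      simp_rw [hQe]
      rw [← Finset.mul_sum]
      congr 1
      rw [Finset.sum_comm]
      refine Finset.sum_congr rfl (fun z _ => ?_)
      rw [← Finset.mul_sum]
      congr 1
      rw [Finset.sum_comm]
      refine Finset.sum_congr rfl (fun e _ => ?_)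
      rw [← Finset.mul_sum]
      congr 1
      rw [Finset.sum_add_distrib]
      congr 1
      · split_ifs
        · rw [← Finset.mul_sum]
        · simp
      · split_ifs
        · rw [← Finset.mul_sum]
        · simp
    rw [hL, hR, abs_mul, abs_of_nonneg (by positivity : (0:ℝ) ≤ |co i y s| * K)]
    refine mul_le_mul_of_nonneg_left ?_ (by positivity)
    have hinf' : ∀ (ε : ι → ℤˣ) (u : ι),
        |g (act i ε (absC i s)) - g (act i (flip {u} * ε) (absC i s))| ≤ 2 * c u := by
      intro ε u
      rw [act_mul]
      exact hinf _ u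
    refine (fk_lip _ _ _ hJ y (fun ε => g (act i ε (absC i s))) c hinf').trans ?_
    refine Finset.sum_le_sum (fun z _ => ?_)
    by_cases hzy : z = y
    · rw [hzy, hy, zero_mul, zero_mul]
    · refine mul_le_mul_of_nonneg_left ?_ (hc0 z)
      refine (field_le _ _ _ hJ hJl z y (Ne.symm hzy)).trans ?_
      refine Finset.sum_le_sum (fun e _ => ?_)
      have hb1 := hb e
      have e1 : J e = G.b e * (|co i (G.src e) s| * |co i (G.tgt e) s|) := rfl
      rw [e1, mul_assoc]
      refine mul_le_mul_of_nonneg_left ?_ hb1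
      rw [mul_add]
      refine add_le_add ?_ ?_
      · split_ifs with h
        · have := abs_co_le i (G.src e) s
          have h2 := hT0 (G.tgt e)
          have h3 := abs_nonneg (co i (G.tgt e) s)
          calc |co i (G.src e) s| * |co i (G.tgt e) s| * T (G.tgt e)
              ≤ 1 * |co i (G.tgt e) s| * T (G.tgt e) := by gcongr
            _ = _ := by ring
        · simp
      · split_ifs with h
        · have := abs_co_le i (G.tgt e) s
          have h2 := hT0 (G.src e)
          have h3 := abs_nonneg (co i (G.src e) s)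
          calc |co i (G.src e) s| * |co i (G.tgt e) s| * T (G.src e)
              ≤ |co i (G.src e) s| * 1 * T (G.src e) := by gcongr
            _ = _ := by ring
        · simp
  -- integrate
  have hA := sign_average hn i (fun s : Cf ι n => (co i y s * g s) * Real.exp (G.I s)) hF
  have hB := sign_average hn i Q hQc
  have hcard := card_pos (ι := ι)
  have hcontA : Continuous (fun s : Cf ι n => ∑ ε : ι → ℤˣ, (co i y (act i ε s) * g (act i ε s))
      * Real.exp (G.I (act i ε s))) :=
    continuous_finsetSum _ (fun ε _ => hF.comp (continuous_act i ε))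
  have hcontB : Continuous (fun s : Cf ι n => ∑ ε : ι → ℤˣ, Q (act i ε s)) :=
    continuous_finsetSum _ (fun ε _ => hQc.comp (continuous_act i ε))
  have h5 : |∫ s, (∑ ε : ι → ℤˣ, (co i y (act i ε s) * g (act i ε s))
      * Real.exp (G.I (act i ε s))) ∂(nu ι n)| ≤ ∫ s, (∑ ε : ι → ℤˣ, Q (act i ε s)) ∂(nu ι n) := by
    refine (abs_integral_le_integral_abs).trans ?_
    exact integral_mono (integ hn _ hcontA.abs) (integ hn _ hcontB) key
  rw [hA, hB, abs_mul, abs_of_pos hcard] at h5
  have h6 := le_of_mul_le_mul_left h5 hcard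
  refine h6.trans (le_of_eq ?_)
  rw [hQ]
  simp only
  have hpc : ∀ u : ι, Integrable (fun s : Cf ι n => (co i u s * co i y s) * Real.exp (G.I s))
      (nu ι n) := fun u => integ hn _ (((continuous_co i u).mul (continuous_co i y)).mul hcexp)
  have hrew : ∀ s : Cf ι n, (∑ z, c z * ∑ e, G.b e *
      ((if G.src e = z then co i (G.tgt e) s * co i y s else 0)
        + (if G.tgt e = z then co i (G.src e) s * co i y s else 0))) * Real.exp (G.I s)
      = ∑ z, c z * ∑ e, G.b e *
      ((if G.src e = z then (co i (G.tgt e) s * co i y s) * Real.exp (G.I s) else 0)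
        + (if G.tgt e = z then (co i (G.src e) s * co i y s) * Real.exp (G.I s) else 0)) := by
    intro s
    rw [Finset.sum_mul]
    refine Finset.sum_congr rfl (fun z _ => ?_)
    rw [mul_assoc, Finset.sum_mul]
    congr 1
    refine Finset.sum_congr rfl (fun e _ => ?_)
    split_ifs <;> ring
  simp_rw [hrew]
  have hi1 : ∀ (z : ι) (e : E), Integrable (fun s : Cf ι n =>
      (if G.src e = z then (co i (G.tgt e) s * co i y s) * Real.exp (G.I s) else 0)) (nu ι n) := by
    intro z e
    split_ifs
    · exact hpc _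
    · exact integ hn _ continuous_const
  have hi2 : ∀ (z : ι) (e : E), Integrable (fun s : Cf ι n =>
      (if G.tgt e = z then (co i (G.src e) s * co i y s) * Real.exp (G.I s) else 0)) (nu ι n) := by
    intro z e
    split_ifs
    · exact hpc _
    · exact integ hn _ continuous_const
  have hie : ∀ (z : ι) (e : E), Integrable (fun s : Cf ι n => G.b e *
      ((if G.src e = z then (co i (G.tgt e) s * co i y s) * Real.exp (G.I s) else 0)
        + (if G.tgt e = z then (co i (G.src e) s * co i y s) * Real.exp (G.I s) else 0)))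
      (nu ι n) := fun z e => ((hi1 z e).add (hi2 z e)).const_mul _
  have hiz : ∀ z : ι, Integrable (fun s : Cf ι n => c z * ∑ e, G.b e *
      ((if G.src e = z then (co i (G.tgt e) s * co i y s) * Real.exp (G.I s) else 0)
        + (if G.tgt e = z then (co i (G.src e) s * co i y s) * Real.exp (G.I s) else 0)))
      (nu ι n) := fun z => (integrable_finsetSum _ (fun e _ => hie z e)).const_mul _
  rw [integral_finsetSum _ (fun z _ => hiz z)]
  refine Finset.sum_congr rfl (fun z _ => ?_)
  rw [integral_const_mul]
  congr 1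
  rw [integral_finsetSum _ (fun e _ => hie z e)]
  refine Finset.sum_congr rfl (fun e _ => ?_)
  rw [integral_const_mul]
  congr 1
  have := integral_add (hi1 z e) (hi2 z e)
  rw [this]
  congr 1
  · split_ifs
    · rfl
    · simp
  · split_ifs
    · rfl
    · simp

end Crest.Agent.R167.D
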