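import Crest.Agent.R167.DCore
import Crest.Agent.R167.PCalc

/-! Row 167, Part D: tower, Markov property and the one-step contraction. -/

set_option autoImplicit false
set_option linter.unusedSectionVars false

namespace Crest.Agent.R167.D

open MeasureTheory Crest.Agent.R167 Crest.Agent.R167.Ising Finset

section gen
variable {n : ℕ} {ι E : Type} [Fintype ι] [DecidableEq ι] [Fintype E] [DecidableEq E]

lemma dep_co (i : Fin n) (v : ι) (A : Set ι) (hv : v ∈ A) : Dep A (co (ι := ι) i v) := by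
  intro s t h
  unfold co
  rw [h v hv]

lemma P_empty [NeZero n] (G : Gr ι E) (F : Cf ι n → ℝ) (s : Cf ι n) :
    P G ∅ F s = (∫ s', F s' * Real.exp (G.I s') ∂(nu ι n)) / ∫ s', Real.exp (G.I s') ∂(nu ι n) := by
  have h : ∀ s' : Cf ι n, glue (∅ : Set ι) s s' = s' := by
    intro s'; funext v; exact glue_not_mem (Set.notMem_empty v) s s'
  unfold P
  simp only [h]

lemma Z_pos [NeZero n] (G : Gr ι E) : 0 < ∫ s' : Cf ι n, Real.exp (G.I s') ∂(nu ι n) := by
  obtain ⟨s⟩ : Nonempty (Cf ι n) := by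
    have hn : 1 ≤ n := Nat.one_le_iff_ne_zero.mpr (NeZero.ne n)
    have := isProb_nu (ι := ι) hn
    exact nonempty_of_isProbabilityMeasure (nu ι n)
  have h := Zf_pos G (∅ : Set ι) s
  have h2 : ∀ s' : Cf ι n, glue (∅ : Set ι) s s' = s' := by
    intro s'; funext v; exact glue_not_mem (Set.notMem_empty v) s s'
  unfold Zf at h
  simpa only [h2] using h

/-- replace `F` by its conditional average given `A`, in front of a function of `s y`, `y ∈ A`. -/
lemma tower [NeZero n] (G : Gr ι E) (A : Set ι) (i : Fin n) (y : ι) (hy : y ∈ A) (F : Cf ι n → ℝ)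
    (hF : Continuous F) :
    ∫ s, (co i y s * F s) * Real.exp (G.I s) ∂(nu ι n)
      = ∫ s, (co i y s * P G A F s) * Real.exp (G.I s) ∂(nu ι n) := by
  have hZ := Z_pos (n := n) G
  obtain ⟨s0⟩ : Nonempty (Cf ι n) := by
    have hn : 1 ≤ n := Nat.one_le_iff_ne_zero.mpr (NeZero.ne n)
    have := isProb_nu (ι := ι) hn
    exact nonempty_of_isProbabilityMeasure (nu ι n)
  have h1 : P G ∅ (P G A (fun s => co i y s * F s)) s0 = P G ∅ (fun s => co i y s * F s) s0 :=
    P_tower G (Set.empty_subset A) ((continuous_co i y).mul hF) s0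
  have h2 : P G A (fun s => co i y s * F s) = fun s => co i y s * P G A F s := by
    funext s
    exact P_mul_dep G (dep_co i y A hy) F s
  rw [h2, P_empty, P_empty] at h1
  have h3 := (div_left_inj' hZ.ne').mp h1
  exact h3.symm

/-- locality of the conditional average. -/
lemma P_local [NeZero n] (G : Gr ι E) (A : Set ι) (F : Cf ι n → ℝ) (u : ι) (hF : Dep {u}ᶜ F)
    (hu : ∀ e, G.b e ≠ 0 → (G.src e = u ∨ G.tgt e = u) → G.src e ∈ A ∧ G.tgt e ∈ A)
    (s t : Cf ι n) (hst : ∀ v, v ≠ u → s v = t v) : P G A F s = P G A F t := by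
  by_cases huA : u ∈ A
  swap
  · refine dep_P G A F s t (fun v hv => hst v ?_)
    rintro rfl; exact huA hv
  set κ : ℝ := ∑ e, (if G.src e = u ∨ G.tgt e = u then
    G.b e * (inner ℝ (s (G.src e) : EuclideanSpace ℝ (Fin n)) (s (G.tgt e))
      - inner ℝ (t (G.src e) : EuclideanSpace ℝ (Fin n)) (t (G.tgt e))) else 0) with hκ
  have hgl : ∀ (s' : Cf ι n) (v : ι), v ≠ u → glue A s s' v = glue A t s' v := by
    intro s' v hv
    by_cases hvA : v ∈ A
    · rw [glue_mem hvA, glue_mem hvA, hst v hv]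
    · rw [glue_not_mem hvA, glue_not_mem hvA]
  have hI : ∀ s' : Cf ι n, G.I (glue A s s') = κ + G.I (glue A t s') := by
    intro s'
    unfold Gr.I
    rw [hκ, ← Finset.sum_add_distrib]
    refine Finset.sum_congr rfl (fun e _ => ?_)
    by_cases he : G.src e = u ∨ G.tgt e = u
    · rw [if_pos he]
      by_cases hb : G.b e = 0
      · rw [hb]; ring
      · obtain ⟨h1, h2⟩ := hu e hb he
        rw [glue_mem h1, glue_mem h2, glue_mem h1, glue_mem h2]; ring
    · rw [if_neg he]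
      push Not at he
      rw [hgl s' _ he.1, hgl s' _ he.2]; ring
  have hFe : ∀ s' : Cf ι n, F (glue A s s') = F (glue A t s') := by
    intro s'
    exact hF _ _ (fun v hv => hgl s' v hv)
  unfold P
  simp only [hI, hFe, Real.exp_add]
  have h1 : ∀ s' : Cf ι n, F (glue A t s') * (Real.exp κ * Real.exp (G.I (glue A t s')))
      = Real.exp κ * (F (glue A t s') * Real.exp (G.I (glue A t s'))) := fun s' => by ring
  simp only [h1]
  rw [integral_const_mul, integral_const_mul, mul_div_mul_left _ _ (Real.exp_pos κ).ne']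

end gen

section lat
open Crest.ProbabilityR.SpinModel
variable {n : ℕ}

lemma latG_b_nonneg (V : Finset (ℤ × ℤ)) (b : ℤ × ℤ → Fin 2 → ℝ) (hb : ∀ u i, 0 ≤ b u i)
    (e : V × Fin 2) : 0 ≤ (latG V b).b e := by
  show 0 ≤ if (e.1 : ℤ × ℤ) + latticeDir e.2 ∈ V then b e.1 e.2 else 0
  split_ifs
  · exact hb _ _
  · exact le_rfl

lemma latticeDir_ne (i : Fin 2) : latticeDir i ≠ 0 := by
  fin_cases i <;> simp [latticeDir]

lemma latG_loop (V : Finset (ℤ × ℤ)) (b : ℤ × ℤ → Fin 2 → ℝ)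
    (e : V × Fin 2) (he : (latG V b).src e = (latG V b).tgt e) : (latG V b).b e = 0 := by
  by_cases h : (e.1 : ℤ × ℤ) + latticeDir e.2 ∈ V
  · exfalso
    have h1 : (latG V b).tgt e = ⟨_, h⟩ := by
      show (if h : (e.1 : ℤ × ℤ) + latticeDir e.2 ∈ V then (⟨_, h⟩ : V) else e.1) = _
      rw [dif_pos h]
    rw [h1] at he
    have h2 : (e.1 : ℤ × ℤ) = (e.1 : ℤ × ℤ) + latticeDir e.2 := congrArg Subtype.val he
    exact latticeDir_ne e.2 (by simpa using h2)
  · show (if (e.1 : ℤ × ℤ) + latticeDir e.2 ∈ V then b e.1 e.2 else 0) = 0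
    rw [if_neg h]

/-- the ends of an edge with nonzero weight are neighbours. -/
lemma latG_adj (V : Finset (ℤ × ℤ)) (b : ℤ × ℤ → Fin 2 → ℝ)
    (e : V × Fin 2) (he : (latG V b).b e ≠ 0) :
    |(((latG V b).tgt e : V) : ℤ × ℤ).1 - (((latG V b).src e : V) : ℤ × ℤ).1| ≤ 1 ∧
    |(((latG V b).tgt e : V) : ℤ × ℤ).2 - (((latG V b).src e : V) : ℤ × ℤ).2| ≤ 1 := by
  by_cases h : (e.1 : ℤ × ℤ) + latticeDir e.2 ∈ V
  · have h1 : (latG V b).tgt e = ⟨_, h⟩ := by
      show (if h : (e.1 : ℤ × ℤ) + latticeDir e.2 ∈ V then (⟨_, h⟩ : V) else e.1) = _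
      rw [dif_pos h]
    have h2 : (latG V b).src e = e.1 := rfl
    rw [h1, h2]
    obtain ⟨v, i⟩ := e
    fin_cases i <;> simp [latticeDir]
  · exfalso
    apply he
    show (if (e.1 : ℤ × ℤ) + latticeDir e.2 ∈ V then b e.1 e.2 else 0) = 0
    rw [if_neg h]

end lat

end Crest.Agent.R167.D
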