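import Mathlib

/-! Row 167, Part D: Fortuin-Kasteleyn bound for finite ferromagnetic Ising systems. -/

set_option autoImplicit false

namespace Crest.Agent.R167.Ising

open Finset

/-- real value of a sign -/
def r (u : ℤˣ) : ℝ := ((u : ℤ) : ℝ)

lemma r_mul (u v : ℤˣ) : r (u * v) = r u * r v := by simp [r]

@[simp] lemma r_one : r 1 = 1 := by simp [r]
@[simp] lemma r_neg_one : r (-1) = -1 := by simp [r]
lemma r_neg (u : ℤˣ) : r (-u) = - r u := by simp [r]

lemma r_cases (u : ℤˣ) : r u = 1 ∨ r u = -1 := by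
  rcases Int.units_eq_one_or u with h | h <;> subst h <;> simp

lemma r_sq (u : ℤˣ) : r u * r u = 1 := by
  rcases r_cases u with h | h <;> rw [h] <;> norm_num

lemma abs_r (u : ℤˣ) : |r u| = 1 := by
  rcases r_cases u with h | h <;> rw [h] <;> simp

lemma r_mul_of_ne {u v : ℤˣ} (h : u ≠ v) : r u * r v = -1 := by
  rcases Int.units_eq_one_or u with hu | hu <;> rcases Int.units_eq_one_or v with hv | hv <;>
    subst hu <;> subst hv <;> simp_all

variable {V E : Type*} [Fintype V] [DecidableEq V] [Fintype E] [DecidableEq E]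

/-- flip the signs on a finite set -/
def flip (K : Finset V) : V → ℤˣ := fun v => if v ∈ K then -1 else 1

/-- Ising weight -/
noncomputable def W (s t : E → V) (J : E → ℝ) (ε : V → ℤˣ) : ℝ :=
  Real.exp (∑ e, J e * (r (ε (s e)) * r (ε (t e))))

lemma W_pos (s t : E → V) (J : E → ℝ) (ε : V → ℤˣ) : 0 < W s t J ε := Real.exp_pos _

/-- indicator that `ε` is constant along the edges of `ω` -/
def Ind (s t : E → V) (ω : Finset E) (ε : V → ℤˣ) : ℝ :=
  ∏ e ∈ ω, (if ε (s e) = ε (t e) then (1 : ℝ) else 0)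

lemma Ind_nonneg (s t : E → V) (ω : Finset E) (ε : V → ℤˣ) : 0 ≤ Ind s t ω ε := by
  unfold Ind
  exact Finset.prod_nonneg (fun e _ => by split_ifs <;> norm_num)

lemma W_expand (s t : E → V) (J : E → ℝ) (ε : V → ℤˣ) :
    W s t J ε = ∑ ω ∈ (univ : Finset E).powerset,
      ((∏ e ∈ ω, (Real.exp (J e) - Real.exp (-J e))) * ∏ e ∈ univ \ ω, Real.exp (-J e))
        * Ind s t ω ε := by
  unfold W
  rw [Real.exp_sum]
  have h1 : ∀ e : E, Real.exp (J e * (r (ε (s e)) * r (ε (t e)))) =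
      (Real.exp (J e) - Real.exp (-J e)) * (if ε (s e) = ε (t e) then (1 : ℝ) else 0)
        + Real.exp (-J e) := by
    intro e
    split_ifs with h
    · rw [h, r_sq]; ring_nf
    · rw [r_mul_of_ne h]; ring_nf
  simp_rw [h1]
  rw [Finset.prod_add]
  refine Finset.sum_congr rfl ?_
  intro ω _
  unfold Ind
  rw [Finset.prod_mul_distrib]
  ring

/-- telescoping -/
lemma telescope (G : (V → ℤˣ) → ℝ) (c : V → ℝ)
    (hG : ∀ (ε : V → ℤˣ) (u : V), |G ε - G (flip {u} * ε)| ≤ 2 * c u) (K : Finset V)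
    (ε : V → ℤˣ) : |G ε - G (flip K * ε)| ≤ ∑ u ∈ K, 2 * c u := by
  induction K using Finset.induction_on with
  | empty =>
    have : flip (∅ : Finset V) * ε = ε := by
      funext v; simp [flip]
    rw [this]; simp
  | insert a K ha ih =>
    have h2 : flip (insert a K) * ε = flip {a} * (flip K * ε) := by
      funext v
      simp only [flip, Pi.mul_apply, Finset.mem_insert, Finset.mem_singleton]
      by_cases hv : v = a
      · subst hv
        simp [ha]
      · simp [hv]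
    rw [Finset.sum_insert ha, h2]
    calc |G ε - G (flip {a} * (flip K * ε))|
        = |(G (flip K * ε) - G (flip {a} * (flip K * ε))) + (G ε - G (flip K * ε))| := by
          congr 1; ring
      _ ≤ |G (flip K * ε) - G (flip {a} * (flip K * ε))| + |G ε - G (flip K * ε)| :=
          abs_add_le _ _
      _ ≤ 2 * c a + ∑ u ∈ K, 2 * c u := add_le_add (hG _ _) ih

/-- the cluster of `y` -/
noncomputable def cluster (s t : E → V) (ω : Finset E) (y : V) : Finset V := by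
  classical
  exact univ.filter (fun u => Relation.EqvGen (fun a b => ∃ e ∈ ω, a = s e ∧ b = t e) y u)

lemma mem_cluster (s t : E → V) (ω : Finset E) (y u : V) :
    u ∈ cluster s t ω y ↔ Relation.EqvGen (fun a b => ∃ e ∈ ω, a = s e ∧ b = t e) y u := by
  classical
  unfold cluster
  simp

lemma self_mem_cluster (s t : E → V) (ω : Finset E) (y : V) : y ∈ cluster s t ω y := by
  rw [mem_cluster]; exact Relation.EqvGen.refl _

lemma edge_cluster (s t : E → V) (ω : Finset E) (y : V) (e : E) (he : e ∈ ω) :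
    s e ∈ cluster s t ω y ↔ t e ∈ cluster s t ω y := by
  rw [mem_cluster, mem_cluster]
  constructor
  · intro h
    exact Relation.EqvGen.trans _ _ _ h (Relation.EqvGen.rel _ _ ⟨e, he, rfl, rfl⟩)
  · intro h
    exact Relation.EqvGen.trans _ _ _ h
      (Relation.EqvGen.symm _ _ (Relation.EqvGen.rel _ _ ⟨e, he, rfl, rfl⟩))

lemma Ind_flip (s t : E → V) (ω : Finset E) (y : V) (ε : V → ℤˣ) :
    Ind s t ω (flip (cluster s t ω y) * ε) = Ind s t ω ε := by
  unfold Ind
  refine Finset.prod_congr rfl ?_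
  intro e he
  have h := edge_cluster s t ω y e he
  by_cases h1 : s e ∈ cluster s t ω y
  · have h2 := h.mp h1
    simp [flip, h1, h2]
  · have h2 : t e ∉ cluster s t ω y := fun h3 => h1 (h.mpr h3)
    simp [flip, h1, h2]

lemma const_on_cluster (s t : E → V) (ω : Finset E) (y u : V) (ε : V → ℤˣ)
    (hI : Ind s t ω ε ≠ 0) (hu : u ∈ cluster s t ω y) : ε y = ε u := by
  rw [mem_cluster] at hu
  have key : ∀ e ∈ ω, ε (s e) = ε (t e) := by
    intro e he
    by_contra hne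
    apply hI
    unfold Ind
    exact Finset.prod_eq_zero he (by simp [hne])
  induction hu with
  | rel a b h => obtain ⟨e, he, rfl, rfl⟩ := h; exact key e he
  | refl a => rfl
  | symm a b _ ih => exact ih.symm
  | trans a b c _ _ ih1 ih2 => exact ih1.trans ih2

lemma sum_pair_in (s t : E → V) (ω : Finset E) (y u : V) (hu : u ∈ cluster s t ω y) :
    ∑ ε : V → ℤˣ, r (ε u) * r (ε y) * Ind s t ω ε = ∑ ε : V → ℤˣ, Ind s t ω ε := by
  refine Finset.sum_congr rfl ?_
  intro ε _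
  by_cases hI : Ind s t ω ε = 0
  · rw [hI]; ring
  · rw [const_on_cluster s t ω y u ε hI hu, r_sq]; ring

lemma sum_pair_out (s t : E → V) (ω : Finset E) (y u : V) (hu : u ∉ cluster s t ω y) :
    ∑ ε : V → ℤˣ, r (ε u) * r (ε y) * Ind s t ω ε = 0 := by
  have h1 : ∑ ε : V → ℤˣ, r (ε u) * r (ε y) * Ind s t ω ε
      = ∑ ε : V → ℤˣ, r ((flip (cluster s t ω y) * ε) u) * r ((flip (cluster s t ω y) * ε) y)
          * Ind s t ω (flip (cluster s t ω y) * ε) := by
    exact (Fintype.sum_equiv (Equiv.mulLeft (flip (cluster s t ω y))) _ _ (fun ε => by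
      simp [Equiv.mulLeft])).symm
  have h2 : ∀ ε : V → ℤˣ, r ((flip (cluster s t ω y) * ε) u) * r ((flip (cluster s t ω y) * ε) y)
          * Ind s t ω (flip (cluster s t ω y) * ε) = - (r (ε u) * r (ε y) * Ind s t ω ε) := by
    intro ε
    rw [Ind_flip]
    have hy := self_mem_cluster s t ω y
    simp only [Pi.mul_apply, flip, hu, hy, if_true, if_false, one_mul]
    rw [r_mul]; simp
  simp_rw [h2] at h1
  rw [Finset.sum_neg_distrib] at h1
  linarith

lemma sum_pair_nonneg (s t : E → V) (ω : Finset E) (y u : V) :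
    0 ≤ ∑ ε : V → ℤˣ, r (ε u) * r (ε y) * Ind s t ω ε := by
  by_cases hu : u ∈ cluster s t ω y
  · rw [sum_pair_in s t ω y u hu]
    exact Finset.sum_nonneg (fun ε _ => Ind_nonneg _ _ _ _)
  · rw [sum_pair_out s t ω y u hu]

lemma omega_bound (s t : E → V) (ω : Finset E) (y : V) (G : (V → ℤˣ) → ℝ) (c : V → ℝ)
    (hG : ∀ (ε : V → ℤˣ) (u : V), |G ε - G (flip {u} * ε)| ≤ 2 * c u) :
    |∑ ε : V → ℤˣ, r (ε y) * G ε * Ind s t ω ε|
      ≤ ∑ u, c u * ∑ ε : V → ℤˣ, r (ε u) * r (ε y) * Ind s t ω ε := by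
  set K := cluster s t ω y with hK
  have hc : ∀ u, 0 ≤ c u := by
    intro u
    have := hG (fun _ => 1) u
    have h0 := abs_nonneg (G (fun _ => 1) - G (flip {u} * fun _ => 1))
    linarith
  have h1 : ∑ ε : V → ℤˣ, r (ε y) * G ε * Ind s t ω ε
      = ∑ ε : V → ℤˣ, r ((flip K * ε) y) * G (flip K * ε) * Ind s t ω (flip K * ε) := by
    exact (Fintype.sum_equiv (Equiv.mulLeft (flip K)) _ _ (fun ε => by
      simp [Equiv.mulLeft])).symm
  have h2 : ∀ ε : V → ℤˣ, r ((flip K * ε) y) * G (flip K * ε) * Ind s t ω (flip K * ε)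
      = - (r (ε y) * G (flip K * ε) * Ind s t ω ε) := by
    intro ε
    rw [hK, Ind_flip]
    have hy := self_mem_cluster s t ω y
    simp only [Pi.mul_apply, flip, hy, if_true]
    rw [r_mul]; simp
  have h3 : 2 * ∑ ε : V → ℤˣ, r (ε y) * G ε * Ind s t ω ε
      = ∑ ε : V → ℤˣ, r (ε y) * (G ε - G (flip K * ε)) * Ind s t ω ε := by
    have : ∑ ε : V → ℤˣ, r (ε y) * (G ε - G (flip K * ε)) * Ind s t ω ε
        = ∑ ε : V → ℤˣ, r (ε y) * G ε * Ind s t ω ε
          + ∑ ε : V → ℤˣ, - (r (ε y) * G (flip K * ε) * Ind s t ω ε) := by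
      rw [← Finset.sum_add_distrib]
      refine Finset.sum_congr rfl (fun ε _ => by ring)
    rw [this]
    simp_rw [h2] at h1
    rw [← h1]; ring
  have h4 : |∑ ε : V → ℤˣ, r (ε y) * (G ε - G (flip K * ε)) * Ind s t ω ε|
      ≤ ∑ ε : V → ℤˣ, (∑ u ∈ K, 2 * c u) * Ind s t ω ε := by
    refine (Finset.abs_sum_le_sum_abs _ _).trans (Finset.sum_le_sum ?_)
    intro ε _
    rw [abs_mul, abs_mul, abs_r, one_mul, abs_of_nonneg (Ind_nonneg _ _ _ _)]
    exact mul_le_mul_of_nonneg_right (telescope G c hG K ε) (Ind_nonneg _ _ _ _)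
  have h5 : ∑ u, c u * ∑ ε : V → ℤˣ, r (ε u) * r (ε y) * Ind s t ω ε
      = ∑ u ∈ K, c u * ∑ ε : V → ℤˣ, Ind s t ω ε := by
    rw [← Finset.sum_subset (Finset.subset_univ K)]
    · refine Finset.sum_congr rfl ?_
      intro u hu
      rw [sum_pair_in s t ω y u hu]
    · intro u _ hu
      rw [sum_pair_out s t ω y u hu, mul_zero]
  rw [h5, ← Finset.sum_mul]
  have h6 : ∑ ε : V → ℤˣ, (∑ u ∈ K, 2 * c u) * Ind s t ω ε
      = 2 * ((∑ u ∈ K, c u) * ∑ ε : V → ℤˣ, Ind s t ω ε) := by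
    rw [← Finset.mul_sum, ← Finset.mul_sum]; ring
  rw [h6] at h4
  have h7 : |2 * ∑ ε : V → ℤˣ, r (ε y) * G ε * Ind s t ω ε|
      ≤ 2 * ((∑ u ∈ K, c u) * ∑ ε : V → ℤˣ, Ind s t ω ε) := by rw [h3]; exact h4
  rw [abs_mul, abs_of_pos (by norm_num : (0:ℝ) < 2)] at h7
  linarith

/-- coefficient of `ω` in the expansion -/
noncomputable def coef (J : E → ℝ) (ω : Finset E) : ℝ :=
  (∏ e ∈ ω, (Real.exp (J e) - Real.exp (-J e))) * ∏ e ∈ univ \ ω, Real.exp (-J e)

lemma coef_nonneg (J : E → ℝ) (hJ : ∀ e, 0 ≤ J e) (ω : Finset E) : 0 ≤ coef J ω := by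
  unfold coef
  refine mul_nonneg (Finset.prod_nonneg ?_) (Finset.prod_nonneg (fun e _ => (Real.exp_pos _).le))
  intro e _
  have : Real.exp (-J e) ≤ Real.exp (J e) := Real.exp_le_exp.mpr (by linarith [hJ e])
  linarith

lemma sum_W (s t : E → V) (J : E → ℝ) (F : (V → ℤˣ) → ℝ) :
    ∑ ε : V → ℤˣ, F ε * W s t J ε
      = ∑ ω ∈ (univ : Finset E).powerset, coef J ω * ∑ ε : V → ℤˣ, F ε * Ind s t ω ε := by
  simp_rw [W_expand, Finset.mul_sum]
  rw [Finset.sum_comm]
  refine Finset.sum_congr rfl (fun ω _ => Finset.sum_congr rfl (fun ε _ => ?_))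
  unfold coef
  ring

/-- first Griffiths inequality (two-point) -/
theorem griffiths (s t : E → V) (J : E → ℝ) (hJ : ∀ e, 0 ≤ J e) (u y : V) :
    0 ≤ ∑ ε : V → ℤˣ, (r (ε u) * r (ε y)) * W s t J ε := by
  rw [sum_W]
  exact Finset.sum_nonneg (fun ω _ => mul_nonneg (coef_nonneg J hJ ω) (sum_pair_nonneg s t ω y u))

/-- Fortuin-Kasteleyn Lipschitz bound -/
theorem fk_lip (s t : E → V) (J : E → ℝ) (hJ : ∀ e, 0 ≤ J e) (y : V)
    (G : (V → ℤˣ) → ℝ) (c : V → ℝ)
    (hG : ∀ (ε : V → ℤˣ) (u : V), |G ε - G (flip {u} * ε)| ≤ 2 * c u) :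
    |∑ ε : V → ℤˣ, (r (ε y) * G ε) * W s t J ε|
      ≤ ∑ u, c u * ∑ ε : V → ℤˣ, (r (ε u) * r (ε y)) * W s t J ε := by
  rw [sum_W]
  have h1 : ∑ u, c u * ∑ ε : V → ℤˣ, (r (ε u) * r (ε y)) * W s t J ε
      = ∑ ω ∈ (univ : Finset E).powerset, coef J ω *
          ∑ u, c u * ∑ ε : V → ℤˣ, r (ε u) * r (ε y) * Ind s t ω ε := by
    simp_rw [sum_W, Finset.mul_sum]
    rw [Finset.sum_comm]
    refine Finset.sum_congr rfl (fun ω _ => Finset.sum_congr rfl (fun u _ =>
      Finset.sum_congr rfl (fun ε _ => ?_)))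
    ring
  rw [h1]
  refine (Finset.abs_sum_le_sum_abs _ _).trans (Finset.sum_le_sum ?_)
  intro ω _
  rw [abs_mul, abs_of_nonneg (coef_nonneg J hJ ω)]
  exact mul_le_mul_of_nonneg_left (omega_bound s t ω y G c hG) (coef_nonneg J hJ ω)

end Crest.Agent.R167.Ising
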