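import Crest.Agent.R167.Defs
import Crest.Agent.R167.Ising

/-! Row 167, Part D: reflections of the spins and sign averages. -/

set_option autoImplicit false
set_option linter.unusedSectionVars false

namespace Crest.Agent.R167.D

open MeasureTheory Crest.Agent.R167 Crest.Agent.R167.Ising
open scoped Pointwise

variable {n : ℕ}

/-- map of the sphere induced by a linear isometry -/
noncomputable def sphMap (L : EuclideanSpace ℝ (Fin n) ≃ₗᵢ[ℝ] EuclideanSpace ℝ (Fin n))
    (s : Sp n) : Sp n :=
  ⟨L s, by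
    have h1 : ‖(s : EuclideanSpace ℝ (Fin n))‖ = 1 := by simp
    simp⟩

lemma continuous_sphMap (L : EuclideanSpace ℝ (Fin n) ≃ₗᵢ[ℝ] EuclideanSpace ℝ (Fin n)) :
    Continuous (sphMap L) := by
  unfold sphMap
  exact Continuous.subtype_mk (L.continuous.comp continuous_subtype_val) _

lemma toSphere_preimage (L : EuclideanSpace ℝ (Fin n) ≃ₗᵢ[ℝ] EuclideanSpace ℝ (Fin n))
    (s : Set (Sp n)) (hs : MeasurableSet s) :
    (volume : Measure (EuclideanSpace ℝ (Fin n))).toSphere (sphMap L ⁻¹' s)
      = (volume : Measure (EuclideanSpace ℝ (Fin n))).toSphere s := by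
  have hm : MeasurableSet (sphMap L ⁻¹' s) := (continuous_sphMap L).measurable hs
  rw [Measure.toSphere_apply' _ hm, Measure.toSphere_apply' _ hs]
  congr 1
  have h1 : (Set.Ioo (0:ℝ) 1 • (Subtype.val '' (sphMap L ⁻¹' s)) : Set (EuclideanSpace ℝ (Fin n)))
      = L ⁻¹' (Set.Ioo (0:ℝ) 1 • (Subtype.val '' s)) := by
    ext y
    simp only [Set.mem_smul, Set.mem_image, Set.mem_preimage]
    constructor
    · rintro ⟨t, ht, x, ⟨z, hz, rfl⟩, rfl⟩
      exact ⟨t, ht, L z, ⟨sphMap L z, hz, rfl⟩, by simp⟩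
    · rintro ⟨t, ht, x, ⟨z, hz, rfl⟩, hy⟩
      refine ⟨t, ht, L.symm z, ⟨⟨L.symm z, ?_⟩, ?_, rfl⟩, ?_⟩
      · have h1 : ‖(z : EuclideanSpace ℝ (Fin n))‖ = 1 := by simp
        simp
      · have : sphMap L ⟨L.symm z, by
            have h1 : ‖(z : EuclideanSpace ℝ (Fin n))‖ = 1 := by simp
            simp⟩ = z := by
          apply Subtype.ext; simp [sphMap]
        rw [this]; exact hz
      · have : L (t • L.symm z) = L y := by rw [map_smul]; simpa using hy
        exact L.injective this
  rw [h1]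
  exact (L.measurePreserving).measure_preimage_equiv (f := L.toHomeomorph.toMeasurableEquiv) _

lemma mp_sphMap (L : EuclideanSpace ℝ (Fin n) ≃ₗᵢ[ℝ] EuclideanSpace ℝ (Fin n)) :
    MeasurePreserving (sphMap L) (unif n) (unif n) := by
  refine ⟨(continuous_sphMap L).measurable, ?_⟩
  ext s hs
  rw [Measure.map_apply (continuous_sphMap L).measurable hs]
  unfold unif
  simp only [Measure.smul_apply]
  rw [toSphere_preimage L s hs]

/-- negate the coordinate `i` -/
noncomputable def reflL (i : Fin n) : EuclideanSpace ℝ (Fin n) ≃ₗᵢ[ℝ] EuclideanSpace ℝ (Fin n) :=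
  LinearIsometryEquiv.piLpCongrRight 2
    (fun j => if j = i then LinearIsometryEquiv.neg ℝ else LinearIsometryEquiv.refl ℝ ℝ)

lemma reflL_apply (i j : Fin n) (x : EuclideanSpace ℝ (Fin n)) :
    reflL i x j = if j = i then - x j else x j := by
  unfold reflL
  simp only [LinearIsometryEquiv.piLpCongrRight_apply]
  by_cases h : j = i <;> simp [h]

/-- the action of a sign -/
noncomputable def sg (i : Fin n) (e : ℤˣ) (s : Sp n) : Sp n :=
  if e = 1 then s else sphMap (reflL i) s

lemma sg_coord (i : Fin n) (e : ℤˣ) (s : Sp n) :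
    (sg i e s : EuclideanSpace ℝ (Fin n)) i = r e * (s : EuclideanSpace ℝ (Fin n)) i := by
  unfold sg
  rcases Int.units_eq_one_or e with h | h
  · simp [h]
  · subst h
    simp [sphMap, reflL_apply]

lemma sg_coord_ne (i j : Fin n) (h : j ≠ i) (e : ℤˣ) (s : Sp n) :
    (sg i e s : EuclideanSpace ℝ (Fin n)) j = (s : EuclideanSpace ℝ (Fin n)) j := by
  unfold sg
  rcases Int.units_eq_one_or e with h' | h'
  · simp [h']
  · subst h'
    simp [sphMap, reflL_apply, h]

lemma sg_ext {s t : Sp n} (h : ∀ j, (s : EuclideanSpace ℝ (Fin n)) j = (t : EuclideanSpace ℝ (Fin n)) j) :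
    s = t := by
  apply Subtype.ext
  ext j; exact h j

lemma sg_mul (i : Fin n) (e e' : ℤˣ) (s : Sp n) : sg i (e * e') s = sg i e (sg i e' s) := by
  apply sg_ext
  intro j
  by_cases h : j = i
  · subst h
    rw [sg_coord, sg_coord, sg_coord, r_mul, mul_assoc]
  · rw [sg_coord_ne _ _ h, sg_coord_ne _ _ h, sg_coord_ne _ _ h]

lemma mp_sg (i : Fin n) (e : ℤˣ) : MeasurePreserving (sg i e) (unif n) (unif n) := by
  unfold sg
  rcases Int.units_eq_one_or e with h | h
  · simp only [h, if_true]
    exact MeasurePreserving.id _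
  · subst h
    simp only [show ((-1 : ℤˣ) = 1) = False from by decide, if_false]
    exact mp_sphMap (reflL i)

lemma continuous_sg (i : Fin n) (e : ℤˣ) : Continuous (sg (n := n) i e) := by
  unfold sg
  rcases Int.units_eq_one_or e with h | h
  · simp only [h, if_true]; exact continuous_id
  · subst h
    simp only [show ((-1 : ℤˣ) = 1) = False from by decide, if_false]
    exact continuous_sphMap (reflL i)

variable {ι : Type} [Fintype ι] [DecidableEq ι]

/-- action of a sign field on configurations -/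
noncomputable def act (i : Fin n) (ε : ι → ℤˣ) (s : Cf ι n) : Cf ι n := fun v => sg i (ε v) (s v)

omit [Fintype ι] [DecidableEq ι] in
lemma act_mul (i : Fin n) (ε ε' : ι → ℤˣ) (s : Cf ι n) :
    act i (ε * ε') s = act i ε (act i ε' s) := by
  funext v; simp [act, sg_mul]

omit [Fintype ι] [DecidableEq ι] in
lemma continuous_act (i : Fin n) (ε : ι → ℤˣ) : Continuous (act (ι := ι) (n := n) i ε) := by
  unfold act
  exact continuous_pi (fun v => (continuous_sg i (ε v)).comp (continuous_apply v))

/-- `unif` is a probability measure for `n ≥ 1`. -/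
lemma isProb_unif (hn : 1 ≤ n) : IsProbabilityMeasure (unif n) := by
  have : Nonempty (Fin n) := ⟨⟨0, hn⟩⟩
  constructor
  unfold unif
  rw [Measure.smul_apply, smul_eq_mul]
  apply ENNReal.inv_mul_cancel
  · rw [Measure.toSphere_apply_univ]
    have h1 : (0 : ENNReal) < volume (Metric.ball (0 : EuclideanSpace ℝ (Fin n)) 1) :=
      Metric.measure_ball_pos _ _ one_pos
    have h2 : ((Module.finrank ℝ (EuclideanSpace ℝ (Fin n)) : ℕ) : ENNReal) ≠ 0 := by
      simp; omega
    exact mul_ne_zero h2 h1.ne'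
  · exact measure_ne_top _ _

lemma mp_act (hn : 1 ≤ n) (i : Fin n) (ε : ι → ℤˣ) :
    MeasurePreserving (act (ι := ι) (n := n) i ε) (nu ι n) (nu ι n) := by
  have := isProb_unif hn
  exact measurePreserving_pi (fun _ : ι => unif n) (fun _ : ι => unif n) (fun v => mp_sg i (ε v))

lemma isProb_nu (hn : 1 ≤ n) : IsProbabilityMeasure (nu ι n) := by
  have := isProb_unif hn
  unfold nu
  infer_instance

/-- sign average -/
lemma sign_average (hn : 1 ≤ n) (i : Fin n) (F : Cf ι n → ℝ) (hF : Continuous F) :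
    ∫ s, (∑ ε : ι → ℤˣ, F (act i ε s)) ∂(nu ι n)
      = (Fintype.card (ι → ℤˣ) : ℝ) * ∫ s, F s ∂(nu ι n) := by
  have := isProb_nu (ι := ι) hn
  have hint : ∀ ε : ι → ℤˣ, Integrable (fun s => F (act i ε s)) (nu ι n) := by
    intro ε
    have hc : Continuous (fun s => F (act i ε s)) := hF.comp (continuous_act i ε)
    exact hc.integrable_of_hasCompactSupport (HasCompactSupport.of_compactSpace _)
  rw [integral_finsetSum _ (fun ε _ => hint ε)]
  have h1 : ∀ ε : ι → ℤˣ, ∫ s, F (act i ε s) ∂(nu ι n) = ∫ s, F s ∂(nu ι n) := by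
    intro ε
    have hmp := mp_act (ι := ι) hn i ε
    have h2 := integral_map (μ := nu ι n) hmp.measurable.aemeasurable
      (f := F) hF.aestronglyMeasurable
    rw [hmp.map_eq] at h2
    exact h2.symm
  simp_rw [h1]
  simp [Finset.sum_const, nsmul_eq_mul]

end Crest.Agent.R167.D
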