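import Crest.Prelude.Def_SpinON

set_option autoImplicit false
open MeasureTheory Crest.ProbabilityR.SpinModel

/-!
# Row 167 (S0253): frozen definitions

`I` is the interaction of a finite weighted graph, `P G A F s` the Gibbs average of `F` with the
spins in `A` frozen to those of `s`, `Flow` the rotation flow in the plane `(k,l)` with site
dependent speed `f`, `XI` the derivative of the interaction along the flow.
-/

namespace Crest.Agent.R167

/-- spin space: the unit sphere of `ℝⁿ`. -/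
abbrev Sp (n : ℕ) : Type := Metric.sphere (0 : EuclideanSpace ℝ (Fin n)) 1

/-- uniform probability measure on the sphere. -/
noncomputable def unif (n : ℕ) : Measure (Sp n) :=
  ((volume : Measure (EuclideanSpace ℝ (Fin n))).toSphere Set.univ)⁻¹ •
    (volume : Measure (EuclideanSpace ℝ (Fin n))).toSphere

/-- configurations. -/
abbrev Cf (ι : Type) (n : ℕ) : Type := ι → Sp n

/-- product reference probability. -/
noncomputable def nu (ι : Type) [Fintype ι] (n : ℕ) : Measure (Cf ι n) :=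
  Measure.pi fun _ : ι => unif n

/-- a finite weighted graph with oriented edges. -/
structure Gr (ι E : Type) where
  src : E → ι
  tgt : E → ι
  b : E → ℝ

variable {ι E : Type} [Fintype ι] [Fintype E] {n : ℕ}

/-- interaction `I(s) = ∑ b_e <s_u, s_v>`. -/
noncomputable def Gr.I (G : Gr ι E) (s : Cf ι n) : ℝ :=
  ∑ e, G.b e * inner ℝ (s (G.src e) : EuclideanSpace ℝ (Fin n)) (s (G.tgt e))

/-- Dirichlet energy `En(f) = ∑ b_e (f_v - f_u)²`. -/
noncomputable def Gr.En (G : Gr ι E) (f : ι → ℝ) : ℝ :=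
  ∑ e, G.b e * (f (G.tgt e) - f (G.src e)) ^ 2

/-- `s` on `A`, `s'` off `A`. -/
noncomputable def glue (A : Set ι) (s s' : Cf ι n) : Cf ι n := by
  classical exact fun v => if v ∈ A then s v else s' v

/-- Gibbs average with the spins in `A` frozen. -/
noncomputable def P (G : Gr ι E) (A : Set ι) (F : Cf ι n → ℝ) (s : Cf ι n) : ℝ :=
  (∫ s', F (glue A s s') * Real.exp (G.I (glue A s s')) ∂(nu ι n)) /
    (∫ s', Real.exp (G.I (glue A s s')) ∂(nu ι n))

/-- `F` depends only on the spins in `A`. -/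
def Dep (A : Set ι) (F : Cf ι n → ℝ) : Prop :=
  ∀ s t : Cf ι n, (∀ v ∈ A, s v = t v) → F s = F t

/-- rotation by the angle `θ` in the coordinate plane `(k,l)` (`e^{θ L_{kl}}`,
`L_{kl}` sends `x` to the vector with `k`-th entry `-x l`, `l`-th entry `x k`). -/
noncomputable def rotV (k l : Fin n) (θ : ℝ) (x : EuclideanSpace ℝ (Fin n)) :
    EuclideanSpace ℝ (Fin n) :=
  WithLp.toLp 2 fun i => if i = k then Real.cos θ * x k - Real.sin θ * x l
    else if i = l then Real.sin θ * x k + Real.cos θ * x l else x i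

lemma norm_rotV {k l : Fin n} (h : k ≠ l) (θ : ℝ) (x : EuclideanSpace ℝ (Fin n)) :
    ‖rotV k l θ x‖ = ‖x‖ := by
  rw [EuclideanSpace.norm_eq, EuclideanSpace.norm_eq]
  congr 1
  have key : ∀ y : EuclideanSpace ℝ (Fin n), ∑ i, ‖y i‖ ^ 2
      = (y k) ^ 2 + ((y l) ^ 2 + ∑ i ∈ (Finset.univ.erase k).erase l, (y i) ^ 2) := by
    intro y
    have hl : l ∈ (Finset.univ.erase k : Finset (Fin n)) := by simp [Ne.symm h]
    rw [← Finset.add_sum_erase _ _ (Finset.mem_univ k), ← Finset.add_sum_erase _ _ hl]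
    simp [Real.norm_eq_abs, sq_abs]
  rw [key, key]
  have h3 : ∑ i ∈ (Finset.univ.erase k).erase l, (rotV k l θ x i) ^ 2
      = ∑ i ∈ (Finset.univ.erase k).erase l, (x i) ^ 2 := by
    refine Finset.sum_congr rfl fun i hi => ?_
    have h1 : i ≠ l := Finset.ne_of_mem_erase hi
    have h2 : i ≠ k := Finset.ne_of_mem_erase (Finset.mem_of_mem_erase hi)
    simp [rotV, h1, h2]
  rw [h3]
  have e1 : rotV k l θ x k = Real.cos θ * x k - Real.sin θ * x l := by simp [rotV]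
  have e2 : rotV k l θ x l = Real.sin θ * x k + Real.cos θ * x l := by
    simp [rotV, Ne.symm h]
  rw [e1, e2]
  nlinarith [Real.sin_sq_add_cos_sq θ, sq_nonneg (x k), sq_nonneg (x l)]

/-- rotation acting on the sphere. -/
noncomputable def rotS {k l : Fin n} (h : k ≠ l) (θ : ℝ) (s : Sp n) : Sp n :=
  ⟨rotV k l θ s, by
    have := norm_rotV h θ (s : EuclideanSpace ℝ (Fin n))
    have h1 : ‖(s : EuclideanSpace ℝ (Fin n))‖ = 1 := by simp
    simp [this]⟩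

/-- the flow rotating the spin at `v` by the angle `t * f v` in the plane `(k,l)`. -/
noncomputable def Flow {k l : Fin n} (h : k ≠ l) (f : ι → ℝ) (t : ℝ) (s : Cf ι n) : Cf ι n :=
  fun v => rotS h (t * f v) (s v)

/-- `<x, L_{kl} y>`. -/
noncomputable def cur (k l : Fin n) (x y : EuclideanSpace ℝ (Fin n)) : ℝ := x l * y k - x k * y l

/-- derivative of the interaction along `Flow`. -/
noncomputable def XI (G : Gr ι E) (k l : Fin n) (f : ι → ℝ) (s : Cf ι n) : ℝ :=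
  ∑ e, G.b e * (f (G.tgt e) - f (G.src e)) * cur k l (s (G.src e)) (s (G.tgt e))

/-- `F'` is the (continuous) derivative of the continuous function `F` along the flow. -/
structure DX {k l : Fin n} (h : k ≠ l) (f : ι → ℝ) (F F' : Cf ι n → ℝ) : Prop where
  cont : Continuous F
  cont' : Continuous F'
  deriv : ∀ s, HasDerivAt (fun t => F (Flow h f t s)) (F' s) 0

/-- `X^A_p X^C_ψ I`, `A = L_{lm}`, `B = L_{mk}`, `C = L_{kl}`. -/
noncomputable def XXA (G : Gr ι E) (k m : Fin n) (p ψ : ι → ℝ) (s : Cf ι n) : ℝ :=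
  ∑ e, G.b e * (ψ (G.tgt e) - ψ (G.src e)) *
    (p (G.src e) * cur m k (s (G.src e)) (s (G.tgt e)) + (p (G.tgt e) - p (G.src e)) *
      ((s (G.src e) : EuclideanSpace ℝ (Fin n)) k * (s (G.tgt e) : EuclideanSpace ℝ (Fin n)) m))

/-- `X^B_p X^C_ψ I`. -/
noncomputable def XXB (G : Gr ι E) (l m : Fin n) (p ψ : ι → ℝ) (s : Cf ι n) : ℝ :=
  ∑ e, G.b e * (ψ (G.tgt e) - ψ (G.src e)) *
    (-(p (G.src e) * cur l m (s (G.src e)) (s (G.tgt e))) + (p (G.tgt e) - p (G.src e)) *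
      ((s (G.src e) : EuclideanSpace ℝ (Fin n)) l * (s (G.tgt e) : EuclideanSpace ℝ (Fin n)) m))

/-- `G^A = X^A_p X^C_ψ I + X^C_ψ I * X^A_p I`. -/
noncomputable def GA (G : Gr ι E) (k l m : Fin n) (p ψ : ι → ℝ) (s : Cf ι n) : ℝ :=
  XXA G k m p ψ s + XI G k l ψ s * XI G l m p s

/-- `G^B = X^B_p X^C_ψ I + X^C_ψ I * X^B_p I`. -/
noncomputable def GB (G : Gr ι E) (k l m : Fin n) (p ψ : ι → ℝ) (s : Cf ι n) : ℝ :=
  XXB G l m p ψ s + XI G k l ψ s * XI G m k p s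

/-- the graph of the statement: edges `(u,i)` from `u` to `u + latticeDir i`, strength `b u i`
(`0` if the end is not in `V`). -/
noncomputable def latG (V : Finset (ℤ × ℤ)) (b : ℤ × ℤ → Fin 2 → ℝ) : Gr V (V × Fin 2) where
  src e := e.1
  tgt e := if h : (e.1 : ℤ × ℤ) + latticeDir e.2 ∈ V then ⟨_, h⟩ else e.1
  b e := if (e.1 : ℤ × ℤ) + latticeDir e.2 ∈ V then b e.1 e.2 else 0

/-- sup-norm ball around `x` inside `V`. -/
def bx (V : Finset (ℤ × ℤ)) (x : ℤ × ℤ) (R : ℕ) : Set V :=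
  {v | |(v : ℤ × ℤ).1 - x.1| ≤ R ∧ |(v : ℤ × ℤ).2 - x.2| ≤ R}

/-- NODE B: odd functions contract across an annulus, uniformly in all boundary conditions. -/
def ThmB : Prop := ∀ (n : ℕ), 3 ≤ n → ∀ (β δ : ℝ), 0 < β → 0 < δ → ∃ R0 : ℕ, ∀ R : ℕ, R0 ≤ R →
  ∀ (V : Finset (ℤ × ℤ)) (b : ℤ × ℤ → Fin 2 → ℝ), (∀ u i, 0 ≤ b u i ∧ b u i ≤ β) →
  ∀ (x : ℤ × ℤ) (k l : Fin n) (h : k ≠ l) (u : Cf V n → ℝ) (M : ℝ), Continuous u →
    Dep (bx V x R) u → (∀ s, u (fun v => rotS h Real.pi (s v)) = -u s) → (∀ s, |u s| ≤ M) →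
    ∀ s, |P (latG V b) (bx V x (4 * R))ᶜ u s| ≤ δ * M

/-- uniform smallness of the one-point function. -/
def DSmall (n : ℕ) (β ε : ℝ) : Prop := ∃ R : ℕ,
  ∀ (V : Finset (ℤ × ℤ)) (b : ℤ × ℤ → Fin 2 → ℝ), (∀ u i, 0 ≤ b u i ∧ b u i ≤ β) →
  ∀ (x : V) (k : Fin n) (s : Cf V n),
    |P (latG V b) (bx V x R)ᶜ (fun s => (s x : EuclideanSpace ℝ (Fin n)) k) s| * (R + 1) ≤ ε

/-- NODE C (iteration). -/
def PartC : Prop := ThmB → ∀ (n : ℕ), 3 ≤ n → ∀ β ε : ℝ, 0 < β → 0 < ε → DSmall n β ε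

/-- NODE D (Edwards–Sokal finite size criterion), for the frozen statement. -/
def PartD : Prop := ∀ (n : ℕ), 3 ≤ n → ∀ β : ℝ, 0 < β → (∀ ε : ℝ, 0 < ε → DSmall n β ε) →
  ∃ A m : ℝ, 0 < m ∧
      ∀ (V : Finset (ℤ × ℤ)) (b : ℤ × ℤ → Fin 2 → ℝ),
        (∀ u i, 0 ≤ b u i ∧ b u i ≤ β) →
        ∀ x y : V,
          0 ≤ twoPoint n V b x y ∧
          twoPoint n V b x y ≤
            A * Real.exp (-m * Real.sqrt ((((x : ℤ × ℤ).1 - (y : ℤ × ℤ).1 : ℤ) : ℝ) ^ 2 +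
              (((x : ℤ × ℤ).2 - (y : ℤ × ℤ).2 : ℤ) : ℝ) ^ 2))

/-- NODE K: the one-cell inequality (K'). -/
def KeyIneq : Prop := ∀ (n : ℕ), 3 ≤ n → ∀ (K0 : ℝ), ∃ C2 : ℝ, 0 ≤ C2 ∧
  ∀ (ι E : Type) [Fintype ι] [Fintype E] (G : Gr ι E), (∀ e, 0 ≤ G.b e) →
  ∀ (k l m : Fin n), k ≠ l → l ≠ m → m ≠ k →
  ∀ (F0 S' S : Set ι), F0 ⊆ S' → S' ⊆ S → ∀ (ψ q : ι → ℝ) (lam : ℝ), 0 ≤ lam →
    (∀ v ∈ S', ψ v = 0) → (∀ v ∈ F0, q v = 0) → (∀ v, |q v| ≤ 1 / 2) → G.En ψ ≤ K0 → G.En q ≤ K0 →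
    ∀ τ : Cf ι n,
      |P G F0 (fun s => P G S (XI G k l ψ) s * P G S (XI G k l (fun v => (lam * q v) ^ 2)) s) τ| ≤
        lam * C2 *
          (Real.sqrt (P G F0 (fun s => (P G S (XI G l m (fun v => lam * q v)) s
              - P G S' (XI G l m (fun v => lam * q v)) s) ^ 2) τ)
          + Real.sqrt (P G F0 (fun s => (P G S (XI G m k (fun v => lam * q v)) s
              - P G S' (XI G m k (fun v => lam * q v)) s) ^ 2) τ))

end Crest.Agent.R167
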