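import Crest.Agent.R167.GeoDefs

/-! Row 167, node GEO-A (helper725), part 1: energies of the grid functions (N6). -/

set_option autoImplicit false
open Crest.ProbabilityR.SpinModel

namespace Crest.Agent.R167.Geo

/-! ### general energy bound -/

theorem latDir_zero (u : ℤ × ℤ) : u + latticeDir 0 = (u.1 + 1, u.2) := by
  simp [latticeDir, Prod.ext_iff]

theorem latDir_one (u : ℤ × ℤ) : u + latticeDir 1 = (u.1, u.2 + 1) := by
  simp [latticeDir, Prod.ext_iff]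

/-- Dirichlet sum of `g` over the lattice edges inside `V`. -/
noncomputable def dirE (V : Finset (ℤ × ℤ)) (g : ℤ × ℤ → ℝ) : ℝ :=
  ∑ u ∈ V, ∑ i : Fin 2,
    if u + latticeDir i ∈ V then (g (u + latticeDir i) - g u) ^ 2 else 0

theorem En_le_dirE (V : Finset (ℤ × ℤ)) (b : ℤ × ℤ → Fin 2 → ℝ) (β : ℝ)
    (hb : ∀ u i, 0 ≤ b u i ∧ b u i ≤ β) (g : ℤ × ℤ → ℝ) :
    (latG V b).En (rs V g) ≤ β * dirE V g := by
  unfold Gr.En dirE
  rw [Fintype.sum_prod_type, Finset.mul_sum, ← Finset.sum_coe_sort V]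
  apply Finset.sum_le_sum
  intro u _
  rw [Finset.mul_sum]
  apply Finset.sum_le_sum
  intro i _
  simp only [latG, rs]
  by_cases h : (u : ℤ × ℤ) + latticeDir i ∈ V
  · simp only [h, if_true, dite_true]
    exact mul_le_mul_of_nonneg_right (hb u i).2 (sq_nonneg _)
  · simp [h]

theorem dirE_le (V : Finset (ℤ × ℤ)) (g : ℤ × ℤ → ℝ) (W : Fin 2 → Finset (ℤ × ℤ)) (L : ℝ)
    (hL : ∀ u i, |g (u + latticeDir i) - g u| ≤ L)
    (hs : ∀ u i, g (u + latticeDir i) ≠ g u → u ∈ W i) :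
    dirE V g ≤ (((W 0).card : ℝ) + (W 1).card) * L ^ 2 := by
  classical
  have hterm : ∀ u ∈ V, (∑ i : Fin 2,
      if u + latticeDir i ∈ V then (g (u + latticeDir i) - g u) ^ 2 else 0)
        ≤ (if u ∈ W 0 then L ^ 2 else 0) + (if u ∈ W 1 then L ^ 2 else 0) := by
    intro u _
    have hsq : ∀ i, (if u + latticeDir i ∈ V then (g (u + latticeDir i) - g u) ^ 2 else (0:ℝ))
        ≤ if u ∈ W i then L ^ 2 else 0 := by
      intro i
      by_cases hu : u ∈ W i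
      · rw [if_pos hu]
        split_ifs
        · have := hL u i
          rw [← sq_abs]
          exact pow_le_pow_left₀ (abs_nonneg _) this 2
        · positivity
      · rw [if_neg hu]
        have h0 : g (u + latticeDir i) = g u := by
          by_contra hne
          exact hu (hs u i hne)
        rw [h0]; simp
    rw [Fin.sum_univ_two]
    exact add_le_add (hsq 0) (hsq 1)
  have hW : ∀ i, (∑ u ∈ V, (if u ∈ W i then L ^ 2 else 0)) ≤ ((W i).card : ℝ) * L ^ 2 := by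
    intro i
    rw [← Finset.sum_filter]
    calc _ ≤ ∑ u ∈ W i, L ^ 2 := by
          apply Finset.sum_le_sum_of_subset_of_nonneg
          · intro u hu; exact (Finset.mem_filter.mp hu).2
          · intros; positivity
      _ = _ := by rw [Finset.sum_const, nsmul_eq_mul]
  calc dirE V g ≤ ∑ u ∈ V, ((if u ∈ W 0 then L ^ 2 else 0) + (if u ∈ W 1 then L ^ 2 else 0)) :=
        Finset.sum_le_sum hterm
    _ ≤ _ := by
        rw [Finset.sum_add_distrib, add_mul]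
        exact add_le_add (hW 0) (hW 1)

/-- closed box as a finset -/
noncomputable def boxF (c : ℤ × ℤ) (M : ℕ) : Finset (ℤ × ℤ) :=
  Finset.Icc (c.1 - M) (c.1 + M) ×ˢ Finset.Icc (c.2 - M) (c.2 + M)

theorem mem_boxF {c : ℤ × ℤ} {M : ℕ} {v : ℤ × ℤ} :
    v ∈ boxF c M ↔ |v.1 - c.1| ≤ M ∧ |v.2 - c.2| ≤ M := by
  rw [boxF, Finset.mem_product, Finset.mem_Icc, Finset.mem_Icc, abs_le, abs_le]
  constructor <;> rintro ⟨⟨h1, h2⟩, h3, h4⟩ <;> refine ⟨⟨?_, ?_⟩, ?_, ?_⟩ <;> linarith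

theorem card_boxF (c : ℤ × ℤ) (M : ℕ) : ((boxF c M).card : ℝ) = (2 * (M : ℝ) + 1) ^ 2 := by
  rw [boxF, Finset.card_product]
  simp only [Int.card_Icc]
  have e1 : (c.1 + (M:ℤ) + 1 - (c.1 - M)).toNat = 2 * M + 1 := by omega
  have e2 : (c.2 + (M:ℤ) + 1 - (c.2 - M)).toNat = 2 * M + 1 := by omega
  rw [e1, e2]; push_cast; ring

theorem En_le_box (V : Finset (ℤ × ℤ)) (b : ℤ × ℤ → Fin 2 → ℝ) (β : ℝ) (hβ : 0 ≤ β)
    (hb : ∀ u i, 0 ≤ b u i ∧ b u i ≤ β) (g : ℤ × ℤ → ℝ) (c : ℤ × ℤ) (M : ℕ) (L : ℝ)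
    (hL : ∀ u i, |g (u + latticeDir i) - g u| ≤ L)
    (hs : ∀ u i, g (u + latticeDir i) ≠ g u → |u.1 - c.1| ≤ M ∧ |u.2 - c.2| ≤ M) :
    (latG V b).En (rs V g) ≤ β * (2 * (2 * (M : ℝ) + 1) ^ 2 * L ^ 2) := by
  refine (En_le_dirE V b β hb g).trans (mul_le_mul_of_nonneg_left ?_ hβ)
  refine (dirE_le V g (fun _ => boxF c M) L hL fun u i h => mem_boxF.mpr (hs u i h)).trans
    (le_of_eq ?_)
  rw [card_boxF]; ring

/-! ### clamps -/

theorem clamp_lip (x y : ℝ) : |max 0 (min 1 x) - max 0 (min 1 y)| ≤ |x - y| := by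
  have h1 := abs_max_sub_max_le_max 0 (min 1 x) 0 (min 1 y)
  have h2 := abs_min_sub_min_le_max 1 x 1 y
  simp only [sub_self, abs_zero] at h1 h2
  have h3 : max 0 |min 1 x - min 1 y| = |min 1 x - min 1 y| := max_eq_right (abs_nonneg _)
  have h4 : max 0 |x - y| = |x - y| := max_eq_right (abs_nonneg _)
  rw [h3] at h1; rw [h4] at h2
  exact h1.trans h2

theorem phi_nonneg (R : ℕ) (t : ℤ) : 0 ≤ phi R t := le_max_left _ _

theorem phi_le_one (R : ℕ) (t : ℤ) : phi R t ≤ 1 := max_le zero_le_one (min_le_left _ _)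

theorem phi_lip (R : ℕ) (s t : ℤ) : |phi R s - phi R t| ≤ |((s - t : ℤ) : ℝ)| / R := by
  unfold phi
  refine (clamp_lip _ _).trans ?_
  have hR : (0:ℝ) ≤ R := Nat.cast_nonneg R
  rw [show (5 / 2 - |(s:ℝ)| / R) - (5 / 2 - |(t:ℝ)| / R) = (|(t:ℝ)| - |(s:ℝ)|) / R by ring,
    abs_div, abs_of_nonneg hR]
  apply div_le_div_of_nonneg_right _ hR
  rw [abs_sub_comm]
  push_cast
  exact abs_abs_sub_abs_le_abs_sub _ _

theorem phi_step (R : ℕ) (t : ℤ) : |phi R (t + 1) - phi R t| ≤ 1 / R := by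
  have := phi_lip R (t + 1) t
  simpa using this

theorem phi_eq_one {R : ℕ} (hR : 1 ≤ R) {t : ℤ} (h : 2 * |t| ≤ 3 * R) : phi R t = 1 := by
  have hR' : (0:ℝ) < R := by exact_mod_cast hR
  have h1 : (2:ℝ) * |(t : ℝ)| ≤ 3 * R := by exact_mod_cast h
  have h2 : |(t : ℝ)| / R ≤ 3 / 2 := by rw [div_le_iff₀ hR']; linarith
  unfold phi
  rw [min_eq_left (by linarith), max_eq_right zero_le_one]

theorem phi_eq_zero {R : ℕ} (hR : 1 ≤ R) {t : ℤ} (h : 5 * (R : ℤ) ≤ 2 * |t|) : phi R t = 0 := by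
  have hR' : (0:ℝ) < R := by exact_mod_cast hR
  have h1 : (5:ℝ) * R ≤ 2 * |(t : ℝ)| := by exact_mod_cast h
  have h2 : 5 / 2 ≤ |(t : ℝ)| / R := by rw [le_div_iff₀ hR']; linarith
  unfold phi
  rw [min_eq_right (by linarith), max_eq_left (by linarith)]

theorem hat1_nonneg (a : ℕ) (t : ℤ) : 0 ≤ hat1 a t := le_max_left _ _

theorem hat1_le_one (a : ℕ) (t : ℤ) : hat1 a t ≤ 1 := by
  apply max_le zero_le_one
  have : 0 ≤ |(t : ℝ)| / a := by positivity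
  linarith

theorem hat1_step (a : ℕ) (t : ℤ) : |hat1 a (t + 1) - hat1 a t| ≤ 1 / a := by
  unfold hat1
  have h1 := abs_max_sub_max_le_max 0 (1 - |((t + 1 : ℤ) : ℝ)| / a) 0 (1 - |(t : ℝ)| / a)
  simp only [sub_self, abs_zero] at h1
  have h4 : max 0 |(1 - |((t + 1 : ℤ) : ℝ)| / a) - (1 - |(t : ℝ)| / a)|
    = |(1 - |((t + 1 : ℤ) : ℝ)| / a) - (1 - |(t : ℝ)| / a)| := max_eq_right (abs_nonneg _)
  rw [h4] at h1
  refine h1.trans ?_
  have hR : (0:ℝ) ≤ a := Nat.cast_nonneg a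
  rw [show (1 - |((t + 1 : ℤ) : ℝ)| / a) - (1 - |(t:ℝ)| / a)
    = (|(t:ℝ)| - |((t + 1 : ℤ) : ℝ)|) / a by ring, abs_div, abs_of_nonneg hR]
  apply div_le_div_of_nonneg_right _ hR
  rw [abs_sub_comm]
  push_cast
  refine (abs_abs_sub_abs_le_abs_sub _ _).trans ?_
  simp

theorem hat1_eq_zero {a : ℕ} (ha : 1 ≤ a) {t : ℤ} (h : (a : ℤ) ≤ |t|) : hat1 a t = 0 := by
  have ha' : (0:ℝ) < a := by exact_mod_cast ha
  have h1 : (a:ℝ) ≤ |(t : ℝ)| := by exact_mod_cast h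
  have h2 : 1 ≤ |(t : ℝ)| / a := by rw [le_div_iff₀ ha']; linarith
  unfold hat1
  exact max_eq_left (by linarith)

theorem wide1_nonneg (a : ℕ) (t : ℤ) : 0 ≤ wide1 a t := le_max_left _ _

theorem wide1_le_one (a : ℕ) (t : ℤ) : wide1 a t ≤ 1 := max_le zero_le_one (min_le_left _ _)

theorem wide1_step (a : ℕ) (t : ℤ) : |wide1 a (t + 1) - wide1 a t| ≤ 1 / a := by
  unfold wide1
  refine (clamp_lip _ _).trans ?_
  have hR : (0:ℝ) ≤ a := Nat.cast_nonneg a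
  rw [show (2 - |((t + 1 : ℤ) : ℝ)| / a) - (2 - |(t:ℝ)| / a)
    = (|(t:ℝ)| - |((t + 1 : ℤ) : ℝ)|) / a by ring, abs_div, abs_of_nonneg hR]
  apply div_le_div_of_nonneg_right _ hR
  rw [abs_sub_comm]
  push_cast
  refine (abs_abs_sub_abs_le_abs_sub _ _).trans ?_
  simp

theorem wide1_eq_one {a : ℕ} (ha : 1 ≤ a) {t : ℤ} (h : |t| ≤ a) : wide1 a t = 1 := by
  have ha' : (0:ℝ) < a := by exact_mod_cast ha
  have h1 : |(t : ℝ)| ≤ a := by exact_mod_cast h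
  have h2 : |(t : ℝ)| / a ≤ 1 := by rw [div_le_iff₀ ha']; linarith
  unfold wide1
  rw [min_eq_left (by linarith), max_eq_right zero_le_one]

theorem wide1_eq_zero {a : ℕ} (ha : 1 ≤ a) {t : ℤ} (h : 2 * (a : ℤ) ≤ |t|) : wide1 a t = 0 := by
  have ha' : (0:ℝ) < a := by exact_mod_cast ha
  have h1 : (2:ℝ) * a ≤ |(t : ℝ)| := by exact_mod_cast h
  have h2 : 2 ≤ |(t : ℝ)| / a := by rw [le_div_iff₀ ha']; linarith
  unfold wide1
  rw [min_eq_right (by linarith), max_eq_left (by linarith)]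

/-! ### products -/

theorem prod_step {A B : ℤ → ℝ} {L : ℝ} (hA : ∀ t, |A (t + 1) - A t| ≤ L)
    (hB : ∀ t, |B (t + 1) - B t| ≤ L) (hA1 : ∀ t, |A t| ≤ 1) (hB1 : ∀ t, |B t| ≤ 1)
    (c : ℤ × ℤ) (u : ℤ × ℤ) (i : Fin 2) :
    |A ((u + latticeDir i).1 - c.1) * B ((u + latticeDir i).2 - c.2)
      - A (u.1 - c.1) * B (u.2 - c.2)| ≤ L := by
  fin_cases i
  · simp only [Fin.zero_eta, latDir_zero]
    rw [show u.1 + 1 - c.1 = (u.1 - c.1) + 1 by ring, ← sub_mul, abs_mul]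
    calc _ ≤ L * 1 := mul_le_mul (hA _) (hB1 _) (abs_nonneg _) ((abs_nonneg _).trans (hA 0))
      _ = L := mul_one L
  · simp only [Fin.mk_one, latDir_one]
    rw [show u.2 + 1 - c.2 = (u.2 - c.2) + 1 by ring, ← mul_sub, abs_mul]
    calc _ ≤ 1 * L := mul_le_mul (hA1 _) (hB _) (abs_nonneg _) zero_le_one
      _ = L := one_mul L

theorem prod_ne {A B : ℤ → ℝ} {M : ℕ} (hA : ∀ t : ℤ, (M : ℤ) ≤ |t| → A t = 0)
    (hB : ∀ t : ℤ, (M : ℤ) ≤ |t| → B t = 0) (c : ℤ × ℤ) (u : ℤ × ℤ) (i : Fin 2)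
    (h : A ((u + latticeDir i).1 - c.1) * B ((u + latticeDir i).2 - c.2)
      ≠ A (u.1 - c.1) * B (u.2 - c.2)) : |u.1 - c.1| ≤ M ∧ |u.2 - c.2| ≤ M := by
  by_contra hne
  apply h
  rw [not_and_or, not_le, not_le] at hne
  fin_cases i
  · simp only [Fin.zero_eta, latDir_zero]
    rcases hne with h1 | h1
    · have h2 : A (u.1 + 1 - c.1) = 0 := by
        apply hA
        rw [lt_abs] at h1; rw [le_abs]; omega
      rw [hA (u.1 - c.1) h1.le, h2]
    · rw [hB (u.2 - c.2) h1.le]; ring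
  · simp only [Fin.mk_one, latDir_one]
    rcases hne with h1 | h1
    · rw [hA (u.1 - c.1) h1.le]; ring
    · have h2 : B (u.2 + 1 - c.2) = 0 := by
        apply hB
        rw [lt_abs] at h1; rw [le_abs]; omega
      rw [hB (u.2 - c.2) h1.le, h2]

theorem abs_le_one_of {x : ℝ} (h0 : 0 ≤ x) (h1 : x ≤ 1) : |x| ≤ 1 := by
  rw [abs_of_nonneg h0]; exact h1

theorem cut_nonneg (x : ℤ × ℤ) (R : ℕ) (v : ℤ × ℤ) : 0 ≤ cut x R v :=
  mul_nonneg (phi_nonneg _ _) (phi_nonneg _ _)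

theorem cut_le_one (x : ℤ × ℤ) (R : ℕ) (v : ℤ × ℤ) : cut x R v ≤ 1 :=
  mul_le_one₀ (phi_le_one _ _) (phi_nonneg _ _) (phi_le_one _ _)

theorem cut_step (x : ℤ × ℤ) (R : ℕ) (u : ℤ × ℤ) (i : Fin 2) :
    |cut x R (u + latticeDir i) - cut x R u| ≤ 1 / R :=
  prod_step (phi_step R) (phi_step R) (fun t => abs_le_one_of (phi_nonneg _ _) (phi_le_one _ _))
    (fun t => abs_le_one_of (phi_nonneg _ _) (phi_le_one _ _)) x u i

theorem cut_ne {x : ℤ × ℤ} {R : ℕ} (hR : 1 ≤ R) (u : ℤ × ℤ) (i : Fin 2)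
    (h : cut x R (u + latticeDir i) ≠ cut x R u) : |u.1 - x.1| ≤ (3 * R : ℕ) ∧
      |u.2 - x.2| ≤ (3 * R : ℕ) := by
  refine prod_ne (M := 3 * R) (A := phi R) (B := phi R) ?_ ?_ x u i h <;>
  · intro t ht
    apply phi_eq_zero hR
    push_cast at ht
    omega

/-- N7, first half -/
theorem En_cut_le (V : Finset (ℤ × ℤ)) (b : ℤ × ℤ → Fin 2 → ℝ) (β : ℝ) (hβ : 0 ≤ β)
    (hb : ∀ u i, 0 ≤ b u i ∧ b u i ≤ β) (R : ℕ) (hR : 1 ≤ R) (x : ℤ × ℤ) :
    (latG V b).En (rs V (cut x R)) ≤ 98 * β := by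
  refine (En_le_box V b β hβ hb (cut x R) x (3 * R) (1 / R) (cut_step x R)
    (fun u i h => cut_ne hR u i h)).trans ?_
  have hR' : (1:ℝ) ≤ R := by exact_mod_cast hR
  have h1 : 2 * (2 * ((3 * R : ℕ) : ℝ) + 1) ^ 2 * (1 / (R:ℝ)) ^ 2 ≤ 98 := by
    push_cast
    rw [one_div, inv_pow, ← div_eq_mul_inv, div_le_iff₀ (by positivity)]
    nlinarith
  nlinarith

theorem hat_nonneg (a : ℕ) (z v : ℤ × ℤ) : 0 ≤ hat a z v :=
  mul_nonneg (hat1_nonneg _ _) (hat1_nonneg _ _)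

theorem hat_le_one (a : ℕ) (z v : ℤ × ℤ) : hat a z v ≤ 1 :=
  mul_le_one₀ (hat1_le_one _ _) (hat1_nonneg _ _) (hat1_le_one _ _)

theorem hat_eq_zero {a : ℕ} (ha : 1 ≤ a) {z v : ℤ × ℤ}
    (h : ¬ (|v.1 - z.1| < a ∧ |v.2 - z.2| < a)) : hat a z v = 0 := by
  unfold hat
  rw [not_and_or, not_lt, not_lt] at h
  rcases h with h | h
  · rw [hat1_eq_zero ha h, zero_mul]
  · rw [hat1_eq_zero ha h, mul_zero]

/-- N6, hat part -/
theorem En_hat_le (V : Finset (ℤ × ℤ)) (b : ℤ × ℤ → Fin 2 → ℝ) (β : ℝ) (hβ : 0 ≤ β)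
    (hb : ∀ u i, 0 ≤ b u i ∧ b u i ≤ β) (a : ℕ) (ha : 1 ≤ a) (z : ℤ × ℤ) :
    (latG V b).En (rs V (hat a z)) ≤ 18 * β := by
  refine (En_le_box V b β hβ hb (hat a z) z a (1 / a)
    (prod_step (hat1_step a) (hat1_step a)
      (fun t => abs_le_one_of (hat1_nonneg _ _) (hat1_le_one _ _))
      (fun t => abs_le_one_of (hat1_nonneg _ _) (hat1_le_one _ _)) z)
    (fun u i h => prod_ne (fun t ht => hat1_eq_zero ha ht) (fun t ht => hat1_eq_zero ha ht)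
      z u i h)).trans ?_
  have ha' : (1:ℝ) ≤ a := by exact_mod_cast ha
  have h1 : 2 * (2 * (a : ℝ) + 1) ^ 2 * (1 / (a:ℝ)) ^ 2 ≤ 18 := by
    rw [one_div, inv_pow, ← div_eq_mul_inv, div_le_iff₀ (by positivity)]
    nlinarith
  nlinarith

/-! ### `qz` -/

theorem wide_nonneg (a : ℕ) (z v : ℤ × ℤ) : 0 ≤ wide a z v :=
  mul_nonneg (wide1_nonneg _ _) (wide1_nonneg _ _)

theorem wide_le_one (a : ℕ) (z v : ℤ × ℤ) : wide a z v ≤ 1 :=
  mul_le_one₀ (wide1_le_one _ _) (wide1_nonneg _ _) (wide1_le_one _ _)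

theorem wide_eq_one {a : ℕ} (ha : 1 ≤ a) {z v : ℤ × ℤ}
    (h : |v.1 - z.1| ≤ a ∧ |v.2 - z.2| ≤ a) : wide a z v = 1 := by
  unfold wide
  rw [wide1_eq_one ha h.1, wide1_eq_one ha h.2, mul_one]

theorem wide_eq_zero {a : ℕ} (ha : 1 ≤ a) {z v : ℤ × ℤ}
    (h : ¬ (|v.1 - z.1| < 2 * a ∧ |v.2 - z.2| < 2 * a)) : wide a z v = 0 := by
  unfold wide
  rw [not_and_or, not_lt, not_lt] at h
  rcases h with h | h
  · rw [wide1_eq_zero ha h, zero_mul]
  · rw [wide1_eq_zero ha h, mul_zero]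

theorem cut_sub_le (x : ℤ × ℤ) (R : ℕ) (z v : ℤ × ℤ) :
    |cut x R v - cut x R z| ≤ (|((v.1 - z.1 : ℤ) : ℝ)| + |((v.2 - z.2 : ℤ) : ℝ)|) / R := by
  unfold cut
  have e : phi R (v.1 - x.1) * phi R (v.2 - x.2) - phi R (z.1 - x.1) * phi R (z.2 - x.2)
      = (phi R (v.1 - x.1) - phi R (z.1 - x.1)) * phi R (v.2 - x.2)
        + phi R (z.1 - x.1) * (phi R (v.2 - x.2) - phi R (z.2 - x.2)) := by ring
  rw [e, add_div]
  refine (abs_add_le _ _).trans (add_le_add ?_ ?_)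
  · rw [abs_mul]
    have h1 := phi_lip R (v.1 - x.1) (z.1 - x.1)
    rw [show v.1 - x.1 - (z.1 - x.1) = v.1 - z.1 by ring] at h1
    calc _ ≤ |((v.1 - z.1 : ℤ) : ℝ)| / R * 1 :=
          mul_le_mul h1 (abs_le_one_of (phi_nonneg _ _) (phi_le_one _ _)) (abs_nonneg _)
            (by positivity)
      _ = _ := mul_one _
  · rw [abs_mul]
    have h1 := phi_lip R (v.2 - x.2) (z.2 - x.2)
    rw [show v.2 - x.2 - (z.2 - x.2) = v.2 - z.2 by ring] at h1
    calc _ ≤ 1 * (|((v.2 - z.2 : ℤ) : ℝ)| / R) :=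
          mul_le_mul (abs_le_one_of (phi_nonneg _ _) (phi_le_one _ _)) h1 (abs_nonneg _)
            zero_le_one
      _ = _ := one_mul _

theorem cut_sub_le_box {x : ℤ × ℤ} {R a : ℕ} {z v : ℤ × ℤ}
    (h : |v.1 - z.1| ≤ 2 * a ∧ |v.2 - z.2| ≤ 2 * a) :
    |cut x R v - cut x R z| ≤ 4 * a / R := by
  refine (cut_sub_le x R z v).trans ?_
  apply div_le_div_of_nonneg_right _ (Nat.cast_nonneg R)
  have h1 : |((v.1 - z.1 : ℤ) : ℝ)| ≤ 2 * a := by exact_mod_cast h.1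
  have h2 : |((v.2 - z.2 : ℤ) : ℝ)| ≤ 2 * a := by exact_mod_cast h.2
  linarith

theorem qz_eq_zero {R a : ℕ} (ha : 1 ≤ a) {x z v : ℤ × ℤ}
    (h : ¬ (|v.1 - z.1| < 2 * a ∧ |v.2 - z.2| < 2 * a)) : qz R a x z v = 0 := by
  unfold qz
  rw [wide_eq_zero ha h]; simp

/-- `|q_z| ≤ 1/2` -/
theorem abs_qz_le {R a : ℕ} (ha : 1 ≤ a) (hR : 1 ≤ R) (x z v : ℤ × ℤ) :
    |qz R a x z v| ≤ 1 / 2 := by
  by_cases h : |v.1 - z.1| < 2 * a ∧ |v.2 - z.2| < 2 * a
  · have h1 := cut_sub_le_box (x := x) (R := R) ⟨h.1.le, h.2.le⟩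
    have ha' : (0:ℝ) < a := by exact_mod_cast ha
    have hR' : (0:ℝ) < R := by exact_mod_cast hR
    unfold qz
    rw [abs_div, abs_mul, abs_of_nonneg (wide_nonneg a z v),
      abs_of_pos (show (0:ℝ) < 16 * a / R by positivity), div_le_iff₀ (by positivity)]
    calc _ ≤ 4 * (a:ℝ) / R * 1 :=
          mul_le_mul h1 (wide_le_one _ _ _) (wide_nonneg _ _ _) (by positivity)
      _ ≤ 1 / 2 * (16 * (a:ℝ) / R) := by
        rw [mul_one]
        have : (0:ℝ) ≤ a / R := by positivity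
        rw [show (4:ℝ) * (a:ℝ) / R = 4 * (a / R) by ring,
          show (16:ℝ) * (a:ℝ) / R = 16 * (a / R) by ring]
        linarith
  · rw [qz_eq_zero ha h]; norm_num

/-- defining property of `q_z` on the closed cell -/
theorem qz_spec {R a : ℕ} (ha : 1 ≤ a) (hR : 1 ≤ R) {x z v : ℤ × ℤ}
    (h : |v.1 - z.1| ≤ a ∧ |v.2 - z.2| ≤ a) :
    (16 * a / R : ℝ) * qz R a x z v = cut x R v - cut x R z := by
  have ha' : (0:ℝ) < a := by exact_mod_cast ha
  have hR' : (0:ℝ) < R := by exact_mod_cast hR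
  unfold qz
  rw [wide_eq_one ha h, mul_one, mul_div_cancel₀]
  positivity

theorem wide_step (a : ℕ) (z u : ℤ × ℤ) (i : Fin 2) :
    |wide a z (u + latticeDir i) - wide a z u| ≤ 1 / a :=
  prod_step (wide1_step a) (wide1_step a)
    (fun t => abs_le_one_of (wide1_nonneg _ _) (wide1_le_one _ _))
    (fun t => abs_le_one_of (wide1_nonneg _ _) (wide1_le_one _ _)) z u i

theorem wide_out {a : ℕ} (ha : 1 ≤ a) {z u : ℤ × ℤ} (i : Fin 2)
    (h : ¬ (|u.1 - z.1| ≤ (2 * a : ℕ) ∧ |u.2 - z.2| ≤ (2 * a : ℕ))) :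
    wide a z (u + latticeDir i) = 0 ∧ wide a z u = 0 := by
  rw [not_and_or, not_le, not_le] at h
  push_cast at h
  constructor
  · apply wide_eq_zero ha
    rintro ⟨h1, h2⟩
    rw [abs_lt] at h1 h2
    fin_cases i
    · simp only [Fin.zero_eta, latDir_zero] at h1 h2
      rcases h with h | h <;> rw [lt_abs] at h <;> omega
    · simp only [Fin.mk_one, latDir_one] at h1 h2
      rcases h with h | h <;> rw [lt_abs] at h <;> omega
  · apply wide_eq_zero ha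
    rintro ⟨h1, h2⟩
    rcases h with h | h
    · exact absurd h1 (not_lt.mpr h.le)
    · exact absurd h2 (not_lt.mpr h.le)

/-- N6, `q` part -/
theorem En_qz_le (V : Finset (ℤ × ℤ)) (b : ℤ × ℤ → Fin 2 → ℝ) (β : ℝ) (hβ : 0 ≤ β)
    (hb : ∀ u i, 0 ≤ b u i ∧ b u i ≤ β) (R a : ℕ) (ha : 1 ≤ a) (hR : 1 ≤ R) (x z : ℤ × ℤ) :
    (latG V b).En (rs V (qz R a x z)) ≤ 50 * β := by
  have ha' : (0:ℝ) < a := by exact_mod_cast ha
  have ha1 : (1:ℝ) ≤ a := by exact_mod_cast ha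
  have hR' : (0:ℝ) < R := by exact_mod_cast hR
  have hden : (0:ℝ) < 16 * a / R := by positivity
  refine (En_le_box V b β hβ hb (qz R a x z) z (2 * a) (1 / a) ?_ ?_).trans ?_
  · intro u i
    by_cases h : |u.1 - z.1| ≤ (2 * a : ℕ) ∧ |u.2 - z.2| ≤ (2 * a : ℕ)
    · have h' : |u.1 - z.1| ≤ 2 * a ∧ |u.2 - z.2| ≤ 2 * a := by
        push_cast at h; exact h
      have h1 := cut_sub_le_box (x := x) (R := R) h'
      have h2 := cut_step x R u i
      have h3 := wide_step a z u i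
      have e : qz R a x z (u + latticeDir i) - qz R a x z u
          = ((cut x R (u + latticeDir i) - cut x R u) * wide a z (u + latticeDir i)
            + (cut x R u - cut x R z) * (wide a z (u + latticeDir i) - wide a z u))
              / (16 * a / R) := by
        unfold qz; ring
      rw [e, abs_div, abs_of_pos hden, div_le_iff₀ hden]
      calc _ ≤ |(cut x R (u + latticeDir i) - cut x R u) * wide a z (u + latticeDir i)|
            + |(cut x R u - cut x R z) * (wide a z (u + latticeDir i) - wide a z u)| :=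
            abs_add_le _ _
        _ ≤ 1 / (R:ℝ) * 1 + 4 * (a:ℝ) / R * (1 / a) := by
            rw [abs_mul, abs_mul]
            apply add_le_add
            · exact mul_le_mul h2 (abs_le_one_of (wide_nonneg _ _ _) (wide_le_one _ _ _))
                (abs_nonneg _) (by positivity)
            · exact mul_le_mul h1 h3 (abs_nonneg _) (by positivity)
        _ ≤ 1 / (a:ℝ) * (16 * a / R) := by
            have e1 : (4:ℝ) * a / R * (1 / a) = 4 * (1 / R) := by field_simp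
            have e2 : (1:ℝ) / a * (16 * a / R) = 16 * (1 / R) := by field_simp
            rw [e1, e2]
            have : (0:ℝ) < 1 / R := by positivity
            linarith
    · obtain ⟨h1, h2⟩ := wide_out ha i h
      unfold qz
      rw [h1, h2]; simp
  · intro u i hne
    by_contra h
    obtain ⟨h1, h2⟩ := wide_out ha i h
    apply hne
    unfold qz
    rw [h1, h2]; simp
  · have h1 : 2 * (2 * ((2 * a : ℕ) : ℝ) + 1) ^ 2 * (1 / (a:ℝ)) ^ 2 ≤ 50 := by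
      push_cast
      rw [one_div, inv_pow, ← div_eq_mul_inv, div_le_iff₀ (by positivity)]
      nlinarith
    nlinarith

end Crest.Agent.R167.Geo
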