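import Crest.Agent.R167.GeoA

/-! Row 167, node GEO-A (helper725), part 2: partition of unity, hull rectangle, interpolation
error (N1, N2, N7). -/

set_option autoImplicit false
set_option linter.unusedVariables false
open Crest.ProbabilityR.SpinModel

namespace Crest.Agent.R167.Geo

/-! ### one-dimensional interpolation -/

/-- one-dimensional nodes -/
noncomputable def N1 (R a : ℕ) (c o : ℤ) : Finset ℤ :=
  (Finset.Icc (c - 3 * R) (c + 3 * R)).filter fun t => (a : ℤ) ∣ t - o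

theorem mem_N1 {R a : ℕ} {c o t : ℤ} :
    t ∈ N1 R a c o ↔ (c - 3 * R ≤ t ∧ t ≤ c + 3 * R) ∧ (a : ℤ) ∣ t - o := by
  rw [N1, Finset.mem_filter, Finset.mem_Icc]

theorem nodes_eq (R a : ℕ) (x o : ℤ × ℤ) :
    nodes R a x o = N1 R a x.1 o.1 ×ˢ N1 R a x.2 o.2 := rfl

/-- one-dimensional interpolant of `F` -/
noncomputable def SF (R a : ℕ) (c o : ℤ) (F : ℤ → ℝ) (t : ℤ) : ℝ :=
  ∑ z ∈ N1 R a c o, F z * hat1 a (t - z)

theorem exists_node (a : ℕ) (ha : 1 ≤ a) (o t : ℤ) :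
    ∃ c0 : ℤ, (a : ℤ) ∣ c0 - o ∧ c0 ≤ t ∧ t < c0 + a := by
  have ha' : (0:ℤ) < a := by exact_mod_cast ha
  refine ⟨t - (t - o) % a, ⟨(t - o) / a, ?_⟩, ?_, ?_⟩
  · have := Int.emod_add_mul_ediv (t - o) a
    linarith
  · have := Int.emod_nonneg (t - o) ha'.ne'
    linarith
  · have := Int.emod_lt_of_pos (t - o) ha'
    linarith

theorem SF_cell {R a : ℕ} (ha : 1 ≤ a) {c o : ℤ} (F : ℤ → ℝ) {c0 t : ℤ}
    (hm0 : c0 ∈ N1 R a c o) (hm1 : c0 + a ∈ N1 R a c o) (h1 : c0 ≤ t) (h2 : t ≤ c0 + a) :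
    SF R a c o F t = F c0 * (1 - ((t - c0 : ℤ) : ℝ) / a)
      + F (c0 + a) * (((t - c0 : ℤ) : ℝ) / a) := by
  have ha' : (0:ℤ) < a := by exact_mod_cast ha
  have haR : (0:ℝ) < a := by exact_mod_cast ha
  have hsub : ({c0, c0 + (a:ℤ)} : Finset ℤ) ⊆ N1 R a c o := by
    intro z hz
    rw [Finset.mem_insert, Finset.mem_singleton] at hz
    rcases hz with rfl | rfl <;> assumption
  unfold SF
  rw [← Finset.sum_subset hsub, Finset.sum_pair (by omega)]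
  · have e1 : hat1 a (t - c0) = 1 - ((t - c0 : ℤ) : ℝ) / a := by
      unfold hat1
      have h3 : (0:ℝ) ≤ ((t - c0 : ℤ) : ℝ) := by exact_mod_cast (by omega : 0 ≤ t - c0)
      rw [abs_of_nonneg h3]
      apply max_eq_right
      have h4 : ((t - c0 : ℤ) : ℝ) ≤ a := by exact_mod_cast (by omega : t - c0 ≤ a)
      have h5 : ((t - c0 : ℤ) : ℝ) / a ≤ 1 := by rw [div_le_iff₀ haR]; linarith
      linarith
    have e2 : hat1 a (t - (c0 + a)) = ((t - c0 : ℤ) : ℝ) / a := by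
      unfold hat1
      have h3 : ((t - (c0 + a) : ℤ) : ℝ) ≤ 0 := by
        exact_mod_cast (by omega : t - (c0 + (a:ℤ)) ≤ 0)
      rw [abs_of_nonpos h3]
      have e3 : 1 - -((t - (c0 + a) : ℤ) : ℝ) / a = ((t - c0 : ℤ) : ℝ) / a := by
        push_cast; field_simp; ring
      rw [e3]
      apply max_eq_right
      have h4 : (0:ℝ) ≤ ((t - c0 : ℤ) : ℝ) := by exact_mod_cast (by omega : 0 ≤ t - c0)
      positivity
    rw [e1, e2]
  · intro z hz hne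
    rw [Finset.mem_insert, Finset.mem_singleton, not_or] at hne
    have hd1 := (mem_N1.mp hz).2
    have hd2 := (mem_N1.mp hm0).2
    have hd : (a : ℤ) ∣ z - c0 := by
      have := dvd_sub hd1 hd2
      rwa [show z - o - (c0 - o) = z - c0 by ring] at this
    obtain ⟨k, hk⟩ := hd
    rw [hat1_eq_zero ha, mul_zero]
    rw [le_abs]
    have hk0 : k ≠ 0 := by rintro rfl; apply hne.1; linarith
    have hk1 : k ≠ 1 := by rintro rfl; apply hne.2; linarith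
    rcases (by omega : k ≤ -1 ∨ 2 ≤ k) with hk' | hk'
    · left; nlinarith
    · right; nlinarith

/-- existence of the cell containing `t` with both ends in `N1` -/
theorem exists_cell {R a : ℕ} (ha : 1 ≤ a) {c o t : ℤ} (ht : |t - c| ≤ 3 * R - a) :
    ∃ c0, c0 ∈ N1 R a c o ∧ c0 + a ∈ N1 R a c o ∧ c0 ≤ t ∧ t < c0 + a := by
  obtain ⟨c0, hd, h1, h2⟩ := exists_node a ha o t
  rw [abs_le] at ht
  refine ⟨c0, mem_N1.mpr ⟨⟨by omega, by omega⟩, hd⟩, mem_N1.mpr ⟨⟨by omega, by omega⟩, ?_⟩, h1, h2⟩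
  rw [show c0 + (a:ℤ) - o = (c0 - o) + a by ring]
  exact dvd_add hd (dvd_refl _)

/-- one-dimensional partition of unity -/
theorem sum_hat1 {R a : ℕ} (ha : 1 ≤ a) {c o t : ℤ} (ht : |t - c| ≤ 3 * R - a) :
    ∑ z ∈ N1 R a c o, hat1 a (t - z) = 1 := by
  obtain ⟨c0, hm0, hm1, h1, h2⟩ := exists_cell (o := o) ha ht
  have := SF_cell ha (fun _ => 1) hm0 hm1 h1 h2.le
  unfold SF at this
  simp only [one_mul] at this
  rw [this]; ring

/-- the centred profile -/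
noncomputable def Fc (R : ℕ) (c : ℤ) (z : ℤ) : ℝ := phi R (z - c)

theorem Fc_zero {R : ℕ} (hR : 1 ≤ R) {c t : ℤ} (ht : 5 * (R:ℤ) ≤ 2 * |t - c|) : Fc R c t = 0 :=
  phi_eq_zero hR ht

theorem SF_zero {R a : ℕ} (ha : 1 ≤ a) (hR : 1 ≤ R) {c o t : ℤ}
    (ht : 5 * (R:ℤ) + 2 * a ≤ 2 * |t - c|) : SF R a c o (Fc R c) t = 0 := by
  unfold SF
  apply Finset.sum_eq_zero
  intro z _
  by_cases h : (a:ℤ) ≤ |t - z|
  · rw [hat1_eq_zero ha h, mul_zero]
  · rw [Fc_zero hR, zero_mul]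
    have h3 : |t - c| ≤ |t - z| + |z - c| := by
      have := abs_add_le (t - z) (z - c)
      rwa [show t - z + (z - c) = t - c by ring] at this
    omega

theorem SF_nonneg {R a : ℕ} {c o : ℤ} {F : ℤ → ℝ} (hF : ∀ z, 0 ≤ F z) (t : ℤ) :
    0 ≤ SF R a c o F t :=
  Finset.sum_nonneg fun z _ => mul_nonneg (hF z) (hat1_nonneg _ _)

theorem SF_le_one {R a : ℕ} (ha : 1 ≤ a) (h100 : 100 * a ≤ R) {c o : ℤ} (t : ℤ) :
    SF R a c o (Fc R c) t ≤ 1 := by
  by_cases ht : |t - c| ≤ 3 * R - a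
  · rw [← sum_hat1 (o := o) ha ht]
    unfold SF
    apply Finset.sum_le_sum
    intro z _
    have := mul_le_mul_of_nonneg_right (phi_le_one R (z - c)) (hat1_nonneg a (t - z))
    simpa [Fc] using this
  · rw [SF_zero ha (by omega)]
    · exact zero_le_one
    · omega

theorem SF_step {R a : ℕ} (ha : 1 ≤ a) (h100 : 100 * a ≤ R) {c o : ℤ} (t : ℤ) :
    |SF R a c o (Fc R c) (t + 1) - SF R a c o (Fc R c) t| ≤ 1 / R := by
  have haR : (0:ℝ) < a := by exact_mod_cast ha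
  have hR1 : 1 ≤ R := by omega
  have hRR : (0:ℝ) < R := by exact_mod_cast hR1
  by_cases ht : |t - c| ≤ 3 * R - a
  · obtain ⟨c0, hm0, hm1, h1, h2⟩ := exists_cell (o := o) ha ht
    rw [SF_cell ha _ hm0 hm1 h1 h2.le, SF_cell ha _ hm0 hm1 (t := t + 1) (by omega) (by omega)]
    have e : Fc R c c0 * (1 - ((t + 1 - c0 : ℤ) : ℝ) / a)
        + Fc R c (c0 + a) * (((t + 1 - c0 : ℤ) : ℝ) / a)
        - (Fc R c c0 * (1 - ((t - c0 : ℤ) : ℝ) / a) + Fc R c (c0 + a) * (((t - c0 : ℤ) : ℝ) / a))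
        = (Fc R c (c0 + a) - Fc R c c0) / a := by
      push_cast; ring
    rw [e, abs_div, abs_of_pos haR, div_le_iff₀ haR]
    have h3 := phi_lip R (c0 + a - c) (c0 - c)
    rw [show c0 + (a:ℤ) - c - (c0 - c) = a by ring] at h3
    unfold Fc
    refine h3.trans (le_of_eq ?_)
    rw [Int.cast_natCast, abs_of_pos haR]; ring
  · have h4 : |t - c| ≤ |t + 1 - c| + 1 := by
      have := abs_add_le (t + 1 - c) (-1)
      rw [show t + 1 - c + -1 = t - c by ring] at this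
      simpa using this
    rw [SF_zero ha hR1 (t := t) (by omega), SF_zero ha hR1 (t := t + 1) (by omega)]
    simp

/-! ### away from the kinks the interpolant is exact -/

theorem phi_mid_pos {R : ℕ} (hR : 1 ≤ R) {s : ℤ} (h1 : 3 * (R:ℤ) ≤ 2 * s) (h2 : 2 * s ≤ 5 * R) :
    phi R s = 5 / 2 - (s:ℝ) / R := by
  have hRR : (0:ℝ) < R := by exact_mod_cast hR
  have h0 : (0:ℤ) ≤ s := by omega
  have h0' : (0:ℝ) ≤ s := by exact_mod_cast h0
  have h1' : (3:ℝ) * R ≤ 2 * s := by exact_mod_cast h1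
  have h2' : (2:ℝ) * s ≤ 5 * R := by exact_mod_cast h2
  have h3 : 3 / 2 ≤ (s:ℝ) / R := by rw [le_div_iff₀ hRR]; linarith
  have h4 : (s:ℝ) / R ≤ 5 / 2 := by rw [div_le_iff₀ hRR]; linarith
  unfold phi
  rw [abs_of_nonneg h0', min_eq_right (by linarith), max_eq_right (by linarith)]

theorem phi_mid_neg {R : ℕ} (hR : 1 ≤ R) {s : ℤ} (h1 : 3 * (R:ℤ) ≤ -(2 * s))
    (h2 : -(2 * s) ≤ 5 * R) : phi R s = 5 / 2 + (s:ℝ) / R := by
  have h := phi_mid_pos hR (s := -s) (by omega) (by omega)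
  have e : phi R (-s) = phi R s := by unfold phi; simp
  rw [← e, h]; push_cast; ring

/-- points near the kinks -/
noncomputable def Kk (R m : ℕ) (c : ℤ) : Finset ℤ :=
  ((Finset.Icc (c + 3 * (R:ℤ) / 2 - m) (c + 3 * (R:ℤ) / 2 + m)) ∪
    (Finset.Icc (c + (-(3 * (R:ℤ))) / 2 - m) (c + (-(3 * (R:ℤ))) / 2 + m))) ∪
  ((Finset.Icc (c + 5 * (R:ℤ) / 2 - m) (c + 5 * (R:ℤ) / 2 + m)) ∪
    (Finset.Icc (c + (-(5 * (R:ℤ))) / 2 - m) (c + (-(5 * (R:ℤ))) / 2 + m)))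

theorem card_Kk (R m : ℕ) (c : ℤ) : ((Kk R m c).card : ℝ) ≤ 4 * (2 * m + 1) := by
  have h : (Kk R m c).card ≤ 4 * (2 * m + 1) := by
    unfold Kk
    refine (Finset.card_union_le _ _).trans ?_
    refine (add_le_add (Finset.card_union_le _ _) (Finset.card_union_le _ _)).trans ?_
    simp only [Int.card_Icc]
    omega
  exact_mod_cast h

theorem not_mem_Kk {R m : ℕ} {c t : ℤ} (h : t ∉ Kk R m c) :
    (t < c + 3 * (R:ℤ) / 2 - m ∨ c + 3 * (R:ℤ) / 2 + m < t) ∧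
    (t < c + (-(3 * (R:ℤ))) / 2 - m ∨ c + (-(3 * (R:ℤ))) / 2 + m < t) ∧
    (t < c + 5 * (R:ℤ) / 2 - m ∨ c + 5 * (R:ℤ) / 2 + m < t) ∧
    (t < c + (-(5 * (R:ℤ))) / 2 - m ∨ c + (-(5 * (R:ℤ))) / 2 + m < t) := by
  unfold Kk at h
  simp only [Finset.mem_union, Finset.mem_Icc, not_or, not_and_or, not_le] at h
  tauto

theorem affine_cell {A B c0 c t a : ℝ} (ha : 0 < a) {y0 y1 yt : ℝ} (h0 : y0 = A + B * (c0 - c))
    (h1 : y1 = A + B * (c0 + a - c)) (ht : yt = A + B * (t - c)) :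
    y0 * (1 - (t - c0) / a) + y1 * ((t - c0) / a) = yt := by
  rw [h0, h1, ht]; field_simp; ring

theorem SF_eq {R a : ℕ} (ha : 1 ≤ a) (h100 : 100 * a ≤ R) {c o t : ℤ} (ht : t ∉ Kk R a c) :
    SF R a c o (Fc R c) t = Fc R c t := by
  have haR : (0:ℝ) < a := by exact_mod_cast ha
  have hR1 : 1 ≤ R := by omega
  have hRR : (0:ℝ) < R := by exact_mod_cast hR1
  by_cases h3 : |t - c| ≤ 3 * R - a
  · obtain ⟨c0, hm0, hm1, h1, h2⟩ := exists_cell (o := o) ha h3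
    rw [SF_cell ha _ hm0 hm1 h1 h2.le]
    obtain ⟨k1, k2, k3, k4⟩ := not_mem_Kk ht
    have key : ∀ A B : ℝ, (∀ s : ℤ, c0 ≤ s → s ≤ c0 + a → Fc R c s = A + B * ((s:ℝ) - c)) →
        Fc R c c0 * (1 - ((t - c0 : ℤ) : ℝ) / a) + Fc R c (c0 + a) * (((t - c0 : ℤ) : ℝ) / a)
          = Fc R c t := by
      intro A B hAB
      have g0 := hAB c0 le_rfl (by omega)
      have g1 := hAB (c0 + a) (by omega) le_rfl
      have gt := hAB t h1 h2.le
      push_cast at g1 ⊢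
      exact affine_cell haR g0 g1 gt
    rcases (by omega : 2 * (c0 + a - c) ≤ -(5 * (R:ℤ)) ∨
        (-(5 * (R:ℤ)) ≤ 2 * (c0 - c) ∧ 2 * (c0 + a - c) ≤ -(3 * (R:ℤ))) ∨
        (-(3 * (R:ℤ)) ≤ 2 * (c0 - c) ∧ 2 * (c0 + a - c) ≤ 3 * (R:ℤ)) ∨
        (3 * (R:ℤ) ≤ 2 * (c0 - c) ∧ 2 * (c0 + a - c) ≤ 5 * (R:ℤ)) ∨
        5 * (R:ℤ) ≤ 2 * (c0 - c)) with g | g | g | g | g
    · apply key 0 0
      intro s hs1 hs2
      rw [Fc_zero hR1]
      · ring
      · rw [abs_of_nonpos (by omega)]; omega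
    · apply key (5/2) (1/R)
      intro s hs1 hs2
      unfold Fc
      rw [phi_mid_neg hR1 (by omega) (by omega)]
      push_cast; ring
    · apply key 1 0
      intro s hs1 hs2
      unfold Fc
      rw [phi_eq_one hR1]
      · ring
      · rcases abs_cases (s - c) with ⟨e, _⟩ | ⟨e, _⟩ <;> rw [e] <;> omega
    · apply key (5/2) (-(1/R))
      intro s hs1 hs2
      unfold Fc
      rw [phi_mid_pos hR1 (by omega) (by omega)]
      push_cast; ring
    · apply key 0 0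
      intro s hs1 hs2
      rw [Fc_zero hR1]
      · ring
      · rw [abs_of_nonneg (by omega)]; omega
  · rw [SF_zero ha hR1 (by omega), Fc_zero hR1 (by omega)]

end Crest.Agent.R167.Geo
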