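import Crest.Agent.R167.GeoA2

/-! Row 167, node GEO-A (helper725), part 3: two-dimensional statements N1, N2, N7. -/

set_option autoImplicit false
set_option linter.unusedVariables false
open Crest.ProbabilityR.SpinModel

namespace Crest.Agent.R167.Geo

/-! ### N1: partition of unity -/

theorem sum_hat {R a : ℕ} (ha : 1 ≤ a) {x o v : ℤ × ℤ} (h1 : |v.1 - x.1| ≤ 3 * R - a)
    (h2 : |v.2 - x.2| ≤ 3 * R - a) : ∑ z ∈ nodes R a x o, hat a z v = 1 := by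
  rw [nodes_eq, Finset.sum_product]
  simp only [hat]
  rw [← Finset.sum_mul_sum, sum_hat1 ha h1, sum_hat1 ha h2, mul_one]

theorem sum_hat_nonneg (R a : ℕ) (x o v : ℤ × ℤ) : 0 ≤ ∑ z ∈ nodes R a x o, hat a z v :=
  Finset.sum_nonneg fun z _ => hat_nonneg a z v

/-- `∑ hat = 0` off `|v - x| < 3R + a` -/
theorem sum_hat_zero {R a : ℕ} (ha : 1 ≤ a) {x o v : ℤ × ℤ}
    (h : ¬ (|v.1 - x.1| < 3 * R + a ∧ |v.2 - x.2| < 3 * R + a)) :
    ∑ z ∈ nodes R a x o, hat a z v = 0 := by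
  apply Finset.sum_eq_zero
  intro z hz
  rw [nodes_eq, Finset.mem_product, mem_N1, mem_N1] at hz
  obtain ⟨⟨⟨p1, p2⟩, _⟩, ⟨p3, p4⟩, _⟩ := hz
  apply hat_eq_zero ha
  rintro ⟨q1, q2⟩
  apply h
  rw [abs_lt] at q1 q2
  rw [abs_lt, abs_lt]
  constructor <;> constructor <;> linarith [q1.1, q1.2, q2.1, q2.2]

/-! ### N2: hull rectangle aligned with the mesh -/

/-- upper end: the largest node coordinate `≤ c + 3R - a` -/
noncomputable def up (R a : ℕ) (c o : ℤ) : ℤ := o + a * ((c + 3 * R - a - o) / a)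

/-- lower end: the smallest node coordinate `≥ c - 3R + a` -/
noncomputable def lo (R a : ℕ) (c o : ℤ) : ℤ := o - a * ((o - (c - 3 * R + a)) / a)

theorem up_le (R a : ℕ) (ha : 1 ≤ a) (c o : ℤ) : up R a c o ≤ c + 3 * R - a := by
  have ha' : (0:ℤ) < a := by exact_mod_cast ha
  have := Int.mul_ediv_self_le (x := c + 3 * R - a - o) (k := (a:ℤ)) ha'.ne'
  unfold up; linarith

theorem lt_up (R a : ℕ) (ha : 1 ≤ a) (c o : ℤ) : c + 3 * R - 2 * a < up R a c o := by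
  have ha' : (0:ℤ) < a := by exact_mod_cast ha
  have := Int.lt_mul_ediv_self_add (x := c + 3 * R - a - o) (k := (a:ℤ)) ha'
  unfold up; linarith

theorem le_lo (R a : ℕ) (ha : 1 ≤ a) (c o : ℤ) : c - 3 * R + a ≤ lo R a c o := by
  have ha' : (0:ℤ) < a := by exact_mod_cast ha
  have := Int.mul_ediv_self_le (x := o - (c - 3 * R + a)) (k := (a:ℤ)) ha'.ne'
  unfold lo; linarith

theorem lo_lt (R a : ℕ) (ha : 1 ≤ a) (c o : ℤ) : lo R a c o < c - 3 * R + 2 * a := by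
  have ha' : (0:ℤ) < a := by exact_mod_cast ha
  have := Int.lt_mul_ediv_self_add (x := o - (c - 3 * R + a)) (k := (a:ℤ)) ha'
  unfold lo; linarith

theorem dvd_up (R a : ℕ) (c o : ℤ) : (a:ℤ) ∣ up R a c o - o :=
  ⟨(c + 3 * R - a - o) / a, by unfold up; ring⟩

theorem dvd_lo (R a : ℕ) (c o : ℤ) : (a:ℤ) ∣ lo R a c o - o :=
  ⟨-((o - (c - 3 * R + a)) / a), by unfold lo; ring⟩

/-- closed hull -/
def Hc (R a : ℕ) (x o : ℤ × ℤ) : Set (ℤ × ℤ) :=
  {v | (lo R a x.1 o.1 ≤ v.1 ∧ v.1 ≤ up R a x.1 o.1) ∧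
    (lo R a x.2 o.2 ≤ v.2 ∧ v.2 ≤ up R a x.2 o.2)}

/-- open hull -/
def Ho (R a : ℕ) (x o : ℤ × ℤ) : Set (ℤ × ℤ) :=
  {v | (lo R a x.1 o.1 < v.1 ∧ v.1 < up R a x.1 o.1) ∧
    (lo R a x.2 o.2 < v.2 ∧ v.2 < up R a x.2 o.2)}

theorem Ho_subset_Hc (R a : ℕ) (x o : ℤ × ℤ) : Ho R a x o ⊆ Hc R a x o := by
  rintro v ⟨⟨h1, h2⟩, h3, h4⟩
  exact ⟨⟨h1.le, h2.le⟩, h3.le, h4.le⟩

theorem Hc_bound {R a : ℕ} (ha : 1 ≤ a) {x o v : ℤ × ℤ} (hv : v ∈ Hc R a x o) :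
    |v.1 - x.1| ≤ 3 * R - a ∧ |v.2 - x.2| ≤ 3 * R - a := by
  obtain ⟨⟨h1, h2⟩, h3, h4⟩ := hv
  have a1 := up_le R a ha x.1 o.1
  have a2 := up_le R a ha x.2 o.2
  have a3 := le_lo R a ha x.1 o.1
  have a4 := le_lo R a ha x.2 o.2
  rw [abs_le, abs_le]
  constructor <;> constructor <;> linarith

theorem sum_hat_Hc {R a : ℕ} (ha : 1 ≤ a) {x o v : ℤ × ℤ} (hv : v ∈ Hc R a x o) :
    ∑ z ∈ nodes R a x o, hat a z v = 1 :=
  sum_hat ha (Hc_bound ha hv).1 (Hc_bound ha hv).2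

theorem phi_zero_of {R a : ℕ} (ha : 1 ≤ a) (h100 : 100 * a ≤ R) {c o t : ℤ}
    (h : ¬ (lo R a c o < t ∧ t < up R a c o)) : phi R (t - c) = 0 := by
  have a1 := lt_up R a ha c o
  have a3 := lo_lt R a ha c o
  apply phi_eq_zero (by omega)
  rcases abs_cases (t - c) with ⟨e, _⟩ | ⟨e, _⟩ <;> rw [e] <;> omega

theorem cut_eq_zero_off_Ho {R a : ℕ} (ha : 1 ≤ a) (h100 : 100 * a ≤ R) {x o v : ℤ × ℤ}
    (hv : v ∉ Ho R a x o) : cut x R v = 0 := by
  have : ¬ (lo R a x.1 o.1 < v.1 ∧ v.1 < up R a x.1 o.1) ∨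
      ¬ (lo R a x.2 o.2 < v.2 ∧ v.2 < up R a x.2 o.2) := not_and_or.mp hv
  unfold cut
  rcases this with h | h
  · rw [phi_zero_of ha h100 h, zero_mul]
  · rw [phi_zero_of ha h100 h, mul_zero]

/-- lattice neighbours of the open hull are in the closed hull -/
theorem Ho_nbr {R a : ℕ} {x o u : ℤ × ℤ} (i : Fin 2) :
    (u ∈ Ho R a x o → u + latticeDir i ∈ Hc R a x o) ∧
    (u + latticeDir i ∈ Ho R a x o → u ∈ Hc R a x o) := by
  fin_cases i
  · simp only [Fin.zero_eta, latDir_zero]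
    constructor
    · rintro ⟨⟨h1, h2⟩, h3, h4⟩
      exact ⟨⟨by simp only; omega, by simp only; omega⟩, by simp only; omega, by simp only; omega⟩
    · rintro ⟨⟨h1, h2⟩, h3, h4⟩
      simp only at h1 h2 h3 h4
      exact ⟨⟨by omega, by omega⟩, by omega, by omega⟩
  · simp only [Fin.mk_one, latDir_one]
    constructor
    · rintro ⟨⟨h1, h2⟩, h3, h4⟩
      exact ⟨⟨by simp only; omega, by simp only; omega⟩, by simp only; omega, by simp only; omega⟩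
    · rintro ⟨⟨h1, h2⟩, h3, h4⟩
      simp only at h1 h2 h3 h4
      exact ⟨⟨by omega, by omega⟩, by omega, by omega⟩

/-- the boundary of the hull lies on grid lines -/
theorem Hc_diff_Ho {R a : ℕ} {x o v : ℤ × ℤ} (h1 : v ∈ Hc R a x o) (h2 : v ∉ Ho R a x o) :
    (a : ℤ) ∣ v.1 - o.1 ∨ (a : ℤ) ∣ v.2 - o.2 := by
  obtain ⟨⟨p1, p2⟩, p3, p4⟩ := h1
  have : ¬ (lo R a x.1 o.1 < v.1 ∧ v.1 < up R a x.1 o.1) ∨
      ¬ (lo R a x.2 o.2 < v.2 ∧ v.2 < up R a x.2 o.2) := not_and_or.mp h2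
  rcases this with h | h
  · left
    rcases (by omega : v.1 = lo R a x.1 o.1 ∨ v.1 = up R a x.1 o.1) with e | e
    · rw [e]; exact dvd_lo _ _ _ _
    · rw [e]; exact dvd_up _ _ _ _
  · right
    rcases (by omega : v.2 = lo R a x.2 o.2 ∨ v.2 = up R a x.2 o.2) with e | e
    · rw [e]; exact dvd_lo _ _ _ _
    · rw [e]; exact dvd_up _ _ _ _

/-- the boundary of the hull, inside `V` -/
theorem Hc_diff_Ho_Grid {R a : ℕ} {x o : ℤ × ℤ} {V : Finset (ℤ × ℤ)} {v : V}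
    (h1 : (v : ℤ × ℤ) ∈ Hc R a x o) (h2 : (v : ℤ × ℤ) ∉ Ho R a x o) : v ∈ Grid V a o :=
  Hc_diff_Ho h1 h2

/-! ### N7: the interpolation error -/

theorem interp_eq (R a : ℕ) (x o v : ℤ × ℤ) :
    interp R a x o v = SF R a x.1 o.1 (Fc R x.1) v.1 * SF R a x.2 o.2 (Fc R x.2) v.2 := by
  unfold interp SF
  rw [nodes_eq, Finset.sum_product, Finset.sum_mul_sum]
  apply Finset.sum_congr rfl
  intro p _
  apply Finset.sum_congr rfl
  intro q _
  simp only [cut, hat, Fc]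
  ring

theorem cut_eq (R : ℕ) (x v : ℤ × ℤ) : cut x R v = Fc R x.1 v.1 * Fc R x.2 v.2 := rfl

theorem Fc_nonneg (R : ℕ) (c z : ℤ) : 0 ≤ Fc R c z := phi_nonneg _ _

theorem abs_SF_le_one {R a : ℕ} (ha : 1 ≤ a) (h100 : 100 * a ≤ R) {c o : ℤ} (t : ℤ) :
    |SF R a c o (Fc R c) t| ≤ 1 :=
  abs_le_one_of (SF_nonneg (Fc_nonneg R c) t) (SF_le_one ha h100 t)

theorem interp_nonneg (R a : ℕ) (x o v : ℤ × ℤ) : 0 ≤ interp R a x o v := by
  rw [interp_eq]
  exact mul_nonneg (SF_nonneg (Fc_nonneg _ _) _) (SF_nonneg (Fc_nonneg _ _) _)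

theorem interp_step {R a : ℕ} (ha : 1 ≤ a) (h100 : 100 * a ≤ R) (x o u : ℤ × ℤ) (i : Fin 2) :
    |interp R a x o (u + latticeDir i) - interp R a x o u| ≤ 1 / R := by
  rw [interp_eq, interp_eq]
  have := prod_step (A := SF R a x.1 o.1 (Fc R x.1)) (B := SF R a x.2 o.2 (Fc R x.2))
    (L := 1 / R) (SF_step ha h100) (SF_step ha h100) (abs_SF_le_one ha h100)
    (abs_SF_le_one ha h100) (0, 0) u i
  simpa using this

/-- support set of the increments of the interpolation error -/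
noncomputable def WW (R a : ℕ) (x : ℤ × ℤ) : Finset (ℤ × ℤ) :=
  (Kk R (a + 1) x.1 ×ˢ Finset.Icc (x.2 - 3 * R) (x.2 + 3 * R)) ∪
    (Finset.Icc (x.1 - 3 * R) (x.1 + 3 * R) ×ˢ Kk R (a + 1) x.2)

theorem card_WW {R a : ℕ} (ha : 1 ≤ a) (h100 : 100 * a ≤ R) (x : ℤ × ℤ) :
    ((WW R a x).card : ℝ) ≤ 280 * a * R := by
  have hicc : ∀ c : ℤ, ((Finset.Icc (c - 3 * (R:ℤ)) (c + 3 * R)).card : ℝ) ≤ 7 * R := by
    intro c
    rw [Int.card_Icc]
    have : (c + 3 * (R:ℤ) + 1 - (c - 3 * R)).toNat ≤ 7 * R := by omega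
    exact_mod_cast this
  have hk : ∀ c : ℤ, ((Kk R (a + 1) c).card : ℝ) ≤ 20 * a := by
    intro c
    refine (card_Kk R (a + 1) c).trans ?_
    have : (1:ℝ) ≤ a := by exact_mod_cast ha
    push_cast; linarith
  have hR : (0:ℝ) ≤ R := Nat.cast_nonneg R
  have h0 : (0:ℝ) ≤ a := Nat.cast_nonneg a
  have h1 : ((WW R a x).card : ℝ) ≤ (Kk R (a + 1) x.1).card
      * (Finset.Icc (x.2 - 3 * (R:ℤ)) (x.2 + 3 * R)).card
      + (Finset.Icc (x.1 - 3 * (R:ℤ)) (x.1 + 3 * R)).card * (Kk R (a + 1) x.2).card := by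
    have := Finset.card_union_le (Kk R (a + 1) x.1 ×ˢ Finset.Icc (x.2 - 3 * (R:ℤ)) (x.2 + 3 * R))
      (Finset.Icc (x.1 - 3 * (R:ℤ)) (x.1 + 3 * R) ×ˢ Kk R (a + 1) x.2)
    rw [Finset.card_product, Finset.card_product] at this
    exact_mod_cast this
  have h2 := mul_le_mul (hk x.1) (hicc x.2) (Nat.cast_nonneg _) (by positivity)
  have h3 := mul_le_mul (hicc x.1) (hk x.2) (Nat.cast_nonneg _) (by positivity)
  nlinarith

theorem mem_Kk_mono {R : ℕ} {a : ℕ} {c t : ℤ} (h : t ∉ Kk R (a + 1) c) :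
    t ∉ Kk R a c ∧ t + 1 ∉ Kk R a c := by
  obtain ⟨k1, k2, k3, k4⟩ := not_mem_Kk h
  push_cast at k1 k2 k3 k4
  constructor <;>
  · unfold Kk
    simp only [Finset.mem_union, Finset.mem_Icc, not_or, not_and_or, not_le]
    refine ⟨⟨?_, ?_⟩, ?_, ?_⟩ <;> omega

theorem err_zero_of_Kk {R a : ℕ} (ha : 1 ≤ a) (h100 : 100 * a ≤ R) {x o v : ℤ × ℤ}
    (h1 : v.1 ∉ Kk R a x.1) (h2 : v.2 ∉ Kk R a x.2) :
    cut x R v - interp R a x o v = 0 := by
  rw [cut_eq, interp_eq, SF_eq ha h100 h1, SF_eq ha h100 h2, sub_self]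

theorem err_zero_far1 {R a : ℕ} (ha : 1 ≤ a) (h100 : 100 * a ≤ R) {x o v : ℤ × ℤ}
    (h : 3 * (R:ℤ) ≤ |v.1 - x.1|) : cut x R v - interp R a x o v = 0 := by
  have hR1 : 1 ≤ R := by omega
  rw [cut_eq, interp_eq, SF_zero ha hR1 (by omega), Fc_zero hR1 (by omega)]
  ring

theorem err_zero_far2 {R a : ℕ} (ha : 1 ≤ a) (h100 : 100 * a ≤ R) {x o v : ℤ × ℤ}
    (h : 3 * (R:ℤ) ≤ |v.2 - x.2|) : cut x R v - interp R a x o v = 0 := by
  have hR1 : 1 ≤ R := by omega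
  rw [cut_eq, interp_eq, SF_zero (c := x.2) ha hR1 (by omega), Fc_zero (c := x.2) hR1 (by omega)]
  ring

theorem err_support {R a : ℕ} (ha : 1 ≤ a) (h100 : 100 * a ≤ R) {x o u : ℤ × ℤ} (i : Fin 2)
    (h : cut x R (u + latticeDir i) - interp R a x o (u + latticeDir i)
      ≠ cut x R u - interp R a x o u) : u ∈ WW R a x := by
  by_contra hW
  apply h
  have hI1 : |u.1 - x.1| ≤ 3 * R ↔ u.1 ∈ Finset.Icc (x.1 - 3 * (R:ℤ)) (x.1 + 3 * R) := by
    rw [Finset.mem_Icc, abs_le]; constructor <;> rintro ⟨p, q⟩ <;> constructor <;> linarith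
  have hI2 : |u.2 - x.2| ≤ 3 * R ↔ u.2 ∈ Finset.Icc (x.2 - 3 * (R:ℤ)) (x.2 + 3 * R) := by
    rw [Finset.mem_Icc, abs_le]; constructor <;> rintro ⟨p, q⟩ <;> constructor <;> linarith
  unfold WW at hW
  rw [Finset.mem_union, not_or, Finset.mem_product, Finset.mem_product, ← hI1, ← hI2] at hW
  by_cases f1 : |u.1 - x.1| ≤ 3 * R
  · by_cases f2 : |u.2 - x.2| ≤ 3 * R
    · have k1 : u.1 ∉ Kk R (a + 1) x.1 := fun hk => hW.1 ⟨hk, f2⟩
      have k2 : u.2 ∉ Kk R (a + 1) x.2 := fun hk => hW.2 ⟨f1, hk⟩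
      obtain ⟨k1, k1'⟩ := mem_Kk_mono k1
      obtain ⟨k2, k2'⟩ := mem_Kk_mono k2
      rw [err_zero_of_Kk ha h100 (v := u) k1 k2]
      fin_cases i
      · simp only [Fin.zero_eta, latDir_zero]
        exact err_zero_of_Kk ha h100 k1' k2
      · simp only [Fin.mk_one, latDir_one]
        exact err_zero_of_Kk ha h100 k1 k2'
    · rw [err_zero_far2 ha h100 (v := u) (by omega)]
      fin_cases i
      · simp only [Fin.zero_eta, latDir_zero]
        exact err_zero_far2 ha h100 (by simp only; omega)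
      · simp only [Fin.mk_one, latDir_one]
        apply err_zero_far2 ha h100
        simp only
        rcases abs_cases (u.2 - x.2) with ⟨e, _⟩ | ⟨e, _⟩ <;>
          rcases abs_cases (u.2 + 1 - x.2) with ⟨e', _⟩ | ⟨e', _⟩ <;> omega
  · rw [err_zero_far1 ha h100 (v := u) (by omega)]
    fin_cases i
    · simp only [Fin.zero_eta, latDir_zero]
      apply err_zero_far1 ha h100
      simp only
      rcases abs_cases (u.1 - x.1) with ⟨e, _⟩ | ⟨e, _⟩ <;>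
        rcases abs_cases (u.1 + 1 - x.1) with ⟨e', _⟩ | ⟨e', _⟩ <;> omega
    · simp only [Fin.mk_one, latDir_one]
      exact err_zero_far1 ha h100 (by simp only; omega)

/-- N7, second half -/
theorem En_err_le (V : Finset (ℤ × ℤ)) (b : ℤ × ℤ → Fin 2 → ℝ) (β : ℝ) (hβ : 0 ≤ β)
    (hb : ∀ u i, 0 ≤ b u i ∧ b u i ≤ β) (R a : ℕ) (ha : 1 ≤ a) (h100 : 100 * a ≤ R)
    (x o : ℤ × ℤ) :
    (latG V b).En (rs V (fun v => cut x R v - interp R a x o v)) ≤ 2240 * β * (a / R) := by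
  have hR1 : 1 ≤ R := by omega
  have hRR : (0:ℝ) < R := by exact_mod_cast hR1
  have haR : (0:ℝ) < a := by exact_mod_cast ha
  refine (En_le_dirE V b β hb _).trans ?_
  have h1 := dirE_le V (fun v => cut x R v - interp R a x o v) (fun _ => WW R a x) (2 / R)
    (fun u i => by
      have e : (cut x R (u + latticeDir i) - interp R a x o (u + latticeDir i))
          - (cut x R u - interp R a x o u)
          = (cut x R (u + latticeDir i) - cut x R u)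
            - (interp R a x o (u + latticeDir i) - interp R a x o u) := by ring
      show |_| ≤ _
      rw [e]
      refine (abs_sub _ _).trans ?_
      have := cut_step x R u i
      have := interp_step ha h100 x o u i
      calc _ ≤ 1 / (R:ℝ) + 1 / R := by linarith
        _ = 2 / R := by ring)
    (fun u i h => err_support ha h100 i h)
  have h2 := card_WW ha h100 x
  have h3 : ((((WW R a x).card : ℝ) + (WW R a x).card) * (2 / (R:ℝ)) ^ 2) ≤ 2240 * (a / R) := by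
    have h4 : (0:ℝ) ≤ (2 / (R:ℝ)) ^ 2 := sq_nonneg _
    calc _ ≤ (280 * a * R + 280 * a * R) * (2 / (R:ℝ)) ^ 2 :=
          mul_le_mul_of_nonneg_right (by linarith) h4
      _ = 2240 * (a / R) := by field_simp; ring
  calc β * dirE V _ ≤ β * (2240 * (a / R)) := mul_le_mul_of_nonneg_left (h1.trans h3) hβ
    _ = _ := by ring

end Crest.Agent.R167.Geo
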