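import Crest.Agent.R167.Iface

/-! Row 167, common definitions of GEO-A (725) and GEO-B (681). -/

set_option autoImplicit false
open Crest.ProbabilityR.SpinModel

namespace Crest.Agent.R167.Geo

/-- nodes of the mesh `a`, offset `o`, with `|z - x| ≤ 3R` -/
noncomputable def nodes (R a : ℕ) (x o : ℤ × ℤ) : Finset (ℤ × ℤ) :=
  ((Finset.Icc (x.1 - 3 * R) (x.1 + 3 * R)).filter fun t => (a : ℤ) ∣ t - o.1) ×ˢ
    ((Finset.Icc (x.2 - 3 * R) (x.2 + 3 * R)).filter fun t => (a : ℤ) ∣ t - o.2)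

/-- `z` is active: the cut-off is not constant on the closed box `|v - z| ≤ a` -/
def IsAct (R a : ℕ) (x z : ℤ × ℤ) : Prop :=
  ∃ v : ℤ × ℤ, |v.1 - z.1| ≤ a ∧ |v.2 - z.2| ≤ a ∧ cut x R v ≠ cut x R z

open Classical in
/-- active nodes -/
noncomputable def act (R a : ℕ) (x o : ℤ × ℤ) : Finset (ℤ × ℤ) :=
  (nodes R a x o).filter fun z => IsAct R a x z

/-- one-dimensional wide cut-off: `1` for `|t| ≤ a`, `0` for `|t| ≥ 2a` -/
noncomputable def wide1 (a : ℕ) (t : ℤ) : ℝ := max 0 (min 1 (2 - |(t : ℝ)| / a))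

/-- cut-off around the closed cell of `z` -/
noncomputable def wide (a : ℕ) (z v : ℤ × ℤ) : ℝ := wide1 a (v.1 - z.1) * wide1 a (v.2 - z.2)

/-- `q_z`: `cut v - cut z = (16 a / R) * qz v` for `|v - z| ≤ a`, `|qz| ≤ 1/2` -/
noncomputable def qz (R a : ℕ) (x z v : ℤ × ℤ) : ℝ :=
  (cut x R v - cut x R z) * wide a z v / (16 * a / R)

/-- bilinear interpolant of the cut-off -/
noncomputable def interp (R a : ℕ) (x o v : ℤ × ℤ) : ℝ :=
  ∑ z ∈ nodes R a x o, cut x R z * hat a z v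

end Crest.Agent.R167.Geo
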