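import Crest.Agent.R167.GeoB
import Crest.Agent.R167.GeoDefs

/-! Row 167, node GEO-B, part 2: the integer geometry in terms of the frozen definitions
`bx`, `ocell`, `Grid`, `hat`, `cut`, `Geo.nodes`, `Geo.act` (helper681). -/

set_option autoImplicit false

namespace Crest.Agent.R167.GeoB

open Crest.ProbabilityR.SpinModel

variable {V : Finset (ℤ × ℤ)} {b : ℤ × ℤ → Fin 2 → ℝ} {R a : ℕ} {x o z z' : ℤ × ℤ}

lemma bx_eq (V : Finset (ℤ × ℤ)) (x : ℤ × ℤ) (R : ℕ) :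
    bx V x R = {v : V | (v : ℤ × ℤ) ∈ cbox x R} := rfl
lemma ocell_eq (V : Finset (ℤ × ℤ)) (z : ℤ × ℤ) (a : ℕ) :
    ocell V z a = {v : V | (v : ℤ × ℤ) ∈ obox z a} := rfl
lemma Grid_eq (V : Finset (ℤ × ℤ)) (a : ℕ) (o : ℤ × ℤ) :
    Grid V a o = {v : V | (v : ℤ × ℤ) ∈ grid a o} := rfl

/-! ### membership -/

lemma mem_gnodes : z ∈ Geo.nodes R a x o ↔ z ∈ cbox x (3 * R) ∧ Node a o z := by
  simp only [Geo.nodes, Finset.mem_filter, Finset.mem_product, Finset.mem_Icc, mem_cbox, abs_le,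
    Node]
  push_cast
  constructor
  · rintro ⟨⟨⟨h1, h2⟩, h3⟩, ⟨h4, h5⟩, h6⟩
    exact ⟨⟨⟨by linarith, by linarith⟩, by linarith, by linarith⟩, h3, h6⟩
  · rintro ⟨⟨⟨h1, h2⟩, h4, h5⟩, h3, h6⟩
    exact ⟨⟨⟨by linarith, by linarith⟩, h3⟩, ⟨by linarith, by linarith⟩, h6⟩

lemma node_of_mem_gnodes (h : z ∈ Geo.nodes R a x o) : Node a o z := (mem_gnodes.1 h).2

lemma mem_act : z ∈ Geo.act R a x o ↔ z ∈ Geo.nodes R a x o ∧ Geo.IsAct R a x z := by
  classical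
  simp only [Geo.act, Finset.mem_filter]

lemma node_of_mem_act (h : z ∈ Geo.act R a x o) : Node a o z := node_of_mem_gnodes (mem_act.1 h).1

/-- a node which is not active: the cut-off is constant on the closed box. -/
lemma cut_const_of_not_act (h : z ∈ Geo.nodes R a x o) (h' : z ∉ Geo.act R a x o) {v : ℤ × ℤ}
    (h1 : |v.1 - z.1| ≤ a) (h2 : |v.2 - z.2| ≤ a) : cut x R v = cut x R z := by
  by_contra hc
  exact h' (mem_act.2 ⟨h, v, h1, h2, hc⟩)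

/-! ### N3 -/

lemma hat1_eq_zero (ha : 1 ≤ a) {t : ℤ} (h : ¬ |t| < a) : hat1 a t = 0 := by
  have ha0 : (0 : ℝ) < a := by exact_mod_cast ha
  have h1 : (a : ℝ) ≤ |(t : ℝ)| := by
    have : (a : ℤ) ≤ |t| := not_lt.1 h
    exact_mod_cast this
  have h2 : 1 ≤ |(t : ℝ)| / a := by rw [le_div_iff₀ ha0]; linarith
  unfold hat1
  exact max_eq_left (by linarith)

lemma hat_eq_zero (ha : 1 ≤ a) {v : ℤ × ℤ} (h : ¬ (|v.1 - z.1| < a ∧ |v.2 - z.2| < a)) :
    hat a z v = 0 := by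
  unfold hat
  rcases not_and_or.1 h with h | h
  · rw [hat1_eq_zero ha h, zero_mul]
  · rw [hat1_eq_zero ha h, mul_zero]

lemma hat_eq_zero_of_not_mem (ha : 1 ≤ a) {v : V} (h : v ∉ ocell V z a) : rs V (hat a z) v = 0 :=
  hat_eq_zero ha h

/-! ### the cut-off -/

lemma phi_eq_one (hR : 1 ≤ R) {t : ℤ} (h : 2 * |t| ≤ 3 * R) : phi R t = 1 := by
  have hR0 : (0 : ℝ) < R := by exact_mod_cast hR
  have h1 : 2 * |(t : ℝ)| ≤ 3 * R := by exact_mod_cast h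
  have h2 : |(t : ℝ)| / R ≤ 3 / 2 := by rw [div_le_iff₀ hR0]; linarith
  unfold phi
  rw [min_eq_left (by linarith), max_eq_right (by norm_num)]

lemma phi_eq_zero (hR : 1 ≤ R) {t : ℤ} (h : 5 * R ≤ 2 * |t|) : phi R t = 0 := by
  have hR0 : (0 : ℝ) < R := by exact_mod_cast hR
  have h1 : 5 * (R : ℝ) ≤ 2 * |(t : ℝ)| := by exact_mod_cast h
  have h2 : 5 / 2 ≤ |(t : ℝ)| / R := by rw [le_div_iff₀ hR0]; linarith
  unfold phi
  exact max_eq_left ((min_le_right _ _).trans (by linarith))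

lemma phi_nonneg (R : ℕ) (t : ℤ) : 0 ≤ phi R t := le_max_left _ _
lemma phi_le_one (R : ℕ) (t : ℤ) : phi R t ≤ 1 := max_le (by norm_num) (min_le_left _ _)

lemma cut_nonneg (x : ℤ × ℤ) (R : ℕ) (v : ℤ × ℤ) : 0 ≤ cut x R v :=
  mul_nonneg (phi_nonneg _ _) (phi_nonneg _ _)
lemma cut_le_one (x : ℤ × ℤ) (R : ℕ) (v : ℤ × ℤ) : cut x R v ≤ 1 :=
  mul_le_one₀ (phi_le_one _ _) (phi_nonneg _ _) (phi_le_one _ _)

lemma cut_eq_one (hR : 1 ≤ R) {v : ℤ × ℤ} (h1 : 2 * |v.1 - x.1| ≤ 3 * R)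
    (h2 : 2 * |v.2 - x.2| ≤ 3 * R) : cut x R v = 1 := by
  unfold cut; rw [phi_eq_one hR h1, phi_eq_one hR h2, one_mul]

lemma cut_eq_zero (hR : 1 ≤ R) {v : ℤ × ℤ} (h : 5 * R ≤ 2 * |v.1 - x.1| ∨ 5 * R ≤ 2 * |v.2 - x.2|) :
    cut x R v = 0 := by
  unfold cut
  rcases h with h | h
  · rw [phi_eq_zero hR h, zero_mul]
  · rw [phi_eq_zero hR h, mul_zero]

/-! ### N4 -/

/-- the closed box of an active node misses `|v - x| ≤ R`. -/
lemma act_miss (ha : 1 ≤ a) (haR : 100 * a ≤ R) (h : Geo.IsAct R a x z) {w : ℤ × ℤ}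
    (h1 : |w.1 - z.1| ≤ a) (h2 : |w.2 - z.2| ≤ a) : ¬ (|w.1 - x.1| ≤ R ∧ |w.2 - x.2| ≤ R) := by
  rintro ⟨h3, h4⟩
  obtain ⟨v, h5, h6, h7⟩ := h
  have hR : 1 ≤ R := by omega
  apply h7
  rw [cut_eq_one hR (v := v), cut_eq_one hR (v := z)]
  all_goals
    rw [abs_le] at h1 h2 h3 h4 h5 h6
    have haR' : 100 * (a : ℤ) ≤ R := by exact_mod_cast haR
    have ha' : (1 : ℤ) ≤ a := by exact_mod_cast ha
    cases abs_cases (v.1 - x.1) <;> cases abs_cases (v.2 - x.2) <;>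
      cases abs_cases (z.1 - x.1) <;> cases abs_cases (z.2 - x.2) <;> omega

/-- the closed box of an active node lies in `|v - x| ≤ 3R`. -/
lemma act_in (ha : 1 ≤ a) (haR : 100 * a ≤ R) (h : Geo.IsAct R a x z) {w : ℤ × ℤ}
    (h1 : |w.1 - z.1| ≤ a) (h2 : |w.2 - z.2| ≤ a) : |w.1 - x.1| ≤ 3 * R ∧ |w.2 - x.2| ≤ 3 * R := by
  by_contra hc
  obtain ⟨v, h5, h6, h7⟩ := h
  have hR : 1 ≤ R := by omega
  apply h7
  rw [abs_le] at h1 h2 h5 h6
  have haR' : 100 * (a : ℤ) ≤ R := by exact_mod_cast haR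
  have ha' : (1 : ℤ) ≤ a := by exact_mod_cast ha
  rcases not_and_or.1 hc with hc | hc
  · rw [cut_eq_zero hR (v := v) (Or.inl ?_), cut_eq_zero hR (v := z) (Or.inl ?_)]
    all_goals
      cases abs_cases (v.1 - x.1) <;> cases abs_cases (z.1 - x.1) <;>
      cases abs_cases (w.1 - x.1) <;> omega
  · rw [cut_eq_zero hR (v := v) (Or.inr ?_), cut_eq_zero hR (v := z) (Or.inr ?_)]
    all_goals
      cases abs_cases (v.2 - x.2) <;> cases abs_cases (z.2 - x.2) <;>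
      cases abs_cases (w.2 - x.2) <;> omega

lemma act_disj_bx (ha : 1 ≤ a) (haR : 100 * a ≤ R) (h : z ∈ Geo.act R a x o) :
    Disjoint (bx V x R) (bx V z a) := by
  rw [Set.disjoint_left]
  rintro v h1 ⟨h2, h3⟩
  exact act_miss ha haR (mem_act.1 h).2 h2 h3 h1

lemma act_disj_bx' (ha : 1 ≤ a) (haR : 100 * a ≤ R) (h : z ∈ Geo.act R a x o) :
    Disjoint (bx V x R) (ocell V z a) := by
  rw [Set.disjoint_left]
  rintro v h1 ⟨h2, h3⟩
  exact act_miss ha haR (mem_act.1 h).2 h2.le h3.le h1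

lemma act_sub_bx (ha : 1 ≤ a) (haR : 100 * a ≤ R) (h : z ∈ Geo.act R a x o) :
    bx V z a ⊆ bx V x (3 * R) := by
  rintro v ⟨h2, h3⟩
  have := act_in ha haR (mem_act.1 h).2 h2 h3
  refine ⟨?_, ?_⟩
  · push_cast; exact this.1
  · push_cast; exact this.2

/-! ### closed cells, open cells, the grid and the edges -/

lemma ocell_sub_bx (V : Finset (ℤ × ℤ)) (z : ℤ × ℤ) (a : ℕ) : ocell V z a ⊆ bx V z a :=
  fun _ h => ⟨h.1.le, h.2.le⟩

lemma bx_mono {a a' : ℕ} (h : a ≤ a') : bx V z a ⊆ bx V z a' := fun _ hv => cbox_mono h hv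

/-- the boundary of the cell of a node lies on the grid. -/
lemma bd_sub_Grid (hz : Node a o z) : bx V z a \ ocell V z a ⊆ Grid V a o := by
  rintro v ⟨h1, h2⟩
  exact bdry_subset_grid hz ⟨h1, h2⟩

/-- an edge with an end in the open cell lies in the closed cell. -/
lemma edge_cell (e : V × Fin 2)
    (h : (latG V b).src e ∈ ocell V z a ∨ (latG V b).tgt e ∈ ocell V z a) :
    (latG V b).src e ∈ bx V z a ∧ (latG V b).tgt e ∈ bx V z a := by
  by_cases hV : (e.1 : ℤ × ℤ) + latticeDir e.2 ∈ V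
  · have et : (latG V b).tgt e = ⟨(e.1 : ℤ × ℤ) + latticeDir e.2, hV⟩ := by
      simp [latG, hV]
    have es : (latG V b).src e = e.1 := rfl
    rw [et, es] at h ⊢
    rcases h with h | h
    · exact ⟨obox_subset_cbox _ _ h, nbr_fwd (z := z) (u := (e.1 : ℤ × ℤ)) h e.2⟩
    · exact ⟨nbr_bwd (z := z) (u := (e.1 : ℤ × ℤ)) h, obox_subset_cbox _ _ h⟩
  · have et : (latG V b).tgt e = e.1 := by simp [latG, hV]
    have es : (latG V b).src e = e.1 := rfl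
    rw [et, es] at h ⊢
    have h' : (e.1 : V) ∈ ocell V z a := by rcases h with h | h <;> exact h
    exact ⟨ocell_sub_bx _ _ _ h', ocell_sub_bx _ _ _ h'⟩

/-- cells of nodes `|z - x| ≤ 3R` do not meet the frozen set. -/
lemma bx_node_sub (haR : a ≤ R) (h : z ∈ Geo.nodes R a x o) : bx V z a ⊆ bx V x (4 * R) := by
  rintro v ⟨h1, h2⟩
  obtain ⟨⟨h3, h4⟩, -⟩ := mem_gnodes.1 h
  have haR' : (a : ℤ) ≤ R := by exact_mod_cast haR
  push_cast at h3 h4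
  refine ⟨?_, ?_⟩
  · push_cast
    have e : (v : ℤ × ℤ).1 - x.1 = ((v : ℤ × ℤ).1 - z.1) + (z.1 - x.1) := by ring
    rw [e]
    have := abs_add_le ((v : ℤ × ℤ).1 - z.1) (z.1 - x.1)
    omega
  · push_cast
    have e : (v : ℤ × ℤ).2 - x.2 = ((v : ℤ × ℤ).2 - z.2) + (z.2 - x.2) := by ring
    rw [e]
    have := abs_add_le ((v : ℤ × ℤ).2 - z.2) (z.2 - x.2)
    omega

lemma F0_disj_bx (haR : a ≤ R) (h : z ∈ Geo.nodes R a x o) :
    Disjoint (bx V x (4 * R))ᶜ (bx V z a) := by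
  rw [Set.disjoint_left]
  intro v hv h1
  exact hv (bx_node_sub haR h h1)

lemma F0_disj_ocell (haR : a ≤ R) (h : z ∈ Geo.nodes R a x o) :
    Disjoint (bx V x (4 * R))ᶜ (ocell V z a) :=
  (F0_disj_bx haR h).mono_right (ocell_sub_bx V z a)

/-! ### N5 -/

lemma card_gnodes (ha : 1 ≤ a) (haR : a ≤ R) (x o : ℤ × ℤ) :
    ((Geo.nodes R a x o).card : ℝ) ≤ 49 * ((R : ℝ) / a) ^ 2 := by
  have ha0 : (0 : ℝ) < a := by exact_mod_cast ha
  have haR' : (a : ℝ) ≤ R := by exact_mod_cast haR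
  have h1 := card_1d x.1 (3 * R) a o.1 ha
  have h2 := card_1d x.2 (3 * R) a o.2 ha
  have h3 : 2 * ((3 * R : ℕ) : ℝ) / a + 1 ≤ 7 * (R / a) := by
    push_cast
    rw [div_add_one ha0.ne', mul_div_assoc', div_le_div_iff_of_pos_right ha0]
    linarith
  push_cast at h1 h2 h3
  unfold Geo.nodes
  rw [Finset.card_product]
  push_cast
  calc _ ≤ (7 * ((R : ℝ) / a)) * (7 * (R / a)) :=
        mul_le_mul (h1.trans h3) (h2.trans h3) (by positivity) (by positivity)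
    _ = 49 * ((R : ℝ) / a) ^ 2 := by ring

lemma card_act (ha : 1 ≤ a) (haR : a ≤ R) (x o : ℤ × ℤ) :
    ((Geo.act R a x o).card : ℝ) ≤ 49 * ((R : ℝ) / a) ^ 2 := by
  classical
  refine le_trans ?_ (card_gnodes ha haR x o)
  exact_mod_cast Finset.card_le_card (fun z hz => (mem_act.1 hz).1)

/-! ### N8: the four classes -/

/-- class of a node: parity of `(z - o) / a`. -/
noncomputable def cl (a : ℕ) (o z : ℤ × ℤ) : Fin 4 :=
  if (2 * a : ℤ) ∣ z.1 - o.1 then (if (2 * a : ℤ) ∣ z.2 - o.2 then 0 else 1)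
  else (if (2 * a : ℤ) ∣ z.2 - o.2 then 2 else 3)

/-- the offset of the next grid if the class `c` is removed. -/
noncomputable def op (a : ℕ) (o : ℤ × ℤ) (c : Fin 4) : ℤ × ℤ :=
  nxt a (rep a o (decide (c = 2 ∨ c = 3), decide (c = 1 ∨ c = 3)))

lemma same_rep_cl (hz : Node a o z) :
    Same a (rep a o (decide (cl a o z = 2 ∨ cl a o z = 3), decide (cl a o z = 1 ∨ cl a o z = 3)))
      z := by
  have key : ∀ p q : ℤ, (a : ℤ) ∣ p - q → ¬ (2 * a : ℤ) ∣ p - q → (2 * a : ℤ) ∣ (q + a) - p := by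
    rintro p q ⟨t, ht⟩ h2
    rcases Int.even_or_odd' t with ⟨s, hs | hs⟩
    · exact absurd ⟨s, by rw [ht, hs]; ring⟩ h2
    · refine ⟨-s, ?_⟩
      have : p = q + a * t := by linarith
      rw [this, hs]; ring
  have key2 : ∀ p q : ℤ, (2 * a : ℤ) ∣ p - q → (2 * a : ℤ) ∣ q + 0 - p := by
    intro p q h
    have e : q + 0 - p = -(p - q) := by ring
    rw [e]; exact (dvd_neg).2 h
  unfold cl
  split_ifs with h1 h2 h2
  · exact ⟨by simpa [rep] using key2 _ _ h1, by simpa [rep] using key2 _ _ h2⟩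
  · exact ⟨by simpa [rep] using key2 _ _ h1, by simpa [rep] using key _ _ hz.2 h2⟩
  · exact ⟨by simpa [rep] using key _ _ hz.1 h1, by simpa [rep] using key2 _ _ h2⟩
  · exact ⟨by simpa [rep] using key _ _ hz.1 h1, by simpa [rep] using key _ _ hz.2 h2⟩

lemma same_of_cl (hz : Node a o z) (hz' : Node a o z') (h : cl a o z = cl a o z') :
    Same a z z' := by
  have h1 := same_rep_cl hz
  have h2 := same_rep_cl hz'
  rw [h] at h1
  exact h1.symm.trans h2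

/-- different nodes of the same class: closed cell and open cell are disjoint. -/
lemma disj_cl (hz : Node a o z) (hz' : Node a o z') (h : cl a o z = cl a o z') (hne : z ≠ z') :
    Disjoint (bx V z a) (ocell V z' a) := by
  rw [Set.disjoint_left]
  intro v h1 h2
  exact Set.disjoint_left.1 (disj_same (same_of_cl hz hz' h) hne) h1 h2

lemma Grid_op_sub (c : Fin 4) : Grid V (2 * a) (op a o c) ⊆ Grid V a o := by
  intro v hv
  exact grid_nxt_subset (node_rep a o _) hv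

lemma Grid_op_disj (hz : Node a o z) : Disjoint (Grid V (2 * a) (op a o (cl a o z))) (ocell V z a) := by
  rw [Set.disjoint_left]
  intro v h1 h2
  exact Set.disjoint_left.1 (grid_nxt_disj (same_rep_cl hz)) h1 h2

lemma Grid_op_disj' {c : Fin 4} (hz : Node a o z) (h : cl a o z = c) :
    Disjoint (Grid V (2 * a) (op a o c)) (ocell V z a) := h ▸ Grid_op_disj hz

/-- the next set `S' = S \ ⋃ Qo_z` (active `z` of the class `c`). -/
lemma next_set (ha : 1 ≤ a) (haR : 100 * a ≤ R) (c : Fin 4) {S : Set V}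
    (h1 : (bx V x (4 * R))ᶜ ⊆ S) (h2 : bx V x R ⊆ S) (h3 : Grid V a o ⊆ S)
    (Z : Finset (ℤ × ℤ)) (hZ : ∀ z ∈ Z, z ∈ Geo.act R a x o ∧ cl a o z = c) :
    S \ (⋃ z ∈ Z, ocell V z a) ⊆ S ∧ (bx V x (4 * R))ᶜ ⊆ S \ (⋃ z ∈ Z, ocell V z a) ∧
      bx V x R ⊆ S \ (⋃ z ∈ Z, ocell V z a) ∧
      Grid V (2 * a) (op a o c) ⊆ S \ (⋃ z ∈ Z, ocell V z a) := by
  refine ⟨Set.sdiff_subset, ?_, ?_, ?_⟩
  · intro v hv
    refine ⟨h1 hv, ?_⟩
    rw [Set.mem_iUnion₂]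
    rintro ⟨z, hz, hvz⟩
    exact Set.disjoint_left.1 (F0_disj_ocell (by omega) (mem_act.1 (hZ z hz).1).1) hv hvz
  · intro v hv
    refine ⟨h2 hv, ?_⟩
    rw [Set.mem_iUnion₂]
    rintro ⟨z, hz, hvz⟩
    exact Set.disjoint_left.1 (act_disj_bx' ha haR (hZ z hz).1) hv hvz
  · intro v hv
    refine ⟨h3 (Grid_op_sub c hv), ?_⟩
    rw [Set.mem_iUnion₂]
    rintro ⟨z, hz, hvz⟩
    exact Set.disjoint_left.1 (Grid_op_disj' (node_of_mem_act (hZ z hz).1) (hZ z hz).2) hv hvz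

end Crest.Agent.R167.GeoB
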