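import Crest.Agent.R167.GeoA3
import Crest.Agent.R167.GeoB2

/-! Row 167, node GEO-A (helper725), part 4: the hull rectangle as sets of vertices of `V`. -/

set_option autoImplicit false
open Crest.ProbabilityR.SpinModel

namespace Crest.Agent.R167.Geo

variable {V : Finset (ℤ × ℤ)} {b : ℤ × ℤ → Fin 2 → ℝ} {R a : ℕ} {x o : ℤ × ℤ}

/-- closed hull in `V` -/
def HcV (V : Finset (ℤ × ℤ)) (R a : ℕ) (x o : ℤ × ℤ) : Set V := {v | (v : ℤ × ℤ) ∈ Hc R a x o}

/-- open hull in `V` -/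
def HoV (V : Finset (ℤ × ℤ)) (R a : ℕ) (x o : ℤ × ℤ) : Set V := {v | (v : ℤ × ℤ) ∈ Ho R a x o}

theorem HoV_sub : HoV V R a x o ⊆ HcV V R a x o := fun _ h => Ho_subset_Hc R a x o h

/-- the boundary of the hull is on the grid lines -/
theorem HcV_diff_sub : HcV V R a x o \ HoV V R a x o ⊆ Grid V a o :=
  fun _ h => Hc_diff_Ho_Grid h.1 h.2

/-- an edge with an end in the open hull lies in the closed hull -/
theorem edge_HV (e : V × Fin 2)
    (h : (latG V b).src e ∈ HoV V R a x o ∨ (latG V b).tgt e ∈ HoV V R a x o) :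
    (latG V b).src e ∈ HcV V R a x o ∧ (latG V b).tgt e ∈ HcV V R a x o := by
  by_cases hV : (e.1 : ℤ × ℤ) + latticeDir e.2 ∈ V
  · have et : (latG V b).tgt e = ⟨(e.1 : ℤ × ℤ) + latticeDir e.2, hV⟩ := by
      simp [latG, hV]
    have es : (latG V b).src e = e.1 := rfl
    rw [et, es] at h ⊢
    rcases h with h | h
    · exact ⟨Ho_subset_Hc R a x o h, (Ho_nbr e.2).1 h⟩
    · exact ⟨(Ho_nbr e.2).2 h, Ho_subset_Hc R a x o h⟩
  · have et : (latG V b).tgt e = e.1 := by simp [latG, hV]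
    have es : (latG V b).src e = e.1 := rfl
    rw [et, es] at h ⊢
    have h' : (e.1 : V) ∈ HoV V R a x o := by rcases h with h | h <;> exact h
    exact ⟨HoV_sub h', HoV_sub h'⟩

/-- the cut-off vanishes off the open hull -/
theorem cut_off_HoV (ha : 1 ≤ a) (haR : 100 * a ≤ R) {v : V} (hv : v ∉ HoV V R a x o) :
    rs V (cut x R) v = 0 := cut_eq_zero_off_Ho ha haR hv

theorem cut_sq_off_HoV (ha : 1 ≤ a) (haR : 100 * a ≤ R) {v : V} (hv : v ∉ HoV V R a x o) :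
    rs V (cut x R) v ^ 2 = 0 := by
  rw [cut_off_HoV ha haR hv]; norm_num

/-- `∑ hat = 1` on the closed hull -/
theorem sum_hat_HcV (ha : 1 ≤ a) {v : V} (hv : v ∈ HcV V R a x o) :
    ∑ z ∈ nodes R a x o, rs V (hat a z) v = 1 := sum_hat_Hc ha hv

/-- `∑ hat = 0` on the frozen set -/
theorem sum_hat_F0 (ha : 1 ≤ a) (haR : 100 * a ≤ R) {v : V} (hv : v ∈ (bx V x (4 * R))ᶜ) :
    ∑ z ∈ nodes R a x o, rs V (hat a z) v = 0 := by
  apply sum_hat_zero ha
  rintro ⟨h1, h2⟩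
  apply hv
  have haR' : (a : ℤ) ≤ R := by exact_mod_cast (by omega : a ≤ R)
  refine ⟨?_, ?_⟩
  · push_cast; linarith
  · push_cast; linarith

theorem HcV_sub_bx (ha : 1 ≤ a) : HcV V R a x o ⊆ bx V x (3 * R) := by
  intro v hv
  obtain ⟨h1, h2⟩ := Hc_bound ha hv
  have h0 : (0 : ℤ) ≤ a := Int.natCast_nonneg a
  refine ⟨?_, ?_⟩
  · push_cast; linarith
  · push_cast; linarith

theorem HcV_sub_bx4 (ha : 1 ≤ a) : HcV V R a x o ⊆ bx V x (4 * R) :=
  (HcV_sub_bx ha).trans (GeoB.bx_mono (by omega))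

theorem F0_disj_HcV (ha : 1 ≤ a) : Disjoint (bx V x (4 * R))ᶜ (HcV V R a x o) := by
  rw [Set.disjoint_left]
  intro v hv h1
  exact hv (HcV_sub_bx4 ha h1)

/-- the interpolant as a linear combination of hats, on `V` -/
theorem rs_interp (v : V) :
    rs V (interp R a x o) v = ∑ z ∈ nodes R a x o, cut x R z * rs V (hat a z) v := rfl

/-- the interpolant vanishes on the frozen set -/
theorem interp_off (ha : 1 ≤ a) (haR : 100 * a ≤ R) {v : ℤ × ℤ}
    (h : ¬ (|v.1 - x.1| < 3 * R ∧ |v.2 - x.2| < 3 * R)) : interp R a x o v = 0 := by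
  have e0 : cut x R v = 0 := by
    rw [cut_eq]
    rcases not_and_or.mp h with h | h
    · rw [Fc_zero (by omega) (by omega)]; ring
    · rw [Fc_zero (c := x.2) (by omega) (by omega)]; ring
  rcases not_and_or.mp h with h | h
  · have := err_zero_far1 ha haR (o := o) (x := x) (v := v) (by omega)
    rw [e0] at this; linarith
  · have := err_zero_far2 ha haR (o := o) (x := x) (v := v) (by omega)
    rw [e0] at this; linarith

theorem interp_F0 (ha : 1 ≤ a) (haR : 100 * a ≤ R) {v : V} (hv : v ∈ (bx V x (4 * R))ᶜ) :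
    rs V (interp R a x o) v = 0 := by
  apply interp_off ha haR
  rintro ⟨h1, h2⟩
  apply hv
  have h0 : (0 : ℤ) ≤ R := Int.natCast_nonneg R
  refine ⟨?_, ?_⟩
  · push_cast; linarith
  · push_cast; linarith

theorem cut_F0 (ha : 1 ≤ a) (haR : 100 * a ≤ R) {v : V} (hv : v ∈ (bx V x (4 * R))ᶜ) :
    rs V (cut x R) v = 0 :=
  cut_off_HoV (o := x) ha haR fun h => Set.disjoint_left.1 (F0_disj_HcV ha) hv (HoV_sub h)

/-- energy of the interpolation error, `√`-form used in the step -/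
theorem sqrt_En_err_le (V : Finset (ℤ × ℤ)) (b : ℤ × ℤ → Fin 2 → ℝ) (β : ℝ) (hβ : 0 ≤ β)
    (hb : ∀ u i, 0 ≤ b u i ∧ b u i ≤ β) (R a : ℕ) (ha : 1 ≤ a) (haR : 100 * a ≤ R) (x o : ℤ × ℤ) :
    Real.sqrt ((latG V b).En (rs V fun v => cut x R v - interp R a x o v)) ≤
      Real.sqrt (2240 * β) * Real.sqrt (a / R) := by
  rw [← Real.sqrt_mul (by positivity)]
  exact Real.sqrt_le_sqrt (En_err_le V b β hβ hb R a ha haR x o)

/-- `√En(cut − interp) √En(cut) ≤ C β √(a/R)` -/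
theorem sqrt_En_err_cut_le (V : Finset (ℤ × ℤ)) (b : ℤ × ℤ → Fin 2 → ℝ) (β : ℝ) (hβ : 0 ≤ β)
    (hb : ∀ u i, 0 ≤ b u i ∧ b u i ≤ β) (R a : ℕ) (ha : 1 ≤ a) (haR : 100 * a ≤ R) (x o : ℤ × ℤ) :
    Real.sqrt ((latG V b).En (rs V fun v => cut x R v - interp R a x o v)) *
      Real.sqrt ((latG V b).En (rs V (cut x R))) ≤ 500 * β * Real.sqrt (a / R) := by
  have h1 := sqrt_En_err_le V b β hβ hb R a ha haR x o
  have h2 : Real.sqrt ((latG V b).En (rs V (cut x R))) ≤ Real.sqrt (98 * β) :=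
    Real.sqrt_le_sqrt (En_cut_le V b β hβ hb R (by omega) x)
  have h3 := mul_le_mul h1 h2 (Real.sqrt_nonneg _) (by positivity)
  refine h3.trans ?_
  have h4 : Real.sqrt (2240 * β) * Real.sqrt (98 * β) ≤ 500 * β := by
    rw [← Real.sqrt_mul (by positivity)]
    refine Real.sqrt_le_iff.2 ⟨by positivity, ?_⟩
    nlinarith [mul_nonneg hβ hβ]
  calc Real.sqrt (2240 * β) * Real.sqrt (a / R) * Real.sqrt (98 * β)
      = (Real.sqrt (2240 * β) * Real.sqrt (98 * β)) * Real.sqrt (a / R) := by ring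
    _ ≤ 500 * β * Real.sqrt (a / R) := mul_le_mul_of_nonneg_right h4 (Real.sqrt_nonneg _)

end Crest.Agent.R167.Geo
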