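import Crest.Agent.R167.Iface

/-! Row 167, node GEO-B: integer geometry of the boxes, nodes and grids (helper681). -/

set_option autoImplicit false

namespace Crest.Agent.R167.GeoB

open Crest.ProbabilityR.SpinModel

/-- closed box -/
def cbox (z : ℤ × ℤ) (a : ℕ) : Set (ℤ × ℤ) := {v | |v.1 - z.1| ≤ a ∧ |v.2 - z.2| ≤ a}
/-- open box -/
def obox (z : ℤ × ℤ) (a : ℕ) : Set (ℤ × ℤ) := {v | |v.1 - z.1| < a ∧ |v.2 - z.2| < a}
/-- grid lines of mesh `a` through `o` -/
def grid (a : ℕ) (o : ℤ × ℤ) : Set (ℤ × ℤ) := {v | (a : ℤ) ∣ v.1 - o.1 ∨ (a : ℤ) ∣ v.2 - o.2}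
/-- nodes of the grid -/
def Node (a : ℕ) (o z : ℤ × ℤ) : Prop := (a : ℤ) ∣ z.1 - o.1 ∧ (a : ℤ) ∣ z.2 - o.2

instance (a : ℕ) (o z : ℤ × ℤ) : Decidable (Node a o z) := by unfold Node; infer_instance

lemma mem_cbox {z v : ℤ × ℤ} {a : ℕ} : v ∈ cbox z a ↔ |v.1 - z.1| ≤ a ∧ |v.2 - z.2| ≤ a := Iff.rfl
lemma mem_obox {z v : ℤ × ℤ} {a : ℕ} : v ∈ obox z a ↔ |v.1 - z.1| < a ∧ |v.2 - z.2| < a := Iff.rfl
lemma mem_grid {o v : ℤ × ℤ} {a : ℕ} : v ∈ grid a o ↔ (a : ℤ) ∣ v.1 - o.1 ∨ (a : ℤ) ∣ v.2 - o.2 := Iff.rfl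

lemma obox_subset_cbox (z : ℤ × ℤ) (a : ℕ) : obox z a ⊆ cbox z a := fun _ h => ⟨h.1.le, h.2.le⟩

lemma center_mem_cbox (z : ℤ × ℤ) (a : ℕ) : z ∈ cbox z a := by simp [mem_cbox]

lemma cbox_mono {z : ℤ × ℤ} {a a' : ℕ} (h : a ≤ a') : cbox z a ⊆ cbox z a' := by
  intro v hv
  have : (a : ℤ) ≤ a' := by exact_mod_cast h
  exact ⟨hv.1.trans this, hv.2.trans this⟩

lemma dir_fst (i : Fin 2) : |(latticeDir i).1| ≤ 1 := by fin_cases i <;> simp [latticeDir]
lemma dir_snd (i : Fin 2) : |(latticeDir i).2| ≤ 1 := by fin_cases i <;> simp [latticeDir]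

/-- forward neighbours of the open box are in the closed box -/
lemma nbr_fwd {z u : ℤ × ℤ} {a : ℕ} (h : u ∈ obox z a) (i : Fin 2) : u + latticeDir i ∈ cbox z a := by
  have h1 := dir_fst i
  have h2 := dir_snd i
  obtain ⟨hu1, hu2⟩ := h
  refine ⟨?_, ?_⟩
  · have : (u + latticeDir i).1 - z.1 = (u.1 - z.1) + (latticeDir i).1 := by simp; ring
    rw [this]
    have := abs_add_le (u.1 - z.1) (latticeDir i).1
    omega
  · have : (u + latticeDir i).2 - z.2 = (u.2 - z.2) + (latticeDir i).2 := by simp; ring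
    rw [this]
    have := abs_add_le (u.2 - z.2) (latticeDir i).2
    omega

/-- backward neighbours of the open box are in the closed box -/
lemma nbr_bwd {z u : ℤ × ℤ} {a : ℕ} {i : Fin 2} (h : u + latticeDir i ∈ obox z a) : u ∈ cbox z a := by
  have h1 := dir_fst i
  have h2 := dir_snd i
  obtain ⟨hu1, hu2⟩ := h
  refine ⟨?_, ?_⟩
  · have e : u.1 - z.1 = ((u + latticeDir i).1 - z.1) - (latticeDir i).1 := by
      rw [Prod.fst_add]; ring
    rw [e]
    have := abs_sub ((u + latticeDir i).1 - z.1) (latticeDir i).1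
    omega
  · have e : u.2 - z.2 = ((u + latticeDir i).2 - z.2) - (latticeDir i).2 := by
      rw [Prod.snd_add]; ring
    rw [e]
    have := abs_sub ((u + latticeDir i).2 - z.2) (latticeDir i).2
    omega

/-- the boundary of the box of a node lies on the grid -/
lemma bdry_subset_grid {a : ℕ} {o z : ℤ × ℤ} (hz : Node a o z) : cbox z a \ obox z a ⊆ grid a o := by
  rintro v ⟨⟨h1, h2⟩, h3⟩
  rw [mem_obox, not_and_or, not_lt, not_lt] at h3
  rcases h3 with h3 | h3
  · left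
    have h4 : |v.1 - z.1| = a := le_antisymm h1 h3
    have h5 : (a : ℤ) ∣ v.1 - z.1 := by
      rw [← dvd_abs, h4]
    have e : v.1 - o.1 = (v.1 - z.1) + (z.1 - o.1) := by ring
    rw [e]; exact dvd_add h5 hz.1
  · right
    have h4 : |v.2 - z.2| = a := le_antisymm h2 h3
    have h5 : (a : ℤ) ∣ v.2 - z.2 := by
      rw [← dvd_abs, h4]
    have e : v.2 - o.2 = (v.2 - z.2) + (z.2 - o.2) := by ring
    rw [e]; exact dvd_add h5 hz.2

/-- two nodes in the same class -/
def Same (a : ℕ) (z z' : ℤ × ℤ) : Prop := (2 * a : ℤ) ∣ z.1 - z'.1 ∧ (2 * a : ℤ) ∣ z.2 - z'.2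

instance (a : ℕ) (z z' : ℤ × ℤ) : Decidable (Same a z z') := by unfold Same; infer_instance

lemma Same.refl (a : ℕ) (z : ℤ × ℤ) : Same a z z := by simp [Same]
lemma Same.symm {a : ℕ} {z z' : ℤ × ℤ} (h : Same a z z') : Same a z' z :=
  ⟨by have := h.1; rw [← dvd_neg] at this; simpa using this,
   by have := h.2; rw [← dvd_neg] at this; simpa using this⟩
lemma Same.trans {a : ℕ} {z z' z'' : ℤ × ℤ} (h : Same a z z') (h' : Same a z' z'') : Same a z z'' :=
  ⟨by have := dvd_add h.1 h'.1; rwa [sub_add_sub_cancel] at this,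
   by have := dvd_add h.2 h'.2; rwa [sub_add_sub_cancel] at this⟩

lemma eq_of_dvd_of_abs_lt {m t : ℤ} (h : m ∣ t) (h' : |t| < m) : t = 0 := Int.eq_zero_of_abs_lt_dvd h h'

/-- distinct nodes of one class: the closed box of one misses the open box of the other -/
lemma disj_same {a : ℕ} {z z' : ℤ × ℤ} (h : Same a z z') (hne : z ≠ z') :
    Disjoint (cbox z a) (obox z' a) := by
  rw [Set.disjoint_left]
  rintro v ⟨h1, h2⟩ ⟨h3, h4⟩
  apply hne
  have e1 : z.1 - z'.1 = 0 := by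
    apply eq_of_dvd_of_abs_lt h.1
    have e : z.1 - z'.1 = (v.1 - z'.1) - (v.1 - z.1) := by ring
    rw [e]
    have := abs_sub (v.1 - z'.1) (v.1 - z.1)
    omega
  have e2 : z.2 - z'.2 = 0 := by
    apply eq_of_dvd_of_abs_lt h.2
    have e : z.2 - z'.2 = (v.2 - z'.2) - (v.2 - z.2) := by ring
    rw [e]
    have := abs_sub (v.2 - z'.2) (v.2 - z.2)
    omega
  exact Prod.ext (by linarith) (by linarith)

/-- offset of the next grid when the class of `z` is removed -/
def nxt (a : ℕ) (z : ℤ × ℤ) : ℤ × ℤ := (z.1 + a, z.2 + a)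

lemma grid_nxt_subset {a : ℕ} {o z : ℤ × ℤ} (hz : Node a o z) : grid (2 * a) (nxt a z) ⊆ grid a o := by
  rintro v (h | h)
  · left
    have h1 : (a : ℤ) ∣ v.1 - (z.1 + a) := by
      refine dvd_trans ?_ h
      push_cast; exact dvd_mul_left _ _
    have e : v.1 - o.1 = (v.1 - (z.1 + a)) + (z.1 - o.1) + a := by ring
    rw [e]; exact dvd_add (dvd_add h1 hz.1) dvd_rfl
  · right
    have h1 : (a : ℤ) ∣ v.2 - (z.2 + a) := by
      refine dvd_trans ?_ h
      push_cast; exact dvd_mul_left _ _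
    have e : v.2 - o.2 = (v.2 - (z.2 + a)) + (z.2 - o.2) + a := by ring
    rw [e]; exact dvd_add (dvd_add h1 hz.2) dvd_rfl

lemma grid_nxt_disj {a : ℕ} {z z' : ℤ × ℤ} (h : Same a z z') :
    Disjoint (grid (2 * a) (nxt a z)) (obox z' a) := by
  rw [Set.disjoint_left]
  rintro v hv ⟨h3, h4⟩
  have key : ∀ (p q r : ℤ), (2 * a : ℤ) ∣ p - (q + a) → (2 * a : ℤ) ∣ q - r → |p - r| < a → False := by
    intro p q r h1 h2 h5
    have h6 := dvd_add h1 h2
    have e : p - (q + a) + (q - r) = p - r - a := by ring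
    rw [e] at h6
    have h7 : |p - r - a| < 2 * a := by
      have := abs_sub (p - r) (a : ℤ)
      have h8 : |(a : ℤ)| = a := abs_of_nonneg (by positivity)
      omega
    have h9 := eq_of_dvd_of_abs_lt h6 h7
    have : p - r = a := by linarith
    rw [this, abs_of_nonneg (by positivity : (0 : ℤ) ≤ a)] at h5
    exact lt_irrefl _ h5
  rcases hv with hv | hv
  · exact key _ _ _ (by simpa [nxt] using hv) h.1 h3
  · exact key _ _ _ (by simpa [nxt] using hv) h.2 h4

/-- the four classes of nodes -/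
noncomputable def rep (a : ℕ) (o : ℤ × ℤ) (c : Bool × Bool) : ℤ × ℤ :=
  (o.1 + (if c.1 then (a : ℤ) else 0), o.2 + (if c.2 then (a : ℤ) else 0))

lemma node_rep (a : ℕ) (o : ℤ × ℤ) (c : Bool × Bool) : Node a o (rep a o c) := by
  constructor <;> (simp only [rep]; split_ifs <;> simp)

lemma exists_class {a : ℕ} {o z : ℤ × ℤ} (hz : Node a o z) : ∃ c : Bool × Bool, Same a (rep a o c) z := by
  have key : ∀ p q : ℤ, (a : ℤ) ∣ p - q → ∃ c : Bool, (2 * a : ℤ) ∣ (q + (if c then (a : ℤ) else 0)) - p := by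
    rintro p q ⟨t, ht⟩
    rcases Int.even_or_odd' t with ⟨s, hs | hs⟩
    · refine ⟨false, ⟨-s, ?_⟩⟩
      have : p = q + a * t := by linarith
      rw [this, hs]; simp; ring
    · refine ⟨true, ⟨-s, ?_⟩⟩
      have : p = q + a * t := by linarith
      rw [this, hs]; simp; ring
  obtain ⟨c1, h1⟩ := key _ _ hz.1
  obtain ⟨c2, h2⟩ := key _ _ hz.2
  exact ⟨(c1, c2), h1, h2⟩

/-- nodes with `|z - x| ≤ M` -/
noncomputable def nodes (x : ℤ × ℤ) (M a : ℕ) (o : ℤ × ℤ) : Finset (ℤ × ℤ) :=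
  ((Finset.Icc (x.1 - M) (x.1 + M)) ×ˢ (Finset.Icc (x.2 - M) (x.2 + M))).filter (Node a o)

lemma mem_nodes {x : ℤ × ℤ} {M a : ℕ} {o z : ℤ × ℤ} :
    z ∈ nodes x M a o ↔ z ∈ cbox x M ∧ Node a o z := by
  simp only [nodes, Finset.mem_filter, Finset.mem_product, Finset.mem_Icc, mem_cbox, abs_le]
  constructor
  · rintro ⟨⟨⟨h1, h2⟩, h3, h4⟩, h5⟩
    exact ⟨⟨⟨by linarith, by linarith⟩, by linarith, by linarith⟩, h5⟩
  · rintro ⟨⟨⟨h1, h2⟩, h3, h4⟩, h5⟩
    exact ⟨⟨⟨by linarith, by linarith⟩, by linarith, by linarith⟩, h5⟩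

/-- one dimensional count -/
lemma card_1d (x : ℤ) (M a : ℕ) (o : ℤ) (ha : 1 ≤ a) :
    (((Finset.Icc (x - M) (x + M)).filter (fun z : ℤ => (a : ℤ) ∣ z - o)).card : ℝ) ≤ 2 * M / a + 1 := by
  set s := (Finset.Icc (x - M) (x + M)).filter (fun z : ℤ => (a : ℤ) ∣ z - o) with hs
  have ha' : (0 : ℤ) < a := by exact_mod_cast ha
  -- injection to quotients
  have himg : s.card ≤ (Finset.Icc ((x - M - o + (a - 1)) / a) ((x + M - o) / a)).card := by
    apply Finset.card_le_card_of_injOn (fun z => (z - o) / a)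
    · intro z hz
      simp only [hs, Finset.coe_filter, Finset.mem_Icc, Set.mem_setOf_eq] at hz
      obtain ⟨⟨h1, h2⟩, t, ht⟩ := hz
      simp only [Finset.coe_Icc, Set.mem_Icc]
      have e : (z - o) / (a : ℤ) = t := by rw [ht]; exact Int.mul_ediv_cancel_left _ ha'.ne'
      rw [e]
      constructor
      · have : x - M - o + (a - 1) < (t + 1) * a := by nlinarith
        have := Int.ediv_lt_of_lt_mul ha' this
        omega
      · apply Int.le_ediv_of_mul_le ha'
        nlinarith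
    · intro z hz z' hz' h
      simp only [hs, Finset.coe_filter, Finset.mem_Icc, Set.mem_setOf_eq] at hz hz'
      obtain ⟨-, t, ht⟩ := hz
      obtain ⟨-, t', ht'⟩ := hz'
      simp only at h
      rw [ht, ht', Int.mul_ediv_cancel_left _ ha'.ne', Int.mul_ediv_cancel_left _ ha'.ne'] at h
      subst h
      linarith
  have h2 : ((Finset.Icc ((x - M - o + (a - 1)) / a) ((x + M - o) / a)).card : ℝ) ≤ 2 * M / a + 1 := by
    rw [Int.card_Icc]
    have h3 : ((x + M - o) / (a : ℤ)) * a ≤ x + M - o := Int.ediv_mul_le _ ha'.ne'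
    have h4 : x - M - o + (a - 1) < ((x - M - o + (a - 1)) / (a : ℤ) + 1) * a :=
      Int.lt_ediv_add_one_mul_self _ ha'
    set p := (x + M - o) / (a : ℤ)
    set q := (x - M - o + (a - 1)) / (a : ℤ)
    have h5 : (p - q) * a ≤ 2 * M := by
      have : x - M - o + a ≤ (q + 1) * a := by omega
      nlinarith
    have haR : (0 : ℝ) < a := by exact_mod_cast ha
    have h6 : ((p - q : ℤ) : ℝ) ≤ 2 * M / a := by
      rw [le_div_iff₀ haR]; exact_mod_cast h5
    have h7 : ((p + 1 - q).toNat : ℝ) ≤ max 0 ((p - q : ℤ) + 1 : ℝ) := by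
      rcases le_total 0 (p + 1 - q) with h | h
      · have : (((p + 1 - q).toNat : ℤ) : ℝ) = ((p + 1 - q : ℤ) : ℝ) := by rw [Int.toNat_of_nonneg h]
        have h8 : ((p + 1 - q).toNat : ℝ) = ((p + 1 - q : ℤ) : ℝ) := by exact_mod_cast this
        rw [h8]; apply le_max_of_le_right; push_cast; linarith
      · rw [Int.toNat_of_nonpos h]; simp
    refine h7.trans (max_le (by positivity) (by linarith))
  exact le_trans (by exact_mod_cast himg) h2

lemma card_nodes (x : ℤ × ℤ) (M a : ℕ) (o : ℤ × ℤ) (ha : 1 ≤ a) :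
    ((nodes x M a o).card : ℝ) ≤ (2 * M / a + 1) ^ 2 := by
  have e : nodes x M a o =
      ((Finset.Icc (x.1 - M) (x.1 + M)).filter (fun z : ℤ => (a : ℤ) ∣ z - o.1)) ×ˢ
      ((Finset.Icc (x.2 - M) (x.2 + M)).filter (fun z : ℤ => (a : ℤ) ∣ z - o.2)) := by
    ext z
    simp only [nodes, Finset.mem_filter, Finset.mem_product, Node]
    tauto
  rw [e, Finset.card_product]
  push_cast
  have h1 := card_1d x.1 M a o.1 ha
  have h2 := card_1d x.2 M a o.2 ha
  have : (2 * (M : ℝ) / a + 1) ^ 2 = (2 * M / a + 1) * (2 * M / a + 1) := by ring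
  rw [this]
  exact mul_le_mul h1 h2 (by positivity) (by positivity)

/-- count in the form used in the sum over active nodes: `#nodes * (a/R)² ≤ 81` -/
lemma card_nodes_le (x : ℤ × ℤ) (R a : ℕ) (o : ℤ × ℤ) (ha : 1 ≤ a) (haR : a ≤ R) :
    ((nodes x (3 * R + a) a o).card : ℝ) * ((a : ℝ) / R) ^ 2 ≤ 81 := by
  have h := card_nodes x (3 * R + a) a o ha
  have ha0 : (0 : ℝ) < a := by exact_mod_cast ha
  have hR0 : (0 : ℝ) < R := by exact_mod_cast lt_of_lt_of_le ha haR
  have haR' : (a : ℝ) ≤ R := by exact_mod_cast haR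
  have h1 : (2 * ((3 * R + a : ℕ) : ℝ) / a + 1) ≤ 9 * R / a := by
    push_cast
    rw [div_add_one ha0.ne', div_le_div_iff_of_pos_right ha0]
    linarith
  have h2 : (2 * ((3 * R + a : ℕ) : ℝ) / a + 1) ^ 2 ≤ (9 * R / a) ^ 2 :=
    pow_le_pow_left₀ (by positivity) h1 2
  calc _ ≤ (9 * R / a) ^ 2 * ((a : ℝ) / R) ^ 2 :=
        mul_le_mul_of_nonneg_right (h.trans h2) (by positivity)
    _ = 81 := by field_simp; norm_num

/-- every vertex is in the closed box of a node; the four corners of its cell are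
`(c1 + i a, c2 + j a)`, `i, j ∈ {0,1}`. -/
def cell (a : ℕ) (o v : ℤ) : ℤ := o + a * ((v - o) / a)

lemma cell_dvd (a : ℕ) (o v : ℤ) : (a : ℤ) ∣ cell a o v - o := by simp [cell]
lemma cell_dvd' (a : ℕ) (o v : ℤ) : (a : ℤ) ∣ cell a o v + a - o := by
  have := dvd_add (cell_dvd a o v) (dvd_refl (a : ℤ))
  have e : cell a o v + a - o = cell a o v - o + a := by ring
  rwa [e]
lemma cell_le (a : ℕ) (o v : ℤ) (ha : 1 ≤ a) : cell a o v ≤ v := by
  have ha' : (0 : ℤ) < a := by exact_mod_cast ha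
  have := Int.ediv_mul_le (v - o) ha'.ne'
  unfold cell; nlinarith
lemma lt_cell (a : ℕ) (o v : ℤ) (ha : 1 ≤ a) : v < cell a o v + a := by
  have ha' : (0 : ℤ) < a := by exact_mod_cast ha
  have := Int.lt_ediv_add_one_mul_self (v - o) ha'
  unfold cell; nlinarith

/-- the only nodes at distance `< a` from `v` are the two ends of its cell -/
lemma node_near {a : ℕ} {o v z : ℤ} (ha : 1 ≤ a) (hz : (a : ℤ) ∣ z - o) (h : |v - z| < a) :
    z = cell a o v ∨ z = cell a o v + a := by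
  have h1 := cell_le a o v ha
  have h2 := lt_cell a o v ha
  rw [abs_lt] at h
  have h3 : (a : ℤ) ∣ z - cell a o v := by
    have := dvd_sub hz (cell_dvd a o v)
    have e : z - o - (cell a o v - o) = z - cell a o v := by ring
    rwa [e] at this
  obtain ⟨t, ht⟩ := h3
  have ha' : (0 : ℤ) < a := by exact_mod_cast ha
  have ht1 : -1 < t := by
    by_contra hc
    push_neg at hc
    have : (a : ℤ) * t ≤ a * (-1) := mul_le_mul_of_nonneg_left hc ha'.le
    linarith
  have ht2 : t < 2 := by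
    by_contra hc
    push_neg at hc
    have : (a : ℤ) * 2 ≤ a * t := mul_le_mul_of_nonneg_left hc ha'.le
    linarith
  have : t = 0 ∨ t = 1 := by omega
  rcases this with rfl | rfl
  · left; linarith
  · right; linarith

end Crest.Agent.R167.GeoB
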