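import Crest.Prelude.Def_SpinON

/-!
Row 167 (S0253): the geometry block (helper392). Pure `ℤ × ℤ`, no measure theory.

`DE V g` = Dirichlet sum of `g` over the edges inside `V`; `F x R` the cut-off function, `psi l z` the hat
functions, `q x R l z` the localised normalised increments. All bounds are uniform in the finite set `V`.
-/

set_option autoImplicit false

open Finset
open Crest.ProbabilityR.SpinModel (latticeDir)

namespace Crest.Agent.R167.GeoK

/-- Dirichlet sum over the edges inside `V` -/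
noncomputable def DE (V : Finset (ℤ × ℤ)) (g : ℤ × ℤ → ℝ) : ℝ :=
  ∑ u ∈ V, ∑ i : Fin 2, if u + latticeDir i ∈ V then (g (u + latticeDir i) - g u) ^ 2 else 0

theorem DE_nonneg (V : Finset (ℤ × ℤ)) (g : ℤ × ℤ → ℝ) : 0 ≤ DE V g := by
  unfold DE
  refine sum_nonneg fun u _ => sum_nonneg fun i _ => ?_
  split_ifs <;> positivity

theorem DE_congr {V : Finset (ℤ × ℤ)} {g h : ℤ × ℤ → ℝ} (e : ∀ v ∈ V, g v = h v) :
    DE V g = DE V h := by
  unfold DE
  refine sum_congr rfl fun u hu => sum_congr rfl fun i _ => ?_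
  split_ifs with hi
  · rw [e _ hi, e u hu]
  · rfl

theorem DE_add_le (V : Finset (ℤ × ℤ)) (g h : ℤ × ℤ → ℝ) :
    DE V (fun v => g v + h v) ≤ 2 * DE V g + 2 * DE V h := by
  unfold DE
  rw [mul_sum, mul_sum, ← sum_add_distrib]
  refine sum_le_sum fun u _ => ?_
  rw [mul_sum, mul_sum, ← sum_add_distrib]
  refine sum_le_sum fun i _ => ?_
  split_ifs
  · nlinarith [sq_nonneg ((g (u + latticeDir i) - g u) - (h (u + latticeDir i) - h u))]
  · simp

theorem DE_smul (V : Finset (ℤ × ℤ)) (c : ℝ) (g : ℤ × ℤ → ℝ) :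
    DE V (fun v => c * g v) = c ^ 2 * DE V g := by
  unfold DE
  rw [mul_sum]
  refine sum_congr rfl fun u _ => ?_
  rw [mul_sum]
  refine sum_congr rfl fun i _ => ?_
  split_ifs
  · ring
  · simp

theorem DE_neg (V : Finset (ℤ × ℤ)) (g : ℤ × ℤ → ℝ) : DE V (fun v => -g v) = DE V g := by
  have := DE_smul V (-1) g
  simpa using this

/-- energy bound from a sup bound of the differences and a set containing their support -/
theorem DE_le {g : ℤ × ℤ → ℝ} {T : Finset (ℤ × ℤ)} {M : ℝ}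
    (h0 : ∀ u i, u ∉ T → g (u + latticeDir i) = g u)
    (h1 : ∀ u i, |g (u + latticeDir i) - g u| ≤ M) (V : Finset (ℤ × ℤ)) :
    DE V g ≤ 2 * T.card * M ^ 2 := by
  have hb : ∀ u i, (g (u + latticeDir i) - g u) ^ 2 ≤ M ^ 2 := by
    intro u i
    have := h1 u i
    rw [← sq_abs]
    exact pow_le_pow_left₀ (abs_nonneg _) this 2
  calc DE V g ≤ ∑ u ∈ V, if u ∈ T then 2 * M ^ 2 else 0 := by
        unfold DE
        refine sum_le_sum fun u _ => ?_
        rw [Fin.sum_univ_two]
        by_cases hT : u ∈ T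
        · rw [if_pos hT]
          have a0 := hb u 0
          have a1 := hb u 1
          have : 0 ≤ M ^ 2 := sq_nonneg _
          split_ifs <;> linarith
        · rw [if_neg hT, h0 u 0 hT, h0 u 1 hT]
          simp
    _ = ∑ u ∈ V.filter (· ∈ T), 2 * M ^ 2 := by rw [sum_filter]
    _ = (V.filter (· ∈ T)).card * (2 * M ^ 2) := by rw [sum_const, nsmul_eq_mul]
    _ ≤ T.card * (2 * M ^ 2) := by
        apply mul_le_mul_of_nonneg_right _ (by positivity)
        have : V.filter (· ∈ T) ⊆ T := by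
          intro u hu
          exact (mem_filter.1 hu).2
        exact_mod_cast card_le_card this
    _ = 2 * T.card * M ^ 2 := by ring

theorem dir0 (u : ℤ × ℤ) : u + latticeDir 0 = (u.1 + 1, u.2) := by
  simp [latticeDir, Prod.ext_iff]

theorem dir1 (u : ℤ × ℤ) : u + latticeDir 1 = (u.1, u.2 + 1) := by
  simp [latticeDir, Prod.ext_iff]

/-- energy of a product function -/
theorem DE_prod_le {a b : ℤ → ℝ} {A0 A1 B0 B1 : Finset ℤ} {α0 α1 β0 β1 : ℝ}
    (ha0 : ∀ t, t ∉ A0 → a t = 0) (ha0' : ∀ t, |a t| ≤ α0)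
    (ha1 : ∀ t, t ∉ A1 → a (t + 1) = a t) (ha1' : ∀ t, |a (t + 1) - a t| ≤ α1)
    (hb0 : ∀ t, t ∉ B0 → b t = 0) (hb0' : ∀ t, |b t| ≤ β0)
    (hb1 : ∀ t, t ∉ B1 → b (t + 1) = b t) (hb1' : ∀ t, |b (t + 1) - b t| ≤ β1)
    (V : Finset (ℤ × ℤ)) :
    DE V (fun v => a v.1 * b v.2) ≤
      (A1.card * B0.card) * (α1 * β0) ^ 2 + (A0.card * B1.card) * (α0 * β1) ^ 2 := by
  have hα0 : 0 ≤ α0 := le_trans (abs_nonneg _) (ha0' 0)
  have hα1 : 0 ≤ α1 := le_trans (abs_nonneg _) (ha1' 0)
  have hβ0 : 0 ≤ β0 := le_trans (abs_nonneg _) (hb0' 0)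
  have hβ1 : 0 ≤ β1 := le_trans (abs_nonneg _) (hb1' 0)
  have sqle : ∀ {x y X Y : ℝ}, 0 ≤ X → 0 ≤ Y → |x| ≤ X → |y| ≤ Y → (x * y) ^ 2 ≤ (X * Y) ^ 2 := by
    intro x y X Y hX hY hx hy
    rw [← sq_abs, abs_mul]
    exact pow_le_pow_left₀ (by positivity) (mul_le_mul hx hy (abs_nonneg _) hX) 2
  calc DE V (fun v => a v.1 * b v.2)
      ≤ ∑ u ∈ V, ((if u ∈ A1 ×ˢ B0 then (α1 * β0) ^ 2 else 0)
          + (if u ∈ A0 ×ˢ B1 then (α0 * β1) ^ 2 else 0)) := by
        unfold DE
        refine sum_le_sum fun u _ => ?_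
        rw [Fin.sum_univ_two]
        refine add_le_add ?_ ?_
        · have key : (a (u.1 + 1) * b u.2 - a u.1 * b u.2) ^ 2 ≤
              if u ∈ A1 ×ˢ B0 then (α1 * β0) ^ 2 else 0 := by
            rw [← sub_mul]
            split_ifs with h
            · exact sqle hα1 hβ0 (ha1' _) (hb0' _)
            · rw [mem_product, not_and_or] at h
              rcases h with h | h
              · rw [ha1 _ h]; simp
              · rw [hb0 _ h]; simp
          have key0 : (0 : ℝ) ≤ if u ∈ A1 ×ˢ B0 then (α1 * β0) ^ 2 else 0 := by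
            split_ifs <;> positivity
          rw [dir0]
          by_cases h : ((u.1 + 1, u.2) : ℤ × ℤ) ∈ V
          · rw [if_pos h]; exact key
          · rw [if_neg h]; exact key0
        · have key : (a u.1 * b (u.2 + 1) - a u.1 * b u.2) ^ 2 ≤
              if u ∈ A0 ×ˢ B1 then (α0 * β1) ^ 2 else 0 := by
            rw [← mul_sub]
            split_ifs with h
            · exact sqle hα0 hβ1 (ha0' _) (hb1' _)
            · rw [mem_product, not_and_or] at h
              rcases h with h | h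
              · rw [ha0 _ h]; simp
              · rw [hb1 _ h]; simp
          have key0 : (0 : ℝ) ≤ if u ∈ A0 ×ˢ B1 then (α0 * β1) ^ 2 else 0 := by
            split_ifs <;> positivity
          rw [dir1]
          by_cases h : ((u.1, u.2 + 1) : ℤ × ℤ) ∈ V
          · rw [if_pos h]; exact key
          · rw [if_neg h]; exact key0
    _ = (V.filter (· ∈ A1 ×ˢ B0)).card * (α1 * β0) ^ 2
        + (V.filter (· ∈ A0 ×ˢ B1)).card * (α0 * β1) ^ 2 := by
        rw [sum_add_distrib, ← sum_filter, ← sum_filter, sum_const, sum_const, nsmul_eq_mul,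
          nsmul_eq_mul]
    _ ≤ _ := by
        have c1 : ((V.filter (· ∈ A1 ×ˢ B0)).card : ℝ) ≤ A1.card * B0.card := by
          have : (V.filter (· ∈ A1 ×ˢ B0)).card ≤ (A1 ×ˢ B0).card :=
            card_le_card fun u hu => (mem_filter.1 hu).2
          rw [card_product] at this
          exact_mod_cast this
        have c2 : ((V.filter (· ∈ A0 ×ˢ B1)).card : ℝ) ≤ A0.card * B1.card := by
          have : (V.filter (· ∈ A0 ×ˢ B1)).card ≤ (A0 ×ˢ B1).card :=
            card_le_card fun u hu => (mem_filter.1 hu).2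
          rw [card_product] at this
          exact_mod_cast this
        exact add_le_add (mul_le_mul_of_nonneg_right c1 (by positivity))
          (mul_le_mul_of_nonneg_right c2 (by positivity))

/-! ### one-dimensional functions -/

/-- `1` for `|t| ≤ 2R`, `0` for `|t| ≥ 3R`, linear between -/
noncomputable def phi (R : ℕ) (t : ℤ) : ℝ := max 0 (min 1 (3 - |(t : ℝ)| / R))

theorem phi_nonneg (R : ℕ) (t : ℤ) : 0 ≤ phi R t := le_max_left _ _

theorem phi_le_one (R : ℕ) (t : ℤ) : phi R t ≤ 1 := max_le zero_le_one (min_le_left _ _)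

theorem phi_abs (R : ℕ) (t : ℤ) : |phi R t| ≤ 1 := by
  rw [abs_of_nonneg (phi_nonneg R t)]; exact phi_le_one R t

theorem clamp_lip (x y : ℝ) : |max 0 (min 1 x) - max 0 (min 1 y)| ≤ |x - y| := by
  have h1 : |max 0 (min 1 x) - max 0 (min 1 y)| ≤ |min 1 x - min 1 y| := by
    have := abs_max_sub_max_le_abs (min 1 x) (min 1 y) 0
    simpa [max_comm] using this
  have h2 : |min 1 x - min 1 y| ≤ |x - y| := by
    have := abs_min_sub_min_le_max 1 x 1 y
    simpa using this
  exact h1.trans h2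

theorem phi_lip {R : ℕ} (hR : 0 < R) (s t : ℤ) : |phi R s - phi R t| ≤ |(s : ℝ) - t| / R := by
  have hR' : (0 : ℝ) < R := by exact_mod_cast hR
  refine (clamp_lip _ _).trans ?_
  have e : (3 - |(s : ℝ)| / R) - (3 - |(t : ℝ)| / R) = (|(t : ℝ)| - |(s : ℝ)|) / R := by ring
  rw [e, abs_div, abs_of_pos hR']
  apply div_le_div_of_nonneg_right _ hR'.le
  rw [abs_sub_comm (s : ℝ) t]
  exact abs_abs_sub_abs_le_abs_sub _ _

theorem phi_eq_one {R : ℕ} (hR : 0 < R) {t : ℤ} (h : |t| ≤ 2 * R) : phi R t = 1 := by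
  have hR' : (0 : ℝ) < R := by exact_mod_cast hR
  have h' : |(t : ℝ)| ≤ 2 * R := by exact_mod_cast h
  unfold phi
  have : |(t : ℝ)| / R ≤ 2 := by rw [div_le_iff₀ hR']; exact h'
  rw [min_eq_left (by linarith), max_eq_right zero_le_one]

theorem phi_eq_zero {R : ℕ} (hR : 0 < R) {t : ℤ} (h : 3 * R ≤ |t|) : phi R t = 0 := by
  have hR' : (0 : ℝ) < R := by exact_mod_cast hR
  have h' : 3 * (R : ℝ) ≤ |(t : ℝ)| := by exact_mod_cast h
  unfold phi
  have : 3 ≤ |(t : ℝ)| / R := by rw [le_div_iff₀ hR']; exact h'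
  rw [min_eq_right (by linarith), max_eq_left (by linarith)]

/-- left node of the cell of `t` -/
def nd (l : ℕ) (o t : ℤ) : ℤ := t - (t - o) % l

/-- piecewise linear interpolation of `g` at the points `≡ o mod l` -/
noncomputable def interp (l : ℕ) (o : ℤ) (g : ℤ → ℝ) (t : ℤ) : ℝ :=
  (1 - ((t - nd l o t : ℤ) : ℝ) / l) * g (nd l o t) + (((t - nd l o t : ℤ) : ℝ) / l) * g (nd l o t + l)

theorem nd_le {l : ℕ} (hl : 0 < l) (o t : ℤ) : nd l o t ≤ t := by
  unfold nd
  have := Int.emod_nonneg (t - o) (by exact_mod_cast hl.ne' : (l : ℤ) ≠ 0)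
  omega

theorem lt_nd {l : ℕ} (hl : 0 < l) (o t : ℤ) : t < nd l o t + l := by
  unfold nd
  have := Int.emod_lt_of_pos (t - o) (by exact_mod_cast hl : (0 : ℤ) < l)
  omega

theorem nd_node (l : ℕ) (o t : ℤ) : (nd l o t - o) % l = 0 := by
  unfold nd
  have e : t - (t - o) % (l : ℤ) - o = (t - o) - (t - o) % (l : ℤ) := by ring
  rw [e]
  exact Int.emod_eq_zero_of_dvd (Int.dvd_self_sub_emod)

/-- characterisation of the left node -/
theorem nd_unique {l : ℕ} (hl : 0 < l) {o t z : ℤ} (hz : (z - o) % l = 0) (h1 : z ≤ t)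
    (h2 : t < z + l) : nd l o t = z := by
  have a1 := nd_le hl o t
  have a2 := lt_nd hl o t
  have a3 := nd_node l o t
  obtain ⟨k, hk⟩ := Int.dvd_of_emod_eq_zero hz
  obtain ⟨m, hm⟩ := Int.dvd_of_emod_eq_zero a3
  have hl' : (0 : ℤ) < l := by exact_mod_cast hl
  have e1 : nd l o t - z = l * (m - k) := by linarith [mul_sub (l : ℤ) m k]
  have h3 : (l : ℤ) * (m - k) < l * 1 := by linarith
  have h4 : (l : ℤ) * (-1) < l * (m - k) := by linarith
  have h5 : m - k < 1 := lt_of_mul_lt_mul_left h3 hl'.le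
  have h6 : -1 < m - k := lt_of_mul_lt_mul_left h4 hl'.le
  have h7 : m - k = 0 := by omega
  rw [h7] at e1
  linarith

/-- the increment of the interpolation -/
theorem interp_succ {l : ℕ} (hl : 0 < l) (o : ℤ) (g : ℤ → ℝ) (t : ℤ) :
    interp l o g (t + 1) - interp l o g t = (g (nd l o t + l) - g (nd l o t)) / l := by
  have hl' : (0 : ℝ) < l := by exact_mod_cast hl
  have a1 := nd_le hl o t
  have a2 := lt_nd hl o t
  have a3 := nd_node l o t
  rcases lt_or_eq_of_le (show t + 1 ≤ nd l o t + l by omega) with h | h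
  · have e : nd l o (t + 1) = nd l o t := nd_unique hl a3 (by omega) h
    unfold interp
    rw [e]
    push_cast
    field_simp
    ring
  · have e : nd l o (t + 1) = nd l o t + l := by
      refine nd_unique hl ?_ (by omega) (by omega)
      have : nd l o t + l - o = (nd l o t - o) + l := by ring
      rw [this, Int.add_emod_right, a3]
    unfold interp
    rw [e]
    have ht : ((t : ℤ) : ℝ) = nd l o t + l - 1 := by
      have : t = nd l o t + l - 1 := by omega
      exact_mod_cast this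
    push_cast
    rw [ht]
    field_simp
    ring

theorem interp_lip {l : ℕ} (hl : 0 < l) (o : ℤ) {g : ℤ → ℝ} {K : ℝ}
    (hg : ∀ s t, |g s - g t| ≤ K * |(s : ℝ) - t|) (t : ℤ) :
    |interp l o g (t + 1) - interp l o g t| ≤ K := by
  have hl' : (0 : ℝ) < l := by exact_mod_cast hl
  rw [interp_succ hl, abs_div, abs_of_pos hl', div_le_iff₀ hl']
  refine (hg _ _).trans ?_
  push_cast
  rw [add_sub_cancel_left, abs_of_pos hl']

theorem weight_bounds {l : ℕ} (hl : 0 < l) (o t : ℤ) :
    0 ≤ ((t - nd l o t : ℤ) : ℝ) / l ∧ ((t - nd l o t : ℤ) : ℝ) / l ≤ 1 := by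
  have hl' : (0 : ℝ) < l := by exact_mod_cast hl
  have a1 := nd_le hl o t
  have a2 := lt_nd hl o t
  have h1 : (0 : ℝ) ≤ ((t - nd l o t : ℤ) : ℝ) := by exact_mod_cast (by omega : 0 ≤ t - nd l o t)
  have h2 : ((t - nd l o t : ℤ) : ℝ) ≤ l := by exact_mod_cast (by omega : t - nd l o t ≤ l)
  exact ⟨div_nonneg h1 hl'.le, by rw [div_le_one hl']; exact h2⟩

theorem interp_nonneg {l : ℕ} (hl : 0 < l) (o : ℤ) {g : ℤ → ℝ} (hg : ∀ t, 0 ≤ g t) (t : ℤ) :
    0 ≤ interp l o g t := by
  obtain ⟨h1, h2⟩ := weight_bounds hl o t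
  unfold interp
  have := hg (nd l o t)
  have := hg (nd l o t + l)
  have h3 : 0 ≤ 1 - ((t - nd l o t : ℤ) : ℝ) / l := by linarith
  positivity

theorem interp_le_one {l : ℕ} (hl : 0 < l) (o : ℤ) {g : ℤ → ℝ} (hg : ∀ t, g t ≤ 1) (t : ℤ) :
    interp l o g t ≤ 1 := by
  obtain ⟨h1, h2⟩ := weight_bounds hl o t
  unfold interp
  set s := ((t - nd l o t : ℤ) : ℝ) / l
  have e1 : (1 - s) * g (nd l o t) ≤ (1 - s) * 1 := mul_le_mul_of_nonneg_left (hg _) (by linarith)
  have e2 : s * g (nd l o t + l) ≤ s * 1 := mul_le_mul_of_nonneg_left (hg _) h1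
  linarith

theorem interp_sub_le {l : ℕ} (hl : 0 < l) (o : ℤ) {g : ℤ → ℝ} {K : ℝ} (hK : 0 ≤ K)
    (hg : ∀ s t, |g s - g t| ≤ K * |(s : ℝ) - t|) (t : ℤ) :
    |g t - interp l o g t| ≤ K * l := by
  obtain ⟨h1, h2⟩ := weight_bounds hl o t
  have a1 := nd_le hl o t
  have a2 := lt_nd hl o t
  unfold interp
  set s := ((t - nd l o t : ℤ) : ℝ) / l with hs
  have e : g t - ((1 - s) * g (nd l o t) + s * g (nd l o t + l))
      = (1 - s) * (g t - g (nd l o t)) + s * (g t - g (nd l o t + l)) := by ring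
  rw [e]
  have b1 : |g t - g (nd l o t)| ≤ K * l := by
    refine (hg _ _).trans (mul_le_mul_of_nonneg_left ?_ hK)
    rw [abs_le]
    constructor
    · have : (nd l o t : ℝ) ≤ t := by exact_mod_cast a1
      have : (0 : ℝ) ≤ l := by positivity
      linarith
    · have : (t : ℝ) ≤ nd l o t + l := by exact_mod_cast a2.le
      linarith
  have b2 : |g t - g (nd l o t + l)| ≤ K * l := by
    refine (hg _ _).trans (mul_le_mul_of_nonneg_left ?_ hK)
    rw [abs_le]
    push_cast
    constructor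
    · have : (nd l o t : ℝ) ≤ t := by exact_mod_cast a1
      linarith
    · have : (t : ℝ) ≤ nd l o t + l := by exact_mod_cast a2.le
      have : (0 : ℝ) ≤ l := by positivity
      linarith
  calc |(1 - s) * (g t - g (nd l o t)) + s * (g t - g (nd l o t + l))|
      ≤ |(1 - s) * (g t - g (nd l o t))| + |s * (g t - g (nd l o t + l))| := abs_add_le _ _
    _ = (1 - s) * |g t - g (nd l o t)| + s * |g t - g (nd l o t + l)| := by
        rw [abs_mul, abs_mul, abs_of_nonneg h1, abs_of_nonneg (by linarith : 0 ≤ 1 - s)]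
    _ ≤ (1 - s) * (K * l) + s * (K * l) :=
        add_le_add (mul_le_mul_of_nonneg_left b1 (by linarith)) (mul_le_mul_of_nonneg_left b2 h1)
    _ = K * l := by ring

/-- if `g` is affine on the cell of `t` then `interp = g` there -/
theorem interp_eq_of_affine {l : ℕ} (hl : 0 < l) (o : ℤ) {g : ℤ → ℝ} {z : ℤ} (hz : (z - o) % l = 0)
    {α β : ℝ} (hg : ∀ s, z ≤ s → s ≤ z + l → g s = α + β * s) {t : ℤ} (h1 : z ≤ t)
    (h2 : t ≤ z + l) : interp l o g t = g t := by
  have hl' : (0 : ℝ) < l := by exact_mod_cast hl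
  have hlz : (0 : ℤ) < l := by exact_mod_cast hl
  rcases lt_or_eq_of_le h2 with h | h
  · have e : nd l o t = z := nd_unique hl hz h1 h
    unfold interp
    rw [e, hg z le_rfl (by omega), hg (z + l) (by omega) le_rfl, hg t h1 h2]
    push_cast
    field_simp
    ring
  · have e : nd l o t = t := by
      refine nd_unique hl ?_ le_rfl (by omega)
      have : t - o = (z - o) + l := by omega
      rw [this, Int.add_emod_right, hz]
    unfold interp
    rw [e]
    simp

end Crest.Agent.R167.GeoK
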