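import Crest.Agent.R167.GeoDefs
import Crest.Agent.R167.GeoK

set_option autoImplicit false
open Crest.ProbabilityR.SpinModel

/-! # Row 167, GEO-C: the localised increments `q_z` of the cut-off (helper845) -/

namespace Crest.Agent.R167.GeoC

open Finset Geo

/-- energies of lattice functions are controlled by the Dirichlet sum -/
theorem En_latG_le {V : Finset (ℤ × ℤ)} {b : ℤ × ℤ → Fin 2 → ℝ} {β : ℝ}
    (hb : ∀ u i, 0 ≤ b u i ∧ b u i ≤ β) (g : ℤ × ℤ → ℝ) :
    (latG V b).En (rs V g) ≤ β * GeoK.DE V g := by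
  unfold Gr.En GeoK.DE
  rw [Fintype.sum_prod_type, ← Finset.sum_coe_sort V, Finset.mul_sum]
  refine Finset.sum_le_sum fun u _ => ?_
  rw [Finset.mul_sum]
  refine Finset.sum_le_sum fun i _ => ?_
  by_cases h : (u : ℤ × ℤ) + latticeDir i ∈ V
  · simp only [latG, rs, h, if_true, dif_pos]
    exact mul_le_mul_of_nonneg_right (hb u i).2 (sq_nonneg _)
  · simp [latG, rs, h]

/-! ### the one dimensional profiles -/

theorem phi_nonneg (R : ℕ) (t : ℤ) : 0 ≤ phi R t := le_max_left _ _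

theorem phi_le_one (R : ℕ) (t : ℤ) : phi R t ≤ 1 := max_le zero_le_one (min_le_left _ _)

theorem phi_abs_le (R : ℕ) (t : ℤ) : |phi R t| ≤ 1 := by
  rw [abs_of_nonneg (phi_nonneg R t)]; exact phi_le_one R t

theorem phi_lip {R : ℕ} (hR : 0 < R) (s t : ℤ) : |phi R s - phi R t| ≤ |(s : ℝ) - t| / R := by
  have hR' : (0 : ℝ) < R := by exact_mod_cast hR
  refine (GeoK.clamp_lip _ _).trans ?_
  have e : (5 / 2 - |(s : ℝ)| / R) - (5 / 2 - |(t : ℝ)| / R) = (|(t : ℝ)| - |(s : ℝ)|) / R := by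
    ring
  rw [e, abs_div, abs_of_pos hR']
  apply div_le_div_of_nonneg_right _ hR'.le
  rw [abs_sub_comm (s : ℝ) t]
  exact abs_abs_sub_abs_le_abs_sub _ _

theorem cut_sub_le {R : ℕ} (hR : 0 < R) (x v w : ℤ × ℤ) :
    |cut x R v - cut x R w| ≤ (|(v.1 : ℝ) - w.1| + |(v.2 : ℝ) - w.2|) / R := by
  have e : cut x R v - cut x R w = (phi R (v.1 - x.1) - phi R (w.1 - x.1)) * phi R (v.2 - x.2)
      + phi R (w.1 - x.1) * (phi R (v.2 - x.2) - phi R (w.2 - x.2)) := by
    unfold cut; ring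
  have h1 := phi_lip hR (v.1 - x.1) (w.1 - x.1)
  have h2 := phi_lip hR (v.2 - x.2) (w.2 - x.2)
  push_cast at h1 h2
  rw [sub_sub_sub_cancel_right] at h1 h2
  rw [e, add_div]
  refine (abs_add_le _ _).trans (add_le_add ?_ ?_)
  · rw [abs_mul]
    calc _ ≤ |(v.1 : ℝ) - w.1| / R * 1 :=
          mul_le_mul h1 (phi_abs_le _ _) (abs_nonneg _) (by positivity)
      _ = _ := mul_one _
  · rw [abs_mul]
    calc _ ≤ 1 * (|(v.2 : ℝ) - w.2| / R) :=
          mul_le_mul (phi_abs_le _ _) h2 (abs_nonneg _) (by norm_num)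
      _ = _ := one_mul _

theorem wide1_nonneg (a : ℕ) (t : ℤ) : 0 ≤ wide1 a t := le_max_left _ _

theorem wide1_le_one (a : ℕ) (t : ℤ) : wide1 a t ≤ 1 := max_le zero_le_one (min_le_left _ _)

theorem wide1_abs_le (a : ℕ) (t : ℤ) : |wide1 a t| ≤ 1 := by
  rw [abs_of_nonneg (wide1_nonneg a t)]; exact wide1_le_one a t

theorem wide1_lip {a : ℕ} (ha : 0 < a) (s t : ℤ) : |wide1 a s - wide1 a t| ≤ |(s : ℝ) - t| / a := by
  have ha' : (0 : ℝ) < a := by exact_mod_cast ha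
  refine (GeoK.clamp_lip _ _).trans ?_
  have e : (2 - |(s : ℝ)| / a) - (2 - |(t : ℝ)| / a) = (|(t : ℝ)| - |(s : ℝ)|) / a := by
    ring
  rw [e, abs_div, abs_of_pos ha']
  apply div_le_div_of_nonneg_right _ ha'.le
  rw [abs_sub_comm (s : ℝ) t]
  exact abs_abs_sub_abs_le_abs_sub _ _

theorem wide1_eq_one {a : ℕ} (ha : 0 < a) {t : ℤ} (h : |t| ≤ a) : wide1 a t = 1 := by
  have ha' : (0 : ℝ) < a := by exact_mod_cast ha
  have h' : |(t : ℝ)| ≤ a := by exact_mod_cast h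
  unfold wide1
  have : |(t : ℝ)| / a ≤ 1 := by rw [div_le_iff₀ ha']; linarith
  rw [min_eq_left (by linarith), max_eq_right zero_le_one]

theorem wide1_eq_zero {a : ℕ} (ha : 0 < a) {t : ℤ} (h : 2 * a ≤ |t|) : wide1 a t = 0 := by
  have ha' : (0 : ℝ) < a := by exact_mod_cast ha
  have h' : 2 * (a : ℝ) ≤ |(t : ℝ)| := by exact_mod_cast h
  unfold wide1
  have : 2 ≤ |(t : ℝ)| / a := by rw [le_div_iff₀ ha']; exact h'
  rw [min_eq_right (by linarith), max_eq_left (by linarith)]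

theorem wide_nonneg (a : ℕ) (z v : ℤ × ℤ) : 0 ≤ wide a z v :=
  mul_nonneg (wide1_nonneg _ _) (wide1_nonneg _ _)

theorem wide_abs_le (a : ℕ) (z v : ℤ × ℤ) : |wide a z v| ≤ 1 := by
  unfold wide
  rw [abs_mul]
  calc _ ≤ (1 : ℝ) * 1 := mul_le_mul (wide1_abs_le _ _) (wide1_abs_le _ _) (abs_nonneg _) zero_le_one
    _ = 1 := one_mul 1

theorem wide_sub_le {a : ℕ} (ha : 0 < a) (z v w : ℤ × ℤ) :
    |wide a z v - wide a z w| ≤ (|(v.1 : ℝ) - w.1| + |(v.2 : ℝ) - w.2|) / a := by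
  have e : wide a z v - wide a z w = (wide1 a (v.1 - z.1) - wide1 a (w.1 - z.1)) * wide1 a (v.2 - z.2)
      + wide1 a (w.1 - z.1) * (wide1 a (v.2 - z.2) - wide1 a (w.2 - z.2)) := by
    unfold wide; ring
  have h1 := wide1_lip ha (v.1 - z.1) (w.1 - z.1)
  have h2 := wide1_lip ha (v.2 - z.2) (w.2 - z.2)
  push_cast at h1 h2
  rw [sub_sub_sub_cancel_right] at h1 h2
  rw [e, add_div]
  refine (abs_add_le _ _).trans (add_le_add ?_ ?_)
  · rw [abs_mul]
    calc _ ≤ |(v.1 : ℝ) - w.1| / a * 1 :=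
          mul_le_mul h1 (wide1_abs_le _ _) (abs_nonneg _) (by positivity)
      _ = _ := mul_one _
  · rw [abs_mul]
    calc _ ≤ 1 * (|(v.2 : ℝ) - w.2| / a) :=
          mul_le_mul (wide1_abs_le _ _) h2 (abs_nonneg _) (by norm_num)
      _ = _ := one_mul _

/-- `wide` is `1` on the closed cell. -/
theorem wide_eq_one {a : ℕ} (ha : 0 < a) {z v : ℤ × ℤ} (h1 : |v.1 - z.1| ≤ a)
    (h2 : |v.2 - z.2| ≤ a) : wide a z v = 1 := by
  unfold wide
  rw [wide1_eq_one ha h1, wide1_eq_one ha h2, one_mul]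

theorem wide_eq_zero {a : ℕ} (ha : 0 < a) {z v : ℤ × ℤ}
    (h : 2 * (a : ℤ) ≤ |v.1 - z.1| ∨ 2 * (a : ℤ) ≤ |v.2 - z.2|) : wide a z v = 0 := by
  unfold wide
  rcases h with h | h
  · rw [wide1_eq_zero ha h, zero_mul]
  · rw [wide1_eq_zero ha h, mul_zero]

/-! ### the localised increments -/

theorem qz_eq (x : ℤ × ℤ) (R a : ℕ) (z v : ℤ × ℤ) :
    qz R a x z v = (cut x R v - cut x R z) * wide a z v * ((R : ℝ) / (16 * a)) := by
  unfold qz
  rw [div_eq_mul_inv, inv_div]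

theorem qz_eq_zero {a : ℕ} (ha : 0 < a) {x z v : ℤ × ℤ} {R : ℕ}
    (h : 2 * (a : ℤ) ≤ |v.1 - z.1| ∨ 2 * (a : ℤ) ≤ |v.2 - z.2|) : qz R a x z v = 0 := by
  rw [qz_eq]
  rw [wide_eq_zero ha h]
  ring

/-- `λ q_z = f - f(z)` on the closed cell, `λ = 16 a / R`. -/
theorem lam_qz {a R : ℕ} (ha : 0 < a) (hR : 0 < R) {x z v : ℤ × ℤ} (h1 : |v.1 - z.1| ≤ a)
    (h2 : |v.2 - z.2| ≤ a) :
    16 * (a : ℝ) / R * qz R a x z v = cut x R v - cut x R z := by
  have ha' : (0 : ℝ) < a := by exact_mod_cast ha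
  have hR' : (0 : ℝ) < R := by exact_mod_cast hR
  rw [qz_eq]
  rw [wide_eq_one ha h1 h2]
  field_simp

theorem cut_sub_near {a R : ℕ} (hR : 0 < R) {x z v : ℤ × ℤ} (h1 : |v.1 - z.1| ≤ 2 * a)
    (h2 : |v.2 - z.2| ≤ 2 * a) : |cut x R v - cut x R z| ≤ 4 * a / R := by
  have hR' : (0 : ℝ) < R := by exact_mod_cast hR
  refine (cut_sub_le hR x v z).trans ?_
  apply div_le_div_of_nonneg_right _ hR'.le
  have h1' : |(v.1 : ℝ) - z.1| ≤ 2 * a := by exact_mod_cast h1
  have h2' : |(v.2 : ℝ) - z.2| ≤ 2 * a := by exact_mod_cast h2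
  linarith

theorem qz_abs_le {a R : ℕ} (ha : 0 < a) (hR : 0 < R) (x z v : ℤ × ℤ) :
    |qz R a x z v| ≤ 1 / 4 := by
  have ha' : (0 : ℝ) < a := by exact_mod_cast ha
  have hR' : (0 : ℝ) < R := by exact_mod_cast hR
  by_cases h : 2 * (a : ℤ) ≤ |v.1 - z.1| ∨ 2 * (a : ℤ) ≤ |v.2 - z.2|
  · rw [qz_eq_zero ha h]; norm_num
  · rw [not_or, not_le, not_le] at h
    have hc := cut_sub_near hR (x := x) (z := z) (v := v) (a := a) h.1.le h.2.le
    rw [qz_eq]
    rw [abs_mul, abs_mul, abs_of_pos (show (0 : ℝ) < (R : ℝ) / (16 * a) by positivity)]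
    calc _ ≤ (4 * (a : ℝ) / R) * 1 * ((R : ℝ) / (16 * a)) := by
          apply mul_le_mul_of_nonneg_right _ (by positivity)
          exact mul_le_mul hc (wide_abs_le _ _ _) (abs_nonneg _) (by positivity)
      _ = 1 / 4 := by field_simp; norm_num

theorem qz_abs_le_half {a R : ℕ} (ha : 0 < a) (hR : 0 < R) (x z v : ℤ × ℤ) :
    |qz R a x z v| ≤ 1 / 2 := (qz_abs_le ha hR x z v).trans (by norm_num)

theorem latticeDir_l1 (u : ℤ × ℤ) (i : Fin 2) :
    |((u + latticeDir i).1 : ℝ) - u.1| + |((u + latticeDir i).2 : ℝ) - u.2| = 1 := by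
  fin_cases i
  · have := GeoK.dir0 u
    simp only [Fin.zero_eta, Fin.isValue]
    rw [this]; simp
  · have := GeoK.dir1 u
    simp only [Fin.mk_one, Fin.isValue]
    rw [this]; simp

theorem qz_step {a R : ℕ} (ha : 0 < a) (hR : 0 < R) (x z u : ℤ × ℤ) (i : Fin 2) :
    |qz R a x z (u + latticeDir i) - qz R a x z u| ≤ 5 / (16 * a) := by
  have ha' : (0 : ℝ) < a := by exact_mod_cast ha
  have hR' : (0 : ℝ) < R := by exact_mod_cast hR
  set w := u + latticeDir i with hw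
  have hl := latticeDir_l1 u i
  rw [← hw] at hl
  have hcut : |cut x R w - cut x R u| ≤ 1 / R := by
    have := cut_sub_le hR x w u
    rwa [hl] at this
  have hwid : |wide a z w - wide a z u| ≤ 1 / a := by
    have := wide_sub_le ha z w u
    rwa [hl] at this
  have hpos : (0 : ℝ) < (R : ℝ) / (16 * a) := by positivity
  by_cases h : 2 * (a : ℤ) ≤ |u.1 - z.1| ∨ 2 * (a : ℤ) ≤ |u.2 - z.2|
  · by_cases h' : 2 * (a : ℤ) ≤ |w.1 - z.1| ∨ 2 * (a : ℤ) ≤ |w.2 - z.2|
    · rw [qz_eq_zero ha h, qz_eq_zero ha h']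
      rw [sub_self, abs_zero]
      positivity
    · rw [qz_eq_zero ha h, sub_zero]
      rw [not_or, not_le, not_le] at h'
      have hc := cut_sub_near hR (x := x) (z := z) (v := w) (a := a) h'.1.le h'.2.le
      have hw0 : |wide a z w| ≤ 1 / a := by
        have := hwid
        rwa [wide_eq_zero ha h, sub_zero] at this
      rw [qz_eq]
      rw [abs_mul, abs_mul, abs_of_pos hpos]
      calc _ ≤ (4 * (a : ℝ) / R) * (1 / a) * ((R : ℝ) / (16 * a)) := by
            apply mul_le_mul_of_nonneg_right _ hpos.le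
            exact mul_le_mul hc hw0 (abs_nonneg _) (by positivity)
        _ = 4 / (16 * a) := by field_simp
        _ ≤ 5 / (16 * a) := by
            apply div_le_div_of_nonneg_right _ (by positivity)
            norm_num
  · rw [not_or, not_le, not_le] at h
    have hc := cut_sub_near hR (x := x) (z := z) (v := u) (a := a) h.1.le h.2.le
    have e : qz R a x z w - qz R a x z u = ((cut x R w - cut x R u) * wide a z w
        + (cut x R u - cut x R z) * (wide a z w - wide a z u)) * ((R : ℝ) / (16 * a)) := by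
      simp only [qz_eq]; ring
    rw [e, abs_mul, abs_of_pos hpos]
    calc _ ≤ (1 / R * 1 + (4 * (a : ℝ) / R) * (1 / a)) * ((R : ℝ) / (16 * a)) := by
          apply mul_le_mul_of_nonneg_right _ hpos.le
          refine (abs_add_le _ _).trans (add_le_add ?_ ?_)
          · rw [abs_mul]
            exact mul_le_mul hcut (wide_abs_le _ _ _) (abs_nonneg _) (by positivity)
          · rw [abs_mul]
            exact mul_le_mul hc hwid (abs_nonneg _) (by positivity)
      _ = 5 / (16 * a) := by field_simp; norm_num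

/-- the energy of `q_z` is bounded. -/
theorem En_qz {V : Finset (ℤ × ℤ)} {b : ℤ × ℤ → Fin 2 → ℝ} {β : ℝ}
    (hb : ∀ u i, 0 ≤ b u i ∧ b u i ≤ β) {a R : ℕ} (ha : 0 < a) (hR : 0 < R) (x z : ℤ × ℤ) :
    (latG V b).En (rs V (qz R a x z)) ≤ 8 * β := by
  have ha' : (1 : ℝ) ≤ a := by exact_mod_cast ha
  have hβ : 0 ≤ β := (hb 0 0).1.trans (hb 0 0).2
  refine (En_latG_le hb _).trans ?_
  have key : GeoK.DE V (qz R a x z) ≤ 8 := by
    refine (GeoK.DE_le (T := Finset.Icc (z.1 - 2 * a) (z.1 + 2 * a) ×ˢ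
      Finset.Icc (z.2 - 2 * a) (z.2 + 2 * a)) (M := 5 / (16 * a)) ?_ (qz_step ha hR x z) V).trans ?_
    · intro u i hu
      have h0 : qz R a x z u = 0 := by
        apply qz_eq_zero ha
        by_contra hcon
        rw [not_or, not_le, not_le, abs_lt, abs_lt] at hcon
        apply hu
        rw [mem_product, mem_Icc, mem_Icc]
        omega
      rw [h0]
      apply qz_eq_zero ha
      rw [mem_product, mem_Icc, mem_Icc] at hu
      have hd : (u + latticeDir i = (u.1 + 1, u.2)) ∨ (u + latticeDir i = (u.1, u.2 + 1)) := by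
        fin_cases i
        · exact Or.inl (GeoK.dir0 u)
        · exact Or.inr (GeoK.dir1 u)
      by_contra hcon
      rw [not_or, not_le, not_le, abs_lt, abs_lt] at hcon
      rcases hd with hd | hd <;> rw [hd] at hcon <;> simp only at hcon <;> omega
    · rw [card_product, Int.card_Icc, Int.card_Icc]
      have e1 : (z.1 + 2 * (a : ℤ) + 1 - (z.1 - 2 * a)).toNat = 4 * a + 1 := by omega
      have e2 : (z.2 + 2 * (a : ℤ) + 1 - (z.2 - 2 * a)).toNat = 4 * a + 1 := by omega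
      rw [e1, e2]
      push_cast
      have h1 : (4 * (a : ℝ) + 1) * (4 * a + 1) ≤ 25 * a ^ 2 := by nlinarith
      have h2 : (5 / (16 * (a : ℝ))) ^ 2 * (25 * a ^ 2) = 625 / 256 := by
        field_simp
        norm_num
      have h3 : (0 : ℝ) ≤ (5 / (16 * (a : ℝ))) ^ 2 := by positivity
      calc 2 * ((4 * (a : ℝ) + 1) * (4 * a + 1)) * (5 / (16 * (a : ℝ))) ^ 2
          = 2 * ((5 / (16 * (a : ℝ))) ^ 2 * ((4 * (a : ℝ) + 1) * (4 * a + 1))) := by ring
        _ ≤ 2 * ((5 / (16 * (a : ℝ))) ^ 2 * (25 * a ^ 2)) := by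
            apply mul_le_mul_of_nonneg_left _ (by norm_num)
            exact mul_le_mul_of_nonneg_left h1 h3
        _ = 2 * (625 / 256) := by rw [h2]
        _ ≤ 8 := by norm_num
  calc β * GeoK.DE V (qz R a x z) ≤ β * 8 := mul_le_mul_of_nonneg_left key hβ
    _ = 8 * β := by ring

end Crest.Agent.R167.GeoC
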