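import Mathlib

/-! Row 167, grid block, part 1: the one dimensional `C^{1,1}` profile. -/

set_option autoImplicit false

namespace Crest.Agent.R167.Grid

/-- clamp to `[0,1]` -/
noncomputable def cl (s : ℝ) : ℝ := max 0 (min 1 s)

lemma cl_nonneg (s : ℝ) : 0 ≤ cl s := le_max_left _ _
lemma cl_le_one (s : ℝ) : cl s ≤ 1 := max_le zero_le_one (min_le_left _ _)
lemma cl_of_le {s : ℝ} (h : s ≤ 0) : cl s = 0 := by
  unfold cl; rw [min_eq_right (by linarith), max_eq_left h]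
lemma cl_of_ge {s : ℝ} (h : 1 ≤ s) : cl s = 1 := by
  unfold cl; rw [min_eq_left h, max_eq_right zero_le_one]
lemma cl_of_mem {s : ℝ} (h0 : 0 ≤ s) (h1 : s ≤ 1) : cl s = s := by
  unfold cl; rw [min_eq_right h1, max_eq_right h0]

lemma cl_lip (a b : ℝ) : |cl b - cl a| ≤ |b - a| := by
  unfold cl
  calc |max 0 (min 1 b) - max 0 (min 1 a)| ≤ |min 1 b - min 1 a| := by
        have := abs_max_sub_max_le_abs (min 1 b) (min 1 a) 0
        simpa [max_comm] using this
    _ ≤ |b - a| := by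
        have := abs_min_sub_min_le_max 1 b 1 a
        simpa using this

/-- smooth step -/
noncomputable def S (s : ℝ) : ℝ := 3 * cl s ^ 2 - 2 * cl s ^ 3
/-- its derivative -/
noncomputable def dS (s : ℝ) : ℝ := 6 * cl s * (1 - cl s)

lemma S_nonneg (s : ℝ) : 0 ≤ S s := by
  unfold S; nlinarith [cl_nonneg s, cl_le_one s, mul_nonneg (cl_nonneg s) (cl_nonneg s), mul_nonneg (mul_nonneg (cl_nonneg s) (cl_nonneg s)) (sub_nonneg.2 (cl_le_one s))]
lemma S_le_one (s : ℝ) : S s ≤ 1 := by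
  have h0 := cl_nonneg s
  have h1 := cl_le_one s
  unfold S
  nlinarith [mul_nonneg (sub_nonneg.2 h1) (sub_nonneg.2 h1), mul_nonneg (mul_nonneg (sub_nonneg.2 h1) (sub_nonneg.2 h1)) h0]
lemma S_of_le {s : ℝ} (h : s ≤ 0) : S s = 0 := by unfold S; rw [cl_of_le h]; norm_num
lemma S_of_ge {s : ℝ} (h : 1 ≤ s) : S s = 1 := by unfold S; rw [cl_of_ge h]; norm_num

lemma S_lip (a b : ℝ) : |S b - S a| ≤ 3 / 2 * |b - a| := by
  have h := cl_lip a b
  have a0 := cl_nonneg a
  have a1 := cl_le_one a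
  have b0 := cl_nonneg b
  have b1 := cl_le_one b
  have key : S b - S a = (cl b - cl a) * (3 * (cl a + cl b) - 2 * (cl a ^ 2 + cl a * cl b + cl b ^ 2)) := by
    unfold S; ring
  rw [key, abs_mul]
  have h2 : |3 * (cl a + cl b) - 2 * (cl a ^ 2 + cl a * cl b + cl b ^ 2)| ≤ 3 / 2 := by
    rw [abs_le]
    constructor
    · nlinarith [mul_nonneg a0 (sub_nonneg.2 a1), mul_nonneg b0 (sub_nonneg.2 b1), mul_nonneg a0 (sub_nonneg.2 b1)]
    · nlinarith [sq_nonneg (cl a + cl b - 1), sq_nonneg (cl a - cl b)]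
  calc |cl b - cl a| * |3 * (cl a + cl b) - 2 * (cl a ^ 2 + cl a * cl b + cl b ^ 2)|
      ≤ |b - a| * (3 / 2) := mul_le_mul h h2 (abs_nonneg _) (abs_nonneg _)
    _ = 3 / 2 * |b - a| := by ring

lemma S_taylor (a b : ℝ) : |S b - S a - dS a * (b - a)| ≤ 3 * (b - a) ^ 2 := by
  rcases le_total a 0 with ha | ha
  · have h1 : dS a = 0 := by unfold dS; rw [cl_of_le ha]; ring
    rw [h1, S_of_le ha]
    rcases le_total b 0 with hb | hb
    · rw [S_of_le hb]; simp; positivity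
    · have hS : S b ≤ 3 * b ^ 2 := by
        rcases le_total b 1 with hb1 | hb1
        · unfold S; rw [cl_of_mem hb hb1]; nlinarith [pow_nonneg hb 3]
        · rw [S_of_ge hb1]; nlinarith
      rw [abs_le]
      constructor
      · nlinarith [S_nonneg b, sq_nonneg (b - a)]
      · nlinarith [mul_nonneg hb (neg_nonneg.2 ha)]
  rcases le_total 1 a with ha1 | ha1
  · have h1 : dS a = 0 := by unfold dS; rw [cl_of_ge ha1]; ring
    rw [h1, S_of_ge ha1]
    rcases le_total 1 b with hb | hb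
    · rw [S_of_ge hb]; simp; positivity
    · have hS : 1 - S b ≤ 3 * (1 - b) ^ 2 := by
        rcases le_total 0 b with hb1 | hb1
        · unfold S; rw [cl_of_mem hb1 hb]; nlinarith [pow_nonneg (sub_nonneg.2 hb) 3]
        · rw [S_of_le hb1]; nlinarith
      rw [abs_le]
      constructor
      · nlinarith [mul_nonneg (sub_nonneg.2 hb) (sub_nonneg.2 ha1)]
      · nlinarith [S_le_one b, sq_nonneg (b - a)]
  -- a in [0,1]
  have hca := cl_of_mem ha ha1
  have hSa : S a = 3 * a ^ 2 - 2 * a ^ 3 := by unfold S; rw [hca]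
  have hda : dS a = 6 * a * (1 - a) := by unfold dS; rw [hca]
  rcases le_total b 0 with hb | hb
  · rw [S_of_le hb, hSa, hda, abs_le]
    have h1a : 0 ≤ 1 - a := by linarith
    have hd : 0 ≤ a - b := by linarith
    have hnb : 0 ≤ -b := by linarith
    constructor
    · nlinarith [mul_nonneg (mul_nonneg ha h1a) hd, mul_nonneg ha hnb, sq_nonneg b, pow_nonneg ha 3]
    · have h3 : 0 ≤ 4 * a ^ 3 - 3 * a ^ 4 := by
        have : 4 * a ^ 3 - 3 * a ^ 4 = a ^ 3 * (4 - 3 * a) := by ring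
        rw [this]; exact mul_nonneg (pow_nonneg ha 3) (by linarith)
      nlinarith [sq_nonneg ((a - b) - a * (1 - a))]
  rcases le_total 1 b with hb1 | hb1
  · rw [S_of_ge hb1, hSa, hda, abs_le]
    have h1a : 0 ≤ 1 - a := by linarith
    have hd : 0 ≤ b - a := by linarith
    have hnb : 0 ≤ b - 1 := by linarith
    constructor
    · have h3 : 0 ≤ 4 * (1 - a) ^ 3 - 3 * (1 - a) ^ 4 := by
        have : 4 * (1 - a) ^ 3 - 3 * (1 - a) ^ 4 = (1 - a) ^ 3 * (1 + 3 * a) := by ring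
        rw [this]; exact mul_nonneg (pow_nonneg h1a 3) (by linarith)
      nlinarith [sq_nonneg ((b - a) - a * (1 - a))]
    · nlinarith [mul_nonneg (mul_nonneg ha h1a) hd, mul_nonneg h1a hnb, sq_nonneg (b - 1), pow_nonneg h1a 3]
  · have hSb : S b = 3 * b ^ 2 - 2 * b ^ 3 := by unfold S; rw [cl_of_mem hb hb1]
    have key : S b - S a - dS a * (b - a) = (b - a) ^ 2 * (3 - 2 * b - 4 * a) := by
      rw [hSb, hSa, hda]; ring
    rw [key, abs_mul, abs_of_nonneg (sq_nonneg (b - a))]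
    have : |3 - 2 * b - 4 * a| ≤ 3 := by rw [abs_le]; constructor <;> linarith
    nlinarith [sq_nonneg (b - a)]

/-- the profile: `1` for `|t| ≤ 3R/2`, `0` for `|t| ≥ 5R/2` -/
noncomputable def ph (R t : ℝ) : ℝ := S (5 / 2 - t / R) + S (5 / 2 + t / R) - 1
noncomputable def dph (R t : ℝ) : ℝ := (dS (5 / 2 + t / R) - dS (5 / 2 - t / R)) / R

variable {R : ℝ}

lemma ph_neg (R t : ℝ) : ph R (-t) = ph R t := by unfold ph; ring_nf

lemma ph_one (hR : 0 < R) {t : ℝ} (h : |t| ≤ 3 / 2 * R) : ph R t = 1 := by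
  have h' := abs_le.1 h
  have h1 : t / R ≤ 3 / 2 := by rw [div_le_iff₀ hR]; linarith [h'.2]
  have h2 : -(3 / 2) ≤ t / R := by rw [le_div_iff₀ hR]; linarith [h'.1]
  unfold ph; rw [S_of_ge (by linarith), S_of_ge (by linarith)]; ring

lemma ph_zero (hR : 0 < R) {t : ℝ} (h : 5 / 2 * R ≤ |t|) : ph R t = 0 := by
  rcases le_abs.1 h with h' | h'
  · have h1 : 5 / 2 ≤ t / R := by rw [le_div_iff₀ hR]; linarith
    unfold ph; rw [S_of_le (by linarith), S_of_ge (by linarith)]; ring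
  · have h1 : t / R ≤ -(5 / 2) := by rw [div_le_iff₀ hR]; linarith
    unfold ph; rw [S_of_ge (by linarith), S_of_le (by linarith)]; ring

lemma ph_nonneg (hR : 0 < R) (t : ℝ) : 0 ≤ ph R t := by
  unfold ph
  rcases le_total 0 t with h | h
  · have : 0 ≤ t / R := by positivity
    rw [S_of_ge (s := 5 / 2 + t / R) (by linarith)]; linarith [S_nonneg (5 / 2 - t / R)]
  · have : t / R ≤ 0 := div_nonpos_of_nonpos_of_nonneg h hR.le
    rw [S_of_ge (s := 5 / 2 - t / R) (by linarith)]; linarith [S_nonneg (5 / 2 + t / R)]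

lemma ph_le_one (R t : ℝ) : ph R t ≤ 1 := by
  unfold ph; linarith [S_le_one (5 / 2 - t / R), S_le_one (5 / 2 + t / R)]

lemma ph_lip (hR : 0 < R) (a b : ℝ) : |ph R b - ph R a| ≤ 3 / R * |b - a| := by
  have h1 := S_lip (5 / 2 - a / R) (5 / 2 - b / R)
  have h2 := S_lip (5 / 2 + a / R) (5 / 2 + b / R)
  have e1 : 5 / 2 - b / R - (5 / 2 - a / R) = -((b - a) / R) := by ring
  have e2 : 5 / 2 + b / R - (5 / 2 + a / R) = (b - a) / R := by ring
  rw [e1, abs_neg] at h1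
  rw [e2] at h2
  have e3 : |(b - a) / R| = |b - a| / R := by rw [abs_div, abs_of_pos hR]
  rw [e3] at h1 h2
  have : ph R b - ph R a = (S (5 / 2 - b / R) - S (5 / 2 - a / R)) + (S (5 / 2 + b / R) - S (5 / 2 + a / R)) := by
    unfold ph; ring
  rw [this]
  calc _ ≤ _ := abs_add_le _ _
    _ ≤ 3 / 2 * (|b - a| / R) + 3 / 2 * (|b - a| / R) := add_le_add h1 h2
    _ = 3 / R * |b - a| := by ring

lemma ph_taylor (hR : 0 < R) (a b : ℝ) :
    |ph R b - ph R a - dph R a * (b - a)| ≤ 6 / R ^ 2 * (b - a) ^ 2 := by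
  have h1 := S_taylor (5 / 2 - a / R) (5 / 2 - b / R)
  have h2 := S_taylor (5 / 2 + a / R) (5 / 2 + b / R)
  have e1 : 5 / 2 - b / R - (5 / 2 - a / R) = -((b - a) / R) := by ring
  have e2 : 5 / 2 + b / R - (5 / 2 + a / R) = (b - a) / R := by ring
  rw [e1] at h1
  rw [e2] at h2
  have : ph R b - ph R a - dph R a * (b - a) =
      (S (5 / 2 - b / R) - S (5 / 2 - a / R) - dS (5 / 2 - a / R) * (-((b - a) / R)))
      + (S (5 / 2 + b / R) - S (5 / 2 + a / R) - dS (5 / 2 + a / R) * ((b - a) / R)) := by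
    unfold ph dph; field_simp; ring
  rw [this]
  calc _ ≤ _ := abs_add_le _ _
    _ ≤ 3 * (-((b - a) / R)) ^ 2 + 3 * ((b - a) / R) ^ 2 := add_le_add h1 h2
    _ = 6 / R ^ 2 * (b - a) ^ 2 := by field_simp; ring

end Crest.Agent.R167.Grid
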