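import Crest.Agent.R167.MomC
import Crest.Agent.R167.MomM1

/-!
# Row 167 (S0253), node MOM, part D: (M3), (M4)
-/

set_option autoImplicit false
open NormedSpace MeasureTheory Crest.ProbabilityR.SpinModel

namespace Crest.Agent.R167.Mom

variable {ι E : Type} [Fintype ι] [Fintype E] {n : ℕ}

lemma arcsin_lip {a b : ℝ} (ha : |a| ≤ 1 / 2) (hb : |b| ≤ 1 / 2) :
    (Real.arcsin b - Real.arcsin a) ^ 2 ≤ 2 * (b - a) ^ 2 := by
  have h := Convex.norm_image_sub_le_of_norm_deriv_le (f := Real.arcsin) (C := Real.sqrt 2)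
    (s := Set.Icc (-(1/2)) (1/2)) (x := a) (y := b)
    (fun x hx => Real.differentiableAt_arcsin.2 ⟨by intro h; rw [h] at hx; norm_num at hx,
      by intro h; rw [h] at hx; norm_num at hx⟩)
    (fun x hx => by
      rw [Real.deriv_arcsin]
      have h1 : x ^ 2 ≤ 1 / 4 := by
        have := hx.1; have := hx.2
        nlinarith
      have h2 : (1:ℝ) / 2 ≤ 1 - x ^ 2 := by linarith
      have h3 : 0 < Real.sqrt (1 - x ^ 2) := Real.sqrt_pos.2 (by linarith)
      rw [Real.norm_eq_abs, abs_of_pos (by positivity), div_le_iff₀ h3, ← Real.sqrt_mul (by norm_num)]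
      rw [Real.one_le_sqrt]
      linarith)
    (convex_Icc _ _) (abs_le.1 ha) (abs_le.1 hb)
  rw [Real.norm_eq_abs, Real.norm_eq_abs] at h
  have h2 : |Real.arcsin b - Real.arcsin a| ^ 2 ≤ (Real.sqrt 2 * |b - a|) ^ 2 :=
    pow_le_pow_left₀ (abs_nonneg _) h 2
  rw [sq_abs, mul_pow, sq_abs, Real.sq_sqrt (by norm_num)] at h2
  exact h2

lemma En_arcsin (G : Gr ι E) (hb : ∀ e, 0 ≤ G.b e) {q : ι → ℝ} (hq : ∀ v, |q v| ≤ 1 / 2) :
    G.En (fun v => Real.arcsin (q v)) ≤ 2 * G.En q := by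
  unfold Gr.En
  rw [Finset.mul_sum]
  refine Finset.sum_le_sum fun e _ => ?_
  have := mul_le_mul_of_nonneg_left (arcsin_lip (hq (G.src e)) (hq (G.tgt e))) (hb e)
  linarith

lemma abs_cur_le (k l : Fin n) (h : k ≠ l) (x y : Sp n) :
    |cur k l (x : EuclideanSpace ℝ (Fin n)) y| ≤ 1 := by
  rw [← inner_Lop]
  calc |inner ℝ (x : EuclideanSpace ℝ (Fin n)) (Lop k l y)|
      ≤ ‖(x : EuclideanSpace ℝ (Fin n))‖ * ‖Lop k l y‖ := abs_real_inner_le_norm _ _
    _ ≤ 1 * (1 * 1) := by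
        have hx : ‖(x : EuclideanSpace ℝ (Fin n))‖ = 1 := by simp
        have hy : ‖(y : EuclideanSpace ℝ (Fin n))‖ = 1 := by simp
        rw [hx]
        gcongr
        calc ‖Lop k l y‖ ≤ ‖Lop k l‖ * ‖(y : EuclideanSpace ℝ (Fin n))‖ :=
              ContinuousLinearMap.le_opNorm _ _
          _ ≤ 1 * 1 := by rw [hy]; gcongr; exact norm_Lop_le h
    _ = 1 := by norm_num

lemma abs_coord_le (x : Sp n) (i : Fin n) : |(x : EuclideanSpace ℝ (Fin n)) i| ≤ 1 := by
  have h := PiLp.norm_apply_le (x : EuclideanSpace ℝ (Fin n)) i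
  have hx : ‖(x : EuclideanSpace ℝ (Fin n))‖ = 1 := by simp
  rw [hx] at h
  exact h

/-- sums `∑ b δψ δq c` with `|c| ≤ 1` -/
lemma abs_cross_le (G : Gr ι E) (hb : ∀ e, 0 ≤ G.b e) (ψ q : ι → ℝ) (c : E → ℝ)
    (hc : ∀ e, |c e| ≤ 1) :
    |∑ e, G.b e * (ψ (G.tgt e) - ψ (G.src e)) * ((q (G.tgt e) - q (G.src e)) * c e)| ≤
      (G.En ψ + G.En q) / 2 := by
  unfold Gr.En
  rw [← Finset.sum_add_distrib, Finset.sum_div]
  refine (Finset.abs_sum_le_sum_abs _ _).trans (Finset.sum_le_sum fun e _ => ?_)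
  rw [abs_mul, abs_mul, abs_mul, abs_of_nonneg (hb e)]
  set u := ψ (G.tgt e) - ψ (G.src e)
  set w := q (G.tgt e) - q (G.src e)
  have h1 : |u| * (|w| * |c e|) ≤ (u ^ 2 + w ^ 2) / 2 := by
    have h2 : |w| * |c e| ≤ |w| := by
      nlinarith [abs_nonneg w, hc e]
    have h3 : |u| * (|w| * |c e|) ≤ |u| * |w| := mul_le_mul_of_nonneg_left h2 (abs_nonneg u)
    nlinarith [sq_nonneg (|u| - |w|), sq_abs u, sq_abs w]
  have := mul_le_mul_of_nonneg_left h1 (hb e)
  calc G.b e * |u| * (|w| * |c e|) = G.b e * (|u| * (|w| * |c e|)) := by ring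
    _ ≤ _ := by linarith

lemma continuous_cur (k l : Fin n) (u v : ι) :
    Continuous fun s : Cf ι n => cur k l (s u : EuclideanSpace ℝ (Fin n)) (s v) := by
  simp only [← inner_Lop]
  exact (continuous_spin u).inner ((Lop k l).continuous.comp (continuous_spin v))

lemma continuous_XI (G : Gr ι E) (k l : Fin n) (f : ι → ℝ) :
    Continuous (XI G k l f : Cf ι n → ℝ) := by
  unfold XI
  exact continuous_finset_sum _ fun e _ => continuous_const.mul (continuous_cur k l _ _)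

lemma continuous_coord (i : Fin n) (v : ι) :
    Continuous fun s : Cf ι n => (s v : EuclideanSpace ℝ (Fin n)) i := by
  have := continuous_spin (n := n) v
  fun_prop

lemma continuous_XXA (G : Gr ι E) (k m : Fin n) (p ψ : ι → ℝ) :
    Continuous (XXA G k m p ψ : Cf ι n → ℝ) := by
  unfold XXA
  refine continuous_finset_sum _ fun e _ => continuous_const.mul
    ((continuous_const.mul (continuous_cur m k _ _)).add (continuous_const.mul
    ((continuous_coord k _).mul (continuous_coord m _))))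

/-- `J` -/
noncomputable def JJ (G : Gr ι E) (k m : Fin n) (q ψ : ι → ℝ) (s : Cf ι n) : ℝ :=
  ∑ e, G.b e * (ψ (G.tgt e) - ψ (G.src e)) *
    (q (G.src e) * cur m k (s (G.src e)) (s (G.tgt e)))

lemma continuous_JJ (G : Gr ι E) (k m : Fin n) (q ψ : ι → ℝ) :
    Continuous (JJ G k m q ψ : Cf ι n → ℝ) := by
  unfold JJ
  exact continuous_finset_sum _ fun e _ => continuous_const.mul
    (continuous_const.mul (continuous_cur m k _ _))

lemma JJ_sub_KB (G : Gr ι E) (hb : ∀ e, 0 ≤ G.b e) {k m : Fin n} (hmk : m ≠ k) {q : ι → ℝ}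
    (hq : ∀ v, |q v| ≤ 1 / 2) (ψ : ι → ℝ) (s : Cf ι n) :
    |JJ G k m q ψ s - KB G (Lop m k) ψ (fun v => Real.arcsin (q v)) s| ≤
      (G.En ψ + G.En q) / 2 := by
  have h := abs_cross_le G hb ψ q
    (fun e => - cur m k (s (G.src e) : EuclideanSpace ℝ (Fin n)) (s (G.tgt e)))
    (fun e => by rw [abs_neg]; exact abs_cur_le m k hmk _ _)
  refine le_trans (le_of_eq ?_) h
  congr 1
  unfold JJ KB
  rw [← Finset.sum_sub_distrib]
  refine Finset.sum_congr rfl fun e _ => ?_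
  rw [Real.sin_arcsin (by linarith [(abs_le.1 (hq (G.tgt e))).1])
    (by linarith [(abs_le.1 (hq (G.tgt e))).2]), inner_Lop]
  ring

/-- (M3) -/
lemma E_sq_JJ [NeZero n] (G : Gr ι E) (hb : ∀ e, 0 ≤ G.b e) {k l m : Fin n} (hkl : k ≠ l)
    (hlm : l ≠ m) (hmk : m ≠ k) {F0 : Set ι} {q ψ : ι → ℝ} (hψ : ∀ v ∈ F0, ψ v = 0)
    (hq0 : ∀ v ∈ F0, q v = 0) (hq : ∀ v, |q v| ≤ 1 / 2) {K : ℝ} (h1 : G.En ψ ≤ K)
    (h2 : G.En q ≤ K) (τ : Cf ι n) :
    P G F0 (fun s => JJ G k m q ψ s ^ 2) τ ≤ 4 * Real.exp (3 * K) + 2 * K ^ 2 := by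
  have n1 := En_nonneg G hb ψ
  have n2 := En_nonneg G hb q
  have hK := E_sq_KB G hb (skew_Lop l m) (skew_Lop m k) (skew_Lop k l) (norm_Lop_le hlm)
    (norm_Lop_le hkl) (Lop_comm_A hkl hlm hmk) (Lop_comm_B hkl hlm hmk) (F0 := F0) (p := ψ)
    (ψ := fun v => Real.arcsin (q v)) hψ (fun v hv => by simp [hq0 v hv]) τ
  have c0 := continuous_KB G (Lop m k) ψ (fun v => Real.arcsin (q v))
  have hK2 : P G F0 (fun s => KB G (Lop m k) ψ (fun v => Real.arcsin (q v)) s ^ 2) τ ≤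
      2 * Real.exp (3 * K) := by
    refine hK.trans ?_
    have := En_arcsin G hb hq
    have h3 : Real.exp (G.En ψ + G.En (fun v => Real.arcsin (q v))) ≤ Real.exp (3 * K) :=
      Real.exp_le_exp.2 (by linarith)
    linarith
  calc P G F0 (fun s => JJ G k m q ψ s ^ 2) τ
      ≤ P G F0 (fun s => 2 * KB G (Lop m k) ψ (fun v => Real.arcsin (q v)) s ^ 2 + 2 * K ^ 2) τ := by
        refine P_mono G ((continuous_JJ G k m q ψ).pow 2)
          ((continuous_const.mul (c0.pow 2)).add continuous_const) (fun s => ?_) τ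
        show JJ G k m q ψ s ^ 2 ≤
          2 * KB G (Lop m k) ψ (fun v => Real.arcsin (q v)) s ^ 2 + 2 * K ^ 2
        have h3 := JJ_sub_KB G hb hmk hq ψ s
        have h4 : |JJ G k m q ψ s - KB G (Lop m k) ψ (fun v => Real.arcsin (q v)) s| ≤ K := by
          linarith
        have h5 := abs_le.1 h4
        nlinarith [sq_nonneg (JJ G k m q ψ s - 2 * KB G (Lop m k) ψ
          (fun v => Real.arcsin (q v)) s), mul_nonneg (sub_nonneg.2 h5.2)
          (by linarith [h5.1] : 0 ≤ K + (JJ G k m q ψ s -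
            KB G (Lop m k) ψ (fun v => Real.arcsin (q v)) s))]
    _ = 2 * P G F0 (fun s => KB G (Lop m k) ψ (fun v => Real.arcsin (q v)) s ^ 2) τ + 2 * K ^ 2 := by
        rw [P_add G (F := fun s => 2 * KB G (Lop m k) ψ (fun v => Real.arcsin (q v)) s ^ 2)
          (H := fun _ => 2 * K ^ 2) (continuous_const.mul (c0.pow 2)) continuous_const,
          P_const_mul, P_const]
    _ ≤ _ := by linarith

/-- pointwise form of `GA` -/
lemma GA_eq (G : Gr ι E) (k l m : Fin n) (lam : ℝ) (q ψ : ι → ℝ) (s : Cf ι n) :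
    GA G k l m (fun v => lam * q v) ψ s = lam * (JJ G k m q ψ s +
      ∑ e, G.b e * (ψ (G.tgt e) - ψ (G.src e)) * ((q (G.tgt e) - q (G.src e)) *
        ((s (G.src e) : EuclideanSpace ℝ (Fin n)) k * (s (G.tgt e) : EuclideanSpace ℝ (Fin n)) m)) +
      XI G k l ψ s * XI G l m q s) := by
  have e1 : XI G l m (fun v => lam * q v) s = lam * XI G l m q s := by
    unfold XI
    rw [Finset.mul_sum]
    exact Finset.sum_congr rfl fun e _ => by ring
  have e2 : XXA G k m (fun v => lam * q v) ψ s = lam * (JJ G k m q ψ s +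
      ∑ e, G.b e * (ψ (G.tgt e) - ψ (G.src e)) * ((q (G.tgt e) - q (G.src e)) *
        ((s (G.src e) : EuclideanSpace ℝ (Fin n)) k *
          (s (G.tgt e) : EuclideanSpace ℝ (Fin n)) m))) := by
    unfold XXA JJ
    rw [← Finset.sum_add_distrib, Finset.mul_sum]
    exact Finset.sum_congr rfl fun e _ => by ring
  unfold GA
  rw [e1, e2]
  ring

lemma GB_eq_GA (G : Gr ι E) (k l m : Fin n) (p ψ : ι → ℝ) (s : Cf ι n) :
    GB G k l m p ψ s = GA G l k m p ψ s := by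
  have e1 : XI G l k ψ s = - XI G k l ψ s := by
    unfold XI
    rw [← Finset.sum_neg_distrib]
    exact Finset.sum_congr rfl fun e _ => by unfold cur; ring
  have e2 : XI G k m p s = - XI G m k p s := by
    unfold XI
    rw [← Finset.sum_neg_distrib]
    exact Finset.sum_congr rfl fun e _ => by unfold cur; ring
  have e3 : XXB G l m p ψ s = XXA G l m p ψ s := by
    unfold XXB XXA
    exact Finset.sum_congr rfl fun e _ => by unfold cur; ring
  unfold GB GA
  rw [e1, e2, e3]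
  ring

lemma E_sq_GA [NeZero n] (G : Gr ι E) (hb : ∀ e, 0 ≤ G.b e) {k l m : Fin n} (hkl : k ≠ l)
    (hlm : l ≠ m) (hmk : m ≠ k) {F0 : Set ι} {q ψ : ι → ℝ} (lam : ℝ) (hψ : ∀ v ∈ F0, ψ v = 0)
    (hq0 : ∀ v ∈ F0, q v = 0) (hq : ∀ v, |q v| ≤ 1 / 2) {K : ℝ} (h1 : G.En ψ ≤ K)
    (h2 : G.En q ≤ K) (τ : Cf ι n) :
    P G F0 (fun s => GA G k l m (fun v => lam * q v) ψ s ^ 2) τ ≤
      lam ^ 2 * (3 * (4 * Real.exp (3 * K) + 2 * K ^ 2 + K ^ 2 + 40 * K ^ 2)) := by
  have n1 := En_nonneg G hb ψ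
  have n2 := En_nonneg G hb q
  have hJ := E_sq_JJ G hb hkl hlm hmk hψ hq0 hq h1 h2 τ
  have hX1 := E_four_XI G hb hkl hψ τ
  have hX2 := E_four_XI G hb hlm hq0 τ
  have hX1' : P G F0 (fun s => XI G k l ψ s ^ 4) τ ≤ 40 * K ^ 2 := by nlinarith
  have hX2' : P G F0 (fun s => XI G l m q s ^ 4) τ ≤ 40 * K ^ 2 := by nlinarith
  have cJ := continuous_JJ G k m q ψ (n := n)
  have c1 := continuous_XI G k l ψ (n := n)
  have c2 := continuous_XI G l m q (n := n)
  have cG : Continuous (fun s : Cf ι n => GA G k l m (fun v => lam * q v) ψ s) := by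
    unfold GA
    exact (continuous_XXA G k m _ ψ).add (c1.mul (continuous_XI G l m _))
  calc P G F0 (fun s => GA G k l m (fun v => lam * q v) ψ s ^ 2) τ
      ≤ P G F0 (fun s => lam ^ 2 * (3 * ((JJ G k m q ψ s ^ 2 + K ^ 2) +
          ((1 / 2) * XI G k l ψ s ^ 4 + (1 / 2) * XI G l m q s ^ 4)))) τ := by
        refine P_mono G (cG.pow 2) (continuous_const.mul (continuous_const.mul
          (((cJ.pow 2).add continuous_const).add ((continuous_const.mul (c1.pow 4)).add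
            (continuous_const.mul (c2.pow 4)))))) (fun s => ?_) τ
        show GA G k l m (fun v => lam * q v) ψ s ^ 2 ≤ lam ^ 2 * (3 * ((JJ G k m q ψ s ^ 2 + K ^ 2) +
          ((1 / 2) * XI G k l ψ s ^ 4 + (1 / 2) * XI G l m q s ^ 4)))
        rw [GA_eq]
        have hT := abs_cross_le G hb ψ q
          (fun e => (s (G.src e) : EuclideanSpace ℝ (Fin n)) k *
            (s (G.tgt e) : EuclideanSpace ℝ (Fin n)) m)
          (fun e => by
            rw [abs_mul]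
            exact mul_le_one₀ (abs_coord_le _ _) (abs_nonneg _) (abs_coord_le _ _))
        set T := ∑ e, G.b e * (ψ (G.tgt e) - ψ (G.src e)) * ((q (G.tgt e) - q (G.src e)) *
          ((s (G.src e) : EuclideanSpace ℝ (Fin n)) k *
            (s (G.tgt e) : EuclideanSpace ℝ (Fin n)) m)) with hTdef
        have hT2 : |T| ≤ K := by linarith
        have hT3 : T ^ 2 ≤ K ^ 2 := sq_le_sq' (by linarith [(abs_le.1 hT2).1]) (abs_le.1 hT2).2
        set a := JJ G k m q ψ s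
        set x := XI G k l ψ s
        set y := XI G l m q s
        rw [mul_pow]
        refine mul_le_mul_of_nonneg_left ?_ (sq_nonneg lam)
        have e3 : (x * y) ^ 2 ≤ (1 / 2) * x ^ 4 + (1 / 2) * y ^ 4 := by
          nlinarith [sq_nonneg (x ^ 2 - y ^ 2)]
        nlinarith [sq_nonneg (a - T), sq_nonneg (a - x * y), sq_nonneg (T - x * y)]
    _ = lam ^ 2 * (3 * ((P G F0 (fun s => JJ G k m q ψ s ^ 2) τ + K ^ 2) +
          ((1 / 2) * P G F0 (fun s => XI G k l ψ s ^ 4) τ +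
            (1 / 2) * P G F0 (fun s => XI G l m q s ^ 4) τ))) := by
        rw [P_const_mul, P_const_mul, P_add G (F := fun s => JJ G k m q ψ s ^ 2 + K ^ 2)
          (H := fun s => (1 / 2) * XI G k l ψ s ^ 4 + (1 / 2) * XI G l m q s ^ 4)
          ((cJ.pow 2).add continuous_const)
          ((continuous_const.mul (c1.pow 4)).add (continuous_const.mul (c2.pow 4))),
          P_add G (F := fun s => JJ G k m q ψ s ^ 2) (H := fun _ => K ^ 2)
            (cJ.pow 2) continuous_const, P_const,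
          P_add G (F := fun s => (1 / 2) * XI G k l ψ s ^ 4)
            (H := fun s => (1 / 2) * XI G l m q s ^ 4)
            (continuous_const.mul (c1.pow 4)) (continuous_const.mul (c2.pow 4)),
          P_const_mul, P_const_mul]
    _ ≤ _ := by
        refine mul_le_mul_of_nonneg_left ?_ (sq_nonneg lam)
        linarith

end Crest.Agent.R167.Mom

namespace Crest.Agent.R167

/-- (M4): the constant depends only on `K0`. -/
theorem E_sq_G (K0 : ℝ) : ∃ C2 : ℝ, 0 ≤ C2 ∧ ∀ (ι E : Type) [Fintype ι] [Fintype E]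
    (G : Gr ι E), (∀ e, 0 ≤ G.b e) → ∀ (n : ℕ) [NeZero n] (k l m : Fin n), k ≠ l → l ≠ m → m ≠ k →
    ∀ (F0 : Set ι) (ψ q : ι → ℝ) (lam : ℝ), (∀ v ∈ F0, ψ v = 0) → (∀ v ∈ F0, q v = 0) →
    (∀ v, |q v| ≤ 1 / 2) → G.En ψ ≤ K0 → G.En q ≤ K0 → ∀ τ : Cf ι n,
      P G F0 (fun s => GA G k l m (fun v => lam * q v) ψ s ^ 2) τ ≤ (lam * C2) ^ 2 ∧
      P G F0 (fun s => GB G k l m (fun v => lam * q v) ψ s ^ 2) τ ≤ (lam * C2) ^ 2 := by
  refine ⟨Real.sqrt (3 * (4 * Real.exp (3 * K0) + 2 * K0 ^ 2 + K0 ^ 2 + 40 * K0 ^ 2)),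
    Real.sqrt_nonneg _, ?_⟩
  intro ι E _ _ G hb n _ k l m hkl hlm hmk F0 ψ q lam hψ hq0 hq h1 h2 τ
  have hpos : 0 ≤ 3 * (4 * Real.exp (3 * K0) + 2 * K0 ^ 2 + K0 ^ 2 + 40 * K0 ^ 2) := by positivity
  rw [mul_pow, Real.sq_sqrt hpos]
  refine ⟨Mom.E_sq_GA G hb hkl hlm hmk lam hψ hq0 hq h1 h2 τ, ?_⟩
  have h3 := Mom.E_sq_GA G hb hkl.symm hmk.symm hlm.symm lam hψ hq0 hq h1 h2 τ
  simp only [Mom.GB_eq_GA]
  exact h3

end Crest.Agent.R167
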