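import Crest.Agent.R167.MomM1
import Crest.Agent.R167.MomD

/-! # Row 167: node MOM = MomM1 (E_sq_XI, E_exp_XI, E_four_XI) and MomD (E_sq_G) -/
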