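import Crest.Agent.R167.Sph
import Crest.Agent.R167.PCalc
import Crest.Agent.R167.Bare

set_option autoImplicit false
open MeasureTheory Crest.ProbabilityR.SpinModel

/-! # Row 167, node WARD: the derivative of `P G S F` along the rotation flow, (P1) -/

namespace Crest.Agent.R167

variable {ι E : Type} [Fintype ι] [Fintype E] {n : ℕ}

section WardP
variable (G : Gr ι E) {k l : Fin n} {h : k ≠ l} {f : ι → ℝ} {F F' : Cf ι n → ℝ}

/-- the flow acts site by site. -/
lemma Flow_glue (S : Set ι) (t : ℝ) (s s' : Cf ι n) :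
    Flow h f t (glue S s s') = glue S (Flow h f t s) (Flow h f t s') := by
  funext v
  by_cases hv : v ∈ S
  · simp [Flow, glue_mem hv]
  · simp [Flow, glue_not_mem hv]

/-- change of variables in the unfrozen spins. -/
lemma integral_glue_Flow [NeZero n] (S : Set ι) (t : ℝ) (s : Cf ι n) {K : Cf ι n → ℝ}
    (hK : Continuous K) :
    ∫ s', K (glue S (Flow h f t s) s') ∂(nu ι n) = ∫ s', K (Flow h f t (glue S s s')) ∂(nu ι n) := by
  have hc : Continuous fun s' => K (glue S (Flow h f t s) s') :=
    hK.comp (continuous_glue_right S _)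
  have hmp := mp_Flow (ι := ι) h f t
  have h1 := integral_map (μ := nu ι n) (φ := Flow h f t) hmp.measurable.aemeasurable
    (f := fun s' => K (glue S (Flow h f t s) s')) hc.aestronglyMeasurable
  rw [hmp.map_eq] at h1
  rw [h1]
  refine integral_congr_ae (Filter.Eventually.of_forall fun s' => ?_)
  simp only [Flow_glue]

/-- derivative along the flow at any time. -/
lemma wardP_deriv_at (a : DX h f F F') (s : Cf ι n) (t : ℝ) :
    HasDerivAt (fun t => F (Flow h f t s)) (F' (Flow h f t s)) t := by
  have h1 : HasDerivAt (fun u : ℝ => F (Flow h f u (Flow h f t s))) (F' (Flow h f t s)) (t - t) := by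
    rw [sub_self]; exact a.deriv _
  have h2 := h1.comp_sub_const t t
  refine h2.congr_of_eventuallyEq (Filter.Eventually.of_forall fun u => ?_)
  have h3 : Flow h f u s = Flow h f (u - t) (Flow h f t s) := by
    rw [← Flow_add, sub_add_cancel]
  simp only [h3]

/-- Leibniz rule. -/
lemma wardP_mul {H H' : Cf ι n → ℝ} (a : DX h f F F') (c : DX h f H H') :
    DX h f (fun s => F s * H s) (fun s => F' s * H s + F s * H' s) where
  cont := a.cont.mul c.cont
  cont' := (a.cont'.mul c.cont).add (a.cont.mul c.cont')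
  deriv := fun s => by
    have h1 := (a.deriv s).mul (c.deriv s)
    simp only [Flow_zero] at h1
    exact h1

lemma continuous_Flow_t (h : k ≠ l) (f : ι → ℝ) (t : ℝ) :
    Continuous fun s' : Cf ι n => Flow h f t s' := by
  have hg : Continuous fun s' : Cf ι n => ((t, s') : ℝ × Cf ι n) := Continuous.prodMk_right t
  exact Continuous.comp (g := fun p : ℝ × Cf ι n => Flow h f p.1 p.2)
    (f := fun s' : Cf ι n => ((t, s') : ℝ × Cf ι n)) (continuous_Flow h f) hg

lemma continuous_comp_Flow_glue (h : k ≠ l) (f : ι → ℝ) {K : Cf ι n → ℝ} (hK : Continuous K)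
    (S : Set ι) (s : Cf ι n) (t : ℝ) :
    Continuous fun s' : Cf ι n => K (Flow h f t (glue S s s')) := by
  have h1 : Continuous fun s' : Cf ι n => Flow h f t (glue S s s') :=
    Continuous.comp (g := fun s' : Cf ι n => Flow h f t s') (f := fun s' : Cf ι n => glue S s s')
      (continuous_Flow_t h f t) (continuous_glue_right S s)
  exact Continuous.comp (g := K) (f := fun s' : Cf ι n => Flow h f t (glue S s s')) hK h1

/-- differentiation under the integral sign. -/
lemma hasDerivAt_integral_Flow [NeZero n] (S : Set ι) (s : Cf ι n) {K K' : Cf ι n → ℝ}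
    (a : DX h f K K') :
    HasDerivAt (fun t => ∫ s', K (Flow h f t (glue S s s')) ∂(nu ι n))
      (∫ s', K' (glue S s s') ∂(nu ι n)) 0 := by
  obtain ⟨M, hM0, hM⟩ := cont_bdd a.cont'
  have hF := fun t => continuous_comp_Flow_glue h f a.cont S s t
  have hF' := fun t => continuous_comp_Flow_glue h f a.cont' S s t
  have h1 : ∀ᶠ t in nhds (0 : ℝ), AEStronglyMeasurable
      (fun s' : Cf ι n => K (Flow h f t (glue S s s'))) (nu ι n) :=
    Filter.Eventually.of_forall fun t => (hF t).aestronglyMeasurable
  have h2 : Integrable (fun s' : Cf ι n => K (Flow h f 0 (glue S s s'))) (nu ι n) :=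
    integrable_of_cont (hF 0)
  have h3 : AEStronglyMeasurable (fun s' : Cf ι n => K' (Flow h f 0 (glue S s s'))) (nu ι n) :=
    (hF' 0).aestronglyMeasurable
  have h4 : ∀ᵐ s' ∂(nu ι n), ∀ t ∈ (Set.univ : Set ℝ), ‖K' (Flow h f t (glue S s s'))‖ ≤ M :=
    Filter.Eventually.of_forall fun s' t _ => hM _
  have h5 : ∀ᵐ s' ∂(nu ι n), ∀ t ∈ (Set.univ : Set ℝ),
      HasDerivAt (fun t => K (Flow h f t (glue S s s'))) (K' (Flow h f t (glue S s s'))) t :=
    Filter.Eventually.of_forall fun s' t _ => wardP_deriv_at a _ t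
  have key := (hasDerivAt_integral_of_dominated_loc_of_deriv_le (μ := nu ι n)
    (F := fun t s' => K (Flow h f t (glue S s s')))
    (F' := fun t s' => K' (Flow h f t (glue S s s'))) (x₀ := (0 : ℝ)) (s := Set.univ)
    (bound := fun _ => M) Filter.univ_mem h1 h2 h3 h4 (integrable_const M) h5).2
  have e : (∫ s', K' (Flow h f 0 (glue S s s')) ∂(nu ι n)) = ∫ s', K' (glue S s s') ∂(nu ι n) := by
    refine integral_congr_ae (Filter.Eventually.of_forall fun s' => ?_)
    simp only [Flow_zero]
  rw [← e]
  exact key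
/-- the Gibbs weight. -/
lemma DX_exp_I (h : k ≠ l) (f : ι → ℝ) :
    DX h f (fun s : Cf ι n => Real.exp (G.I s)) (fun s => XI G k l f s * Real.exp (G.I s)) where
  cont := continuous_w G
  cont' := (continuous_XI G k l f).mul (continuous_w G)
  deriv := fun s => by
    have h1 := ((DX_I G h f).deriv s).exp
    simp only [Flow_zero] at h1
    simpa [mul_comm] using h1

/-- (P1) -/
theorem DX_P [NeZero n] (S : Set ι) (a : DX h f F F') :
    DX h f (P G S F) (fun s => P G S F' s + P G S (fun s => F s * XI G k l f s) s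
      - P G S F s * P G S (XI G k l f) s) := by
  have hFX : Continuous fun s => F s * XI G k l f s := a.cont.mul (continuous_XI G k l f)
  refine ⟨continuous_P G a.cont, ((continuous_P G a.cont').add (continuous_P G hFX)).sub
    ((continuous_P G a.cont).mul (continuous_P G (continuous_XI G k l f))), fun s => ?_⟩
  -- numerator and denominator
  have hw := DX_exp_I (n := n) G h f
  have hN := wardP_mul a hw
  have dN := hasDerivAt_integral_Flow S s hN
  have dZ := hasDerivAt_integral_Flow S s hw
  have hZpos : 0 < ∫ s', Real.exp (G.I (glue S s s')) ∂(nu ι n) := Zf_pos G S s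
  have eqP : (fun t => P G S F (Flow h f t s)) = fun t =>
      (∫ s', F (Flow h f t (glue S s s')) * Real.exp (G.I (Flow h f t (glue S s s'))) ∂(nu ι n)) /
      (∫ s', Real.exp (G.I (Flow h f t (glue S s s'))) ∂(nu ι n)) := by
    funext t
    unfold P
    rw [integral_glue_Flow S t s hN.cont, integral_glue_Flow S t s hw.cont]
  rw [eqP]
  have hZ0 : (∫ s', Real.exp (G.I (Flow h f 0 (glue S s s'))) ∂(nu ι n)) ≠ 0 := by
    simp only [Flow_zero]; exact hZpos.ne'
  have hd := dN.div dZ hZ0
  refine hd.congr_deriv ?_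
  simp only [Flow_zero]
  rw [← P_add G a.cont' hFX]
  unfold P
  have e1 : (∫ s', (F' (glue S s s') * Real.exp (G.I (glue S s s')) + F (glue S s s') *
      (XI G k l f (glue S s s') * Real.exp (G.I (glue S s s')))) ∂(nu ι n))
      = ∫ s', (F' (glue S s s') + F (glue S s s') * XI G k l f (glue S s s')) *
          Real.exp (G.I (glue S s s')) ∂(nu ι n) := by
    refine integral_congr_ae (Filter.Eventually.of_forall fun s' => ?_)
    simp only; ring
  rw [e1]
  set N1 := ∫ s', (F' (glue S s s') + F (glue S s s') * XI G k l f (glue S s s')) *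
          Real.exp (G.I (glue S s s')) ∂(nu ι n)
  set N := ∫ s', F (glue S s s') * Real.exp (G.I (glue S s s')) ∂(nu ι n)
  set X := ∫ s', XI G k l f (glue S s s') * Real.exp (G.I (glue S s s')) ∂(nu ι n)
  set Z := ∫ s', Real.exp (G.I (glue S s s')) ∂(nu ι n)
  field_simp

end WardP

end Crest.Agent.R167
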