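import Crest.Agent.R167.Ward
import Crest.Agent.R167.WardP
import Crest.Agent.R167.Mom

set_option autoImplicit false
open MeasureTheory Crest.ProbabilityR.SpinModel

/-! Row 167 (S0253): NODE K, the one-cell inequality. -/

namespace Crest.Agent.R167

variable {ι E : Type} [Fintype ι] [Fintype E] {n : ℕ}

namespace Key

/-- a flow with speed `0` on `A` does not change functions of the spins in `A`. -/
lemma flow_inv_of_dep {k l : Fin n} (h : k ≠ l) {A : Set ι} {f : ι → ℝ} (hf : ∀ v ∈ A, f v = 0)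
    {F : Cf ι n → ℝ} (hd : Dep A F) (t : ℝ) (s : Cf ι n) : F (Flow h f t s) = F s := by
  refine hd _ _ fun v hv => ?_
  simp only [Flow, hf v hv, mul_zero, rotS_zero]

/-- general Ward computation: `E[g' X_ψ + g G] = 0`. -/
lemma ward_mul [NeZero n] (G : Gr ι E) {a c k l : Fin n} (hac : a ≠ c) {F0 : Set ι}
    {p ψ : ι → ℝ} (hp : ∀ v ∈ F0, p v = 0) {g g' X' : Cf ι n → ℝ} (hg : DX hac p g g')
    (hX : DX hac p (XI G k l ψ : Cf ι n → ℝ) X') (τ : Cf ι n) :
    P G F0 (fun s => g' s * XI G k l ψ s) τ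
      = - P G F0 (fun s => g s * (X' s + XI G k l ψ s * XI G a c p s)) τ := by
  have hXac : Continuous (XI G a c p : Cf ι n → ℝ) := continuous_XI G a c p
  have h1 := ward G hp (hg.mul hX) τ
  have h2 : (fun s => g' s * XI G k l ψ s + g s * X' s + g s * XI G k l ψ s * XI G a c p s)
      = fun s => g' s * XI G k l ψ s + g s * (X' s + XI G k l ψ s * XI G a c p s) := by
    funext s
    ring
  rw [h2] at h1
  rw [P_add G (c_mul hg.cont' hX.cont)
    (c_mul hg.cont (c_add hX.cont' (c_mul hX.cont hXac)))] at h1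
  linarith

end Key

/-- NODE K. -/
theorem keyIneq : KeyIneq := by
  intro n hn K0
  have : NeZero n := ⟨by omega⟩
  obtain ⟨C2, hC2, hG⟩ := E_sq_G K0
  refine ⟨C2, hC2, ?_⟩
  intro ι E _ _ G hb k l m hkl hlm hmk F0 S' S hF hS ψ q lam hlam hψ hq hq2 hEψ hEq τ
  set p : ι → ℝ := fun v => lam * q v with hpdef
  have hp0 : ∀ v ∈ F0, p v = 0 := fun v hv => by simp [hpdef, hq v hv]
  have hψ0 : ∀ v ∈ F0, ψ v = 0 := fun v hv => hψ v (hF hv)
  have hFS : F0 ⊆ S := hF.trans hS
  obtain ⟨mA, mB⟩ := hG ι E G hb n k l m hkl hlm hmk F0 ψ q lam hψ0 hq hq2 hEψ hEq τ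
  -- the three fields
  obtain ⟨FA, FB, hFA, hFB, hcomm⟩ := commutator (n := n) G hkl hlm hmk p
  have hXψA := DX_XI_A (n := n) G hkl hlm hmk p ψ
  have hXψB := DX_XI_B (n := n) G hkl hlm hmk p ψ
  have cψ : Continuous (XI G k l ψ : Cf ι n → ℝ) := continuous_XI G k l ψ
  have cA : Continuous (XI G l m p : Cf ι n → ℝ) := continuous_XI G l m p
  have cB : Continuous (XI G m k p : Cf ι n → ℝ) := continuous_XI G m k p
  have cp2 : Continuous (XI G k l (fun v => p v ^ 2) : Cf ι n → ℝ) := continuous_XI G k l _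
  have cGA : Continuous (GA G k l m p ψ : Cf ι n → ℝ) := hXψA.cont'.add (cψ.mul cA)
  have cGB : Continuous (GB G k l m p ψ : Cf ι n → ℝ) := hXψB.cont'.add (cψ.mul cB)
  -- derivatives of the conditional torques
  have dgB := DX_P G S hFA
  have dgA := DX_P G S hFB
  have dgB' := DX_P G S' hFA
  have dgA' := DX_P G S' hFB
  -- Ward identities
  have w1 := Key.ward_mul G hlm hp0 dgB hXψA τ
  have w2 := Key.ward_mul G hmk hp0 dgA hXψB τ
  have w3 := Key.ward_mul G hlm hp0 dgB' hXψA τ
  have w4 := Key.ward_mul G hmk hp0 dgA' hXψB τ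
  have z3 := ward_inv (h := hkl) G (A := F0) hψ0 dgB'.cont'
    (Key.flow_inv_of_dep hkl hψ (dgB'.dep (dep_P G S' _))) τ
  have z4 := ward_inv (h := hkl) G (A := F0) hψ0 dgA'.cont'
    (Key.flow_inv_of_dep hkl hψ (dgA'.dep (dep_P G S' _))) τ
  rw [z3] at w3
  rw [z4] at w4
  -- the commutator identity for the conditional torques
  have hc : ∀ s, P G S (XI G k l (fun v => p v ^ 2)) s
      = (P G S FB s + P G S (fun s => XI G l m p s * XI G m k p s) s
          - P G S (XI G l m p) s * P G S (XI G m k p) s)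
        - (P G S FA s + P G S (fun s => XI G m k p s * XI G l m p s) s
          - P G S (XI G m k p) s * P G S (XI G l m p) s) := by
    intro s
    have e1 : P G S (XI G k l (fun v => p v ^ 2)) s = P G S FB s - P G S FA s := by
      rw [← P_sub G hFB.cont' hFA.cont' s]
      congr 1
      funext s'
      have := hcomm s'
      linarith
    have e2 : (fun s => XI G l m p s * XI G m k p s : Cf ι n → ℝ)
        = fun s => XI G m k p s * XI G l m p s := by
      funext s'
      ring
    rw [e1, e2]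
    ring
  -- LHS
  have e0 : P G F0 (fun s => P G S (XI G k l ψ) s * P G S (XI G k l (fun v => p v ^ 2)) s) τ
      = P G F0 (fun s => (P G S FB s + P G S (fun s => XI G l m p s * XI G m k p s) s
          - P G S (XI G l m p) s * P G S (XI G m k p) s) * XI G k l ψ s) τ
        - P G F0 (fun s => (P G S FA s + P G S (fun s => XI G m k p s * XI G l m p s) s
          - P G S (XI G m k p) s * P G S (XI G l m p) s) * XI G k l ψ s) τ := by
    have s1 : P G F0 (fun s => P G S (XI G k l ψ) s * P G S (XI G k l (fun v => p v ^ 2)) s) τ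
        = P G F0 (fun s => P G S (XI G k l (fun v => p v ^ 2)) s * XI G k l ψ s) τ := by
      rw [P_selfadj G hFS cp2 cψ τ]
      congr 1
      funext s
      ring
    rw [s1, ← P_sub G (c_mul dgA.cont' cψ) (c_mul dgB.cont' cψ) τ]
    congr 1
    funext s
    rw [hc s]
    ring
  have eGA : (fun s => XXA G k m p ψ s + XI G k l ψ s * XI G l m p s : Cf ι n → ℝ)
      = GA G k l m p ψ := rfl
  have eGB : (fun s => XXB G l m p ψ s + XI G k l ψ s * XI G m k p s : Cf ι n → ℝ)
      = GB G k l m p ψ := rfl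
  have cPB := continuous_P (A := S) G cB
  have cPA := continuous_P (A := S) G cA
  have cPB' := continuous_P (A := S') G cB
  have cPA' := continuous_P (A := S') G cA
  have e1 : P G F0 (fun s => P G S (XI G k l ψ) s * P G S (XI G k l (fun v => p v ^ 2)) s) τ
      = P G F0 (fun s => (P G S (XI G m k p) s - P G S' (XI G m k p) s) * GA G k l m p ψ s) τ
        - P G F0 (fun s => (P G S (XI G l m p) s - P G S' (XI G l m p) s) * GB G k l m p ψ s) τ := by
    have t1 : P G F0 (fun s => (P G S (XI G m k p) s - P G S' (XI G m k p) s) *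
        GA G k l m p ψ s) τ
        = P G F0 (fun s => P G S (XI G m k p) s * GA G k l m p ψ s) τ
          - P G F0 (fun s => P G S' (XI G m k p) s * GA G k l m p ψ s) τ := by
      rw [← P_sub G (c_mul cPB cGA) (c_mul cPB' cGA) τ]
      congr 1
      funext s
      ring
    have t2 : P G F0 (fun s => (P G S (XI G l m p) s - P G S' (XI G l m p) s) *
        GB G k l m p ψ s) τ
        = P G F0 (fun s => P G S (XI G l m p) s * GB G k l m p ψ s) τ
          - P G F0 (fun s => P G S' (XI G l m p) s * GB G k l m p ψ s) τ := by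
      rw [← P_sub G (c_mul cPA cGB) (c_mul cPA' cGB) τ]
      congr 1
      funext s
      ring
    have w3' : P G F0 (fun s => P G S' (XI G m k p) s * GA G k l m p ψ s) τ = 0 := by
      have : (0 : ℝ) = - P G F0 (fun s => P G S' (XI G m k p) s * GA G k l m p ψ s) τ := w3
      linarith
    have w4' : P G F0 (fun s => P G S' (XI G l m p) s * GB G k l m p ψ s) τ = 0 := by
      have : (0 : ℝ) = - P G F0 (fun s => P G S' (XI G l m p) s * GB G k l m p ψ s) τ := w4
      linarith
    rw [e0, w1, w2, t1, t2, w3', w4']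
    change - P G F0 (fun s => P G S (XI G l m p) s * GB G k l m p ψ s) τ
      - - P G F0 (fun s => P G S (XI G m k p) s * GA G k l m p ψ s) τ = _
    ring
  have hlC : 0 ≤ lam * C2 := mul_nonneg hlam hC2
  have b1 := P_abs_mul_le (A := F0) G (c_sub cPB cPB') cGA τ
  have b2 := P_abs_mul_le (A := F0) G (c_sub cPA cPA') cGB τ
  have r1 : Real.sqrt (P G F0 (fun s => GA G k l m p ψ s ^ 2) τ) ≤ lam * C2 :=
    Real.sqrt_le_iff.mpr ⟨hlC, mA⟩
  have r2 : Real.sqrt (P G F0 (fun s => GB G k l m p ψ s ^ 2) τ) ≤ lam * C2 :=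
    Real.sqrt_le_iff.mpr ⟨hlC, mB⟩
  have q1 := Real.sqrt_nonneg
    (P G F0 (fun s => (P G S (XI G m k p) s - P G S' (XI G m k p) s) ^ 2) τ)
  have q2 := Real.sqrt_nonneg
    (P G F0 (fun s => (P G S (XI G l m p) s - P G S' (XI G l m p) s) ^ 2) τ)
  have B1 : |P G F0 (fun s => (P G S (XI G m k p) s - P G S' (XI G m k p) s) *
      GA G k l m p ψ s) τ|
      ≤ Real.sqrt (P G F0 (fun s => (P G S (XI G m k p) s - P G S' (XI G m k p) s) ^ 2) τ)
        * (lam * C2) := b1.trans (mul_le_mul_of_nonneg_left r1 q1)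
  have B2 : |P G F0 (fun s => (P G S (XI G l m p) s - P G S' (XI G l m p) s) *
      GB G k l m p ψ s) τ|
      ≤ Real.sqrt (P G F0 (fun s => (P G S (XI G l m p) s - P G S' (XI G l m p) s) ^ 2) τ)
        * (lam * C2) := b2.trans (mul_le_mul_of_nonneg_left r2 q2)
  rw [e1]
  refine (abs_sub _ _).trans ?_
  calc _ ≤ _ := add_le_add B1 B2
    _ = _ := by ring

end Crest.Agent.R167
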