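import Crest.Agent.R167.Iface

set_option autoImplicit false
open MeasureTheory Crest.ProbabilityR.SpinModel

/-! Row 167 (S0253): link of the frozen node Props to the statement (helper709, linker). -/

namespace Crest.Agent.R167.Link

open Crest.Agent.R167

/-- the body of `S0253`. -/
def S0253Body : Prop := ∀ (n : ℕ), 3 ≤ n → ∀ β : ℝ, 0 < β →
    ∃ A m : ℝ, 0 < m ∧
      ∀ (V : Finset (ℤ × ℤ)) (b : ℤ × ℤ → Fin 2 → ℝ),
        (∀ u i, 0 ≤ b u i ∧ b u i ≤ β) →
        ∀ x y : V,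
          0 ≤ twoPoint n V b x y ∧
          twoPoint n V b x y ≤
            A * Real.exp (-m * Real.sqrt ((((x : ℤ × ℤ).1 - (y : ℤ × ℤ).1 : ℤ) : ℝ) ^ 2 +
              (((x : ℤ × ℤ).2 - (y : ℤ × ℤ).2 : ℤ) : ℝ) ^ 2))

/-- final link: Theorem B, the iteration C and the finite size criterion D. -/
theorem body_of (hB : ThmB) (hC : PartC) (hD : PartD) : S0253Body :=
  fun n hn β hβ => hD n hn β hβ fun ε hε => hC hB n hn β ε hβ hε

end Crest.Agent.R167.Link
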