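import Crest.Agent.R167.MA

set_option autoImplicit false
open MeasureTheory Crest.ProbabilityR.SpinModel

/-!
# Row 167, block M, part B: second order expansion of the rotated edge energies
-/

namespace Crest.Agent.R167

namespace M

variable {n : ℕ}

lemma cos_sq_ineq (θ : ℝ) : (Real.cos θ - 1) ^ 2 + Real.sin θ ^ 2 ≤ θ ^ 2 := by
  have h1 := Real.one_sub_sq_div_two_le_cos (x := θ)
  nlinarith [Real.sin_sq_add_cos_sq θ]

lemma aux_mono (θ : ℝ) (h : 0 ≤ θ) :
    0 ≤ θ ^ 4 / 4 - θ ^ 2 - 2 + 2 * Real.cos θ + 2 * θ * Real.sin θ := by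
  have hd : ∀ x : ℝ, HasDerivAt
      (fun θ : ℝ => θ ^ 4 / 4 - θ ^ 2 - 2 + 2 * Real.cos θ + 2 * θ * Real.sin θ)
      (x * (x ^ 2 - 2 + 2 * Real.cos x)) x := by
    intro x
    have h1 : HasDerivAt (fun θ : ℝ => θ ^ 4 / 4) (x ^ 3) x :=
      ((hasDerivAt_pow 4 x).div_const 4).congr_deriv (by norm_num)
    have h2 : HasDerivAt (fun θ : ℝ => θ ^ 2) (2 * x) x :=
      (hasDerivAt_pow 2 x).congr_deriv (by norm_num)
    have h3 : HasDerivAt (fun θ : ℝ => 2 * Real.cos θ) (2 * (-Real.sin x)) x :=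
      (Real.hasDerivAt_cos x).const_mul 2
    have h4 : HasDerivAt (fun θ : ℝ => 2 * θ) 2 x := by
      simpa using (hasDerivAt_id x).const_mul 2
    have h5 := h4.mul (Real.hasDerivAt_sin x)
    have h6 := (((h1.sub h2).sub_const 2).add h3).add h5
    exact h6.congr_deriv (by ring)
  have hm : MonotoneOn
      (fun θ : ℝ => θ ^ 4 / 4 - θ ^ 2 - 2 + 2 * Real.cos θ + 2 * θ * Real.sin θ) (Set.Ici 0) := by
    apply monotoneOn_of_deriv_nonneg (convex_Ici 0)
    · exact fun x _ => (hd x).continuousAt.continuousWithinAt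
    · exact fun x _ => (hd x).differentiableAt.differentiableWithinAt
    · intro x hx
      rw [interior_Ici] at hx
      rw [(hd x).deriv]
      have h1 := Real.one_sub_sq_div_two_le_cos (x := x)
      have hx' : 0 < x := hx
      apply mul_nonneg hx'.le
      linarith
  have := hm (Set.mem_Ici.2 le_rfl) (Set.mem_Ici.2 h) h
  simpa using this

lemma rem_sq_ineq (θ : ℝ) :
    (Real.cos θ - 1) ^ 2 + (Real.sin θ - θ) ^ 2 ≤ (θ ^ 2 / 2) ^ 2 := by
  have key : ∀ t : ℝ, 0 ≤ t ^ 4 / 4 - t ^ 2 - 2 + 2 * Real.cos t + 2 * t * Real.sin t := by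
    intro t
    rcases le_total 0 t with h | h
    · exact aux_mono t h
    · have := aux_mono (-t) (by linarith)
      rw [Real.cos_neg, Real.sin_neg] at this
      nlinarith [this]
  have h := key θ
  nlinarith [Real.sin_sq_add_cos_sq θ]

/-- `L_{kl} x`. -/
noncomputable def Lv (k l : Fin n) (x : EuclideanSpace ℝ (Fin n)) : EuclideanSpace ℝ (Fin n) :=
  pl k l (-x l) (x k)

lemma inner_Lv {k l : Fin n} (h : k ≠ l) (x y : EuclideanSpace ℝ (Fin n)) :
    inner ℝ x (Lv k l y) = cur k l x y := by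
  rw [real_inner_comm, Lv, inner_pl h, cur]; ring

lemma inner_Lv' {k l : Fin n} (h : k ≠ l) (x y : EuclideanSpace ℝ (Fin n)) :
    inner ℝ (Lv k l x) y = -cur k l x y := by
  rw [Lv, inner_pl h, cur]; ring

lemma norm_Lv {k l : Fin n} (h : k ≠ l) (x : EuclideanSpace ℝ (Fin n)) : ‖Lv k l x‖ ≤ ‖x‖ := by
  apply le_of_sq_le_sq _ (norm_nonneg _)
  rw [Lv, norm_pl_sq h]
  have := two_le_norm_sq h x
  nlinarith

lemma norm_rem1 {k l : Fin n} (h : k ≠ l) (θ : ℝ) (x : EuclideanSpace ℝ (Fin n)) :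
    ‖rotV k l θ x - x‖ ≤ |θ| * ‖x‖ := by
  apply le_of_sq_le_sq _ (mul_nonneg (abs_nonneg _) (norm_nonneg _))
  rw [rotV_eq h, add_sub_cancel_left, norm_pl_sq h, mul_pow, sq_abs]
  have h1 := two_le_norm_sq h x
  have h2 := cos_sq_ineq θ
  have h3 : ((Real.cos θ - 1) * x k - Real.sin θ * x l) ^ 2 +
      (Real.sin θ * x k + (Real.cos θ - 1) * x l) ^ 2
      = ((Real.cos θ - 1) ^ 2 + Real.sin θ ^ 2) * (x k ^ 2 + x l ^ 2) := by ring
  rw [h3]
  exact mul_le_mul h2 h1 (by positivity) (by positivity)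

lemma norm_rem2 {k l : Fin n} (h : k ≠ l) (θ : ℝ) (x : EuclideanSpace ℝ (Fin n)) :
    ‖rotV k l θ x - x - θ • Lv k l x‖ ≤ θ ^ 2 / 2 * ‖x‖ := by
  apply le_of_sq_le_sq _ (mul_nonneg (by positivity) (norm_nonneg _))
  have h0 : rotV k l θ x - x - θ • Lv k l x
      = pl k l ((Real.cos θ - 1) * x k - (Real.sin θ - θ) * x l)
        ((Real.sin θ - θ) * x k + (Real.cos θ - 1) * x l) := by
    rw [rotV_eq h, add_sub_cancel_left]
    ext i
    simp only [Lv, PiLp.sub_apply, PiLp.smul_apply, pl_apply, smul_eq_mul]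
    split_ifs <;> ring
  rw [h0, norm_pl_sq h, mul_pow]
  have h1 := two_le_norm_sq h x
  have h2 := rem_sq_ineq θ
  have h3 : ((Real.cos θ - 1) * x k - (Real.sin θ - θ) * x l) ^ 2 +
      ((Real.sin θ - θ) * x k + (Real.cos θ - 1) * x l) ^ 2
      = ((Real.cos θ - 1) ^ 2 + (Real.sin θ - θ) ^ 2) * (x k ^ 2 + x l ^ 2) := by ring
  rw [h3]
  exact mul_le_mul h2 h1 (by positivity) (by positivity)

lemma norm_Sp (x : Sp n) : ‖(x : EuclideanSpace ℝ (Fin n))‖ = 1 := by simp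

/-- first order expansion of `<x, e^{tC} y>`. -/
lemma rot_edge1' {k l : Fin n} (h : k ≠ l) (t : ℝ) (x y : EuclideanSpace ℝ (Fin n))
    (hx : ‖x‖ = 1) (hy : ‖y‖ = 1) :
    inner ℝ x y + t * cur k l x y - t ^ 2 / 2 ≤ inner ℝ x (rotV k l t y) := by
  have h1 : inner ℝ x (rotV k l t y) = inner ℝ x y + t * cur k l x y
      + inner ℝ x (rotV k l t y - y - t • Lv k l y) := by
    rw [inner_sub_right, inner_sub_right, inner_smul_right, inner_Lv h]; ring
  have h2 := abs_real_inner_le_norm x (rotV k l t y - y - t • Lv k l y)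
  have h3 := norm_rem2 h t y
  rw [hy, mul_one] at h3
  rw [hx, one_mul] at h2
  have h4 := (abs_le.1 (h2.trans h3)).1
  rw [h1]; linarith

lemma rot_edge1 {k l : Fin n} (h : k ≠ l) (a c : ℝ) (x y : Sp n) :
    inner ℝ (x : EuclideanSpace ℝ (Fin n)) y + (c - a) * cur k l x y - (c - a) ^ 2 / 2
      ≤ inner ℝ ((rotS h a x : Sp n) : EuclideanSpace ℝ (Fin n)) (rotS h c y) := by
  rw [rotS_coe, rotS_coe]
  have h1 : rotV k l c (y : EuclideanSpace ℝ (Fin n)) = rotV k l a (rotV k l (c - a) y) := by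
    rw [rotV_rotV h]; congr 1; ring
  rw [h1, inner_rotV h]
  exact rot_edge1' h (c - a) x y (norm_Sp x) (norm_Sp y)

lemma cur_rot_self {k l : Fin n} (h : k ≠ l) (θ : ℝ) (x y : EuclideanSpace ℝ (Fin n)) :
    cur k l (rotV k l θ x) (rotV k l θ y) = cur k l x y := by
  rw [cur, cur, rotV_k, rotV_k, rotV_l h, rotV_l h]
  have := Real.sin_sq_add_cos_sq θ
  linear_combination (x l * y k - x k * y l) * this

lemma cur_rot_A {k l m : Fin n} (hkl : k ≠ l) (hlm : l ≠ m) (hmk : m ≠ k) (θ : ℝ)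
    (x y : EuclideanSpace ℝ (Fin n)) :
    cur l m (rotV k l θ x) (rotV k l θ y)
      = Real.cos θ * cur l m x y - Real.sin θ * cur m k x y := by
  rw [cur, cur, cur, rotV_l hkl, rotV_l hkl, rotV_o hmk (Ne.symm hlm), rotV_o hmk (Ne.symm hlm)]
  ring

lemma cur_sub_left (k l : Fin n) (x x' y : EuclideanSpace ℝ (Fin n)) :
    cur k l (x - x') y = cur k l x y - cur k l x' y := by
  simp only [cur, PiLp.sub_apply]; ring

/-- second order expansion of `<e^{aA} e^{bC} x, e^{cA} e^{dC} y>`. -/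
lemma rot_edge2 {k l m : Fin n} (hkl : k ≠ l) (hlm : l ≠ m) (hmk : m ≠ k) (a b c d : ℝ)
    (x y : Sp n) :
    inner ℝ (x : EuclideanSpace ℝ (Fin n)) y
        + ((d - b) * cur k l x y + (c - a) * Real.cos d * cur l m x y
          - (c - a) * Real.sin d * cur m k x y) - ((d - b) ^ 2 + (c - a) ^ 2)
      ≤ inner ℝ ((rotS hlm a (rotS hkl b x) : Sp n) : EuclideanSpace ℝ (Fin n))
          (rotS hlm c (rotS hkl d y)) := by
  simp only [rotS_coe]
  set X : EuclideanSpace ℝ (Fin n) := rotV k l d (x : EuclideanSpace ℝ (Fin n)) with hX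
  set Y : EuclideanSpace ℝ (Fin n) := rotV k l d (y : EuclideanSpace ℝ (Fin n)) with hY
  have hXn : ‖X‖ = 1 := by rw [hX, norm_rotV hkl, norm_Sp]
  have hYn : ‖Y‖ = 1 := by rw [hY, norm_rotV hkl, norm_Sp]
  have e1 : rotV k l b (x : EuclideanSpace ℝ (Fin n)) = rotV k l (-(d - b)) X := by
    rw [hX, rotV_rotV hkl]; congr 1; ring
  rw [e1]
  have e3 : rotV l m c Y = rotV l m a (rotV l m (c - a) Y) := by
    rw [rotV_rotV hlm]; congr 1; ring
  rw [e3, inner_rotV hlm]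
  set δ := d - b with hδ
  set γ := c - a with hγ
  have h0 : inner ℝ X Y = inner ℝ (x : EuclideanSpace ℝ (Fin n)) y := inner_rotV hkl d _ _
  have hc : cur k l X Y = cur k l x y := cur_rot_self hkl d _ _
  have ha : cur l m X Y = Real.cos d * cur l m x y - Real.sin d * cur m k x y :=
    cur_rot_A hkl hlm hmk d _ _
  set r1 := rotV k l (-δ) X - X - (-δ) • Lv k l X with hr1
  set r1' := rotV k l (-δ) X - X with hr1'
  set r2 := rotV l m γ Y - Y - γ • Lv l m Y with hr2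
  have key : inner ℝ (rotV k l (-δ) X) (rotV l m γ Y)
      = inner ℝ X Y + δ * cur k l X Y + γ * cur l m X Y
        + inner ℝ r1 Y + γ * inner ℝ r1' (Lv l m Y) + inner ℝ (rotV k l (-δ) X) r2 := by
    rw [hr1, hr1', hr2]
    simp only [inner_sub_left, inner_sub_right, inner_smul_left, inner_smul_right, inner_Lv' hkl,
      inner_Lv hlm, RCLike.conj_to_real, cur_sub_left]
    ring
  have b1 : |inner ℝ r1 Y| ≤ δ ^ 2 / 2 := by
    refine (abs_real_inner_le_norm _ _).trans ?_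
    have := norm_rem2 hkl (-δ) X
    rw [hXn, mul_one] at this
    rw [hYn, mul_one]
    refine this.trans (le_of_eq ?_)
    ring
  have b2 : |γ * inner ℝ r1' (Lv l m Y)| ≤ |γ| * |δ| := by
    rw [abs_mul]
    refine mul_le_mul_of_nonneg_left ?_ (abs_nonneg _)
    refine (abs_real_inner_le_norm _ _).trans ?_
    have h1 := norm_rem1 hkl (-δ) X
    rw [hXn, mul_one, abs_neg] at h1
    have h2 := norm_Lv hlm Y
    rw [hYn] at h2
    calc ‖r1'‖ * ‖Lv l m Y‖ ≤ |δ| * 1 :=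
          mul_le_mul h1 h2 (norm_nonneg _) (abs_nonneg _)
      _ = |δ| := mul_one _
  have b3 : |inner ℝ (rotV k l (-δ) X) r2| ≤ γ ^ 2 / 2 := by
    refine (abs_real_inner_le_norm _ _).trans ?_
    rw [norm_rotV hkl, hXn, one_mul]
    have := norm_rem2 hlm γ Y
    rwa [hYn, mul_one] at this
  have b1' := (abs_le.1 b1).1
  have b2' := (abs_le.1 b2).1
  have b3' := (abs_le.1 b3).1
  have b4 : |γ| * |δ| ≤ (γ ^ 2 + δ ^ 2) / 2 := by
    nlinarith [sq_nonneg (|γ| - |δ|), sq_abs γ, sq_abs δ]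
  rw [key, h0, hc, ha]
  nlinarith

/-- bound for the antisymmetric form. -/
lemma abs_cur_le {k l : Fin n} (h : k ≠ l) (x y : Sp n) : |cur k l x y| ≤ 1 := by
  rw [← inner_Lv h]
  refine (abs_real_inner_le_norm _ _).trans ?_
  have h1 := norm_Lv h (y : EuclideanSpace ℝ (Fin n))
  rw [norm_Sp] at h1
  rw [norm_Sp, one_mul]; exact h1

lemma abs_coord_le (x : Sp n) (k : Fin n) : |(x : EuclideanSpace ℝ (Fin n)) k| ≤ 1 := by
  have h1 := PiLp.norm_apply_le (x : EuclideanSpace ℝ (Fin n)) k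
  rw [norm_Sp] at h1
  simpa using h1

end M

end Crest.Agent.R167
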