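import Mathlib

/-!
# Row 167 (S0253), node MOM, part A: exponentials of skew operators
-/

set_option autoImplicit false
open NormedSpace

namespace Crest.Agent.R167.Mom

variable {E : Type*} [NormedAddCommGroup E] [InnerProductSpace ℝ E] [CompleteSpace E]

noncomputable local instance : NormedAlgebra ℚ (E →L[ℝ] E) :=
  NormedAlgebra.restrictScalars ℚ ℝ (E →L[ℝ] E)

/-- skew operators -/
def Skew (A : E →L[ℝ] E) : Prop := ∀ x y : E, inner ℝ (A x) y = - inner ℝ x (A y)

lemma Skew.mem {A : E →L[ℝ] E} (hA : Skew A) : A ∈ skewAdjoint (E →L[ℝ] E) := by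
  rw [skewAdjoint.mem_iff, ContinuousLinearMap.star_eq_adjoint]
  symm
  rw [ContinuousLinearMap.eq_adjoint_iff]
  intro x y
  rw [ContinuousLinearMap.neg_apply, inner_neg_left, hA x y, neg_neg]

lemma Skew.smul {A : E →L[ℝ] E} (hA : Skew A) (t : ℝ) : Skew (t • A) := by
  intro x y
  simp only [ContinuousLinearMap.smul_apply, inner_smul_left, inner_smul_right, hA x y]
  simp

lemma Skew.add {A B : E →L[ℝ] E} (hA : Skew A) (hB : Skew B) : Skew (A + B) := by
  intro x y
  simp only [ContinuousLinearMap.add_apply, inner_add_left, inner_add_right, hA x y, hB x y]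
  ring

lemma Skew.neg {A : E →L[ℝ] E} (hA : Skew A) : Skew (-A) := by
  intro x y
  simp only [ContinuousLinearMap.neg_apply, inner_neg_left, inner_neg_right, hA x y]

lemma Skew.sub {A B : E →L[ℝ] E} (hA : Skew A) (hB : Skew B) : Skew (A - B) := by
  rw [sub_eq_add_neg]
  exact hA.add hB.neg

lemma exp_mem {A : E →L[ℝ] E} (hA : Skew A) : exp A ∈ unitary (E →L[ℝ] E) :=
  exp_mem_unitary_of_mem_skewAdjoint hA.mem

lemma norm_exp_apply {A : E →L[ℝ] E} (hA : Skew A) (x : E) : ‖exp A x‖ = ‖x‖ :=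
  ContinuousLinearMap.norm_map_of_mem_unitary (exp_mem hA) x

lemma norm_exp_le {A : E →L[ℝ] E} (hA : Skew A) : ‖exp A‖ ≤ 1 :=
  ContinuousLinearMap.opNorm_le_bound _ zero_le_one fun x => by
    rw [norm_exp_apply hA, one_mul]

lemma norm_exp_sub_one_le {A : E →L[ℝ] E} (hA : Skew A) {t : ℝ} (ht : 0 ≤ t) :
    ‖exp (t • A) - 1‖ ≤ t * ‖A‖ := by
  have h := norm_image_sub_le_of_norm_deriv_le_segment' (f := fun t : ℝ => exp (t • A))
    (f' := fun t => exp (t • A) * A) (C := ‖A‖) (a := 0) (b := t)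
    (fun s _ => (hasDerivAt_exp_smul_const A s).hasDerivWithinAt)
    (fun s _ => by
      calc ‖exp (s • A) * A‖ ≤ ‖exp (s • A)‖ * ‖A‖ := norm_mul_le _ _
        _ ≤ 1 * ‖A‖ := by gcongr; exact norm_exp_le (hA.smul s)
        _ = ‖A‖ := one_mul _) t ⟨ht, le_rfl⟩
  simp only [zero_smul, exp_zero, sub_zero] at h
  linarith [mul_comm t ‖A‖]

lemma norm_exp_sub_one_sub_le {A : E →L[ℝ] E} (hA : Skew A) :
    ‖exp A - 1 - A‖ ≤ ‖A‖ ^ 2 / 2 := by
  have h := image_norm_le_of_norm_deriv_right_le_deriv_boundary'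
    (f := fun t : ℝ => exp (t • A) - 1 - t • A)
    (f' := fun t => exp (t • A) * A - A) (a := 0) (b := 1)
    (B := fun t => ‖A‖ ^ 2 / 2 * t ^ 2) (B' := fun t => ‖A‖ ^ 2 * t)
    (by
      have : ∀ s, HasDerivAt (fun t : ℝ => exp (t • A) - 1 - t • A) (exp (s • A) * A - A) s := by
        intro s
        have h1 := ((hasDerivAt_exp_smul_const A s).sub_const 1).sub
          ((hasDerivAt_id s).smul_const A)
        exact h1.congr_deriv (by simp)
      exact fun s _ => (this s).continuousAt.continuousWithinAt)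
    (by
      intro s _
      have h1 := ((hasDerivAt_exp_smul_const A s).sub_const 1).sub
        ((hasDerivAt_id s).smul_const A)
      have h2 : HasDerivAt (fun t : ℝ => exp (t • A) - 1 - t • A) (exp (s • A) * A - A) s :=
        h1.congr_deriv (by simp)
      exact h2.hasDerivWithinAt)
    (by simp)
    (by fun_prop)
    (by
      intro s _
      have h1 := ((hasDerivAt_id s).pow 2).const_mul (‖A‖ ^ 2 / 2)
      refine (h1.congr_deriv ?_).hasDerivWithinAt
      simp
      ring)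
    (by
      intro s hs
      have h2 : exp (s • A) * A - A = (exp (s • A) - 1) * A := by
        rw [sub_mul, one_mul]
      rw [h2]
      calc ‖(exp (s • A) - 1) * A‖ ≤ ‖exp (s • A) - 1‖ * ‖A‖ := norm_mul_le _ _
        _ ≤ (s * ‖A‖) * ‖A‖ := by gcongr; exact norm_exp_sub_one_le hA hs.1
        _ = ‖A‖ ^ 2 * s := by ring) (x := 1) (by simp)
  simpa using h

/-- conjugation formula -/
lemma conj_formula {A B C : E →L[ℝ] E} (h1 : C * A - A * C = B) (h2 : C * B - B * C = -A)
    (ψ : ℝ) :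
    exp ((-ψ) • C) * A * exp (ψ • C) = Real.cos ψ • A - Real.sin ψ • B := by
  set M : ℝ → (E →L[ℝ] E) := fun ψ =>
    exp (ψ • C) * (Real.cos ψ • A - Real.sin ψ • B) * exp (ψ • (-C)) with hM
  have hd : ∀ s, HasDerivAt M 0 s := by
    intro s
    have e1 := hasDerivAt_exp_smul_const C s
    have e3 := hasDerivAt_exp_smul_const' (-C) s
    have e2 : HasDerivAt (fun ψ => Real.cos ψ • A - Real.sin ψ • B)
        ((-Real.sin s) • A - Real.cos s • B) s :=
      ((Real.hasDerivAt_cos s).smul_const A).sub ((Real.hasDerivAt_sin s).smul_const B)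
    have e4 := (e1.mul e2).mul e3
    refine e4.congr_deriv ?_
    have key : C * (Real.cos s • A - Real.sin s • B) + ((-Real.sin s) • A - Real.cos s • B)
        - (Real.cos s • A - Real.sin s • B) * C = 0 := by
      have : C * (Real.cos s • A - Real.sin s • B) - (Real.cos s • A - Real.sin s • B) * C
          = Real.cos s • (C * A - A * C) - Real.sin s • (C * B - B * C) := by
        simp only [mul_sub, sub_mul, mul_smul_comm, smul_mul_assoc, smul_sub]
        abel
      have h3 : C * (Real.cos s • A - Real.sin s • B) + ((-Real.sin s) • A - Real.cos s • B)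
        - (Real.cos s • A - Real.sin s • B) * C =
          (C * (Real.cos s • A - Real.sin s • B) - (Real.cos s • A - Real.sin s • B) * C) +
          ((-Real.sin s) • A - Real.cos s • B) := by abel
      rw [h3, this, h1, h2]
      simp only [smul_neg, neg_smul]
      abel
    have : (exp (s • C) * C * (Real.cos s • A - Real.sin s • B) +
        exp (s • C) * ((-Real.sin s) • A - Real.cos s • B)) * exp (s • (-C)) +
        exp (s • C) * (Real.cos s • A - Real.sin s • B) * (-C * exp (s • (-C))) =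
        exp (s • C) * (C * (Real.cos s • A - Real.sin s • B) +
          ((-Real.sin s) • A - Real.cos s • B)
          - (Real.cos s • A - Real.sin s • B) * C) * exp (s • (-C)) := by
      noncomm_ring
    refine Eq.trans ?_ (this.trans (by rw [key]; simp))
    rfl
  have hc : M ψ = M 0 := by
    apply is_const_of_deriv_eq_zero (fun s => (hd s).differentiableAt) (fun s => (hd s).deriv)
  have hM0 : M 0 = A := by simp [hM]
  rw [hM0] at hc
  have hinv : exp ((-ψ) • C) * exp (ψ • C) = 1 := by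
    rw [← exp_add_of_commute]
    · simp
    · exact (Commute.refl C).smul_left _ |>.smul_right _
  have hinv' : exp (ψ • (-C)) * exp (ψ • C) = 1 := by
    rw [show ψ • (-C) = (-ψ) • C by simp]; exact hinv
  calc exp ((-ψ) • C) * A * exp (ψ • C) = exp ((-ψ) • C) * (M ψ) * exp (ψ • C) := by rw [hc]
    _ = (exp ((-ψ) • C) * exp (ψ • C)) * (Real.cos ψ • A - Real.sin ψ • B) *
        (exp (ψ • (-C)) * exp (ψ • C)) := by
          simp only [hM, mul_assoc]
    _ = _ := by rw [hinv, hinv', one_mul, mul_one]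

/-- the composite rotation -/
noncomputable def rot (A C : E →L[ℝ] E) (p ψ : ℝ) : E →L[ℝ] E := exp (p • A) * exp (ψ • C)

lemma rot_mem {A C : E →L[ℝ] E} (hA : Skew A) (hC : Skew C) (p ψ : ℝ) :
    rot A C p ψ ∈ unitary (E →L[ℝ] E) :=
  mul_mem (exp_mem (hA.smul p)) (exp_mem (hC.smul ψ))

/-- the isometry given by the composite rotation -/
noncomputable def rotIso {A C : E →L[ℝ] E} (hA : Skew A) (hC : Skew C) (p ψ : ℝ) : E ≃ₗᵢ[ℝ] E :=
  Unitary.linearIsometryEquiv ⟨rot A C p ψ, rot_mem hA hC p ψ⟩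

lemma rotIso_apply {A C : E →L[ℝ] E} (hA : Skew A) (hC : Skew C) (p ψ : ℝ) (x : E) :
    rotIso hA hC p ψ x = rot A C p ψ x := rfl

lemma rotIso_zero {A C : E →L[ℝ] E} (hA : Skew A) (hC : Skew C) :
    rotIso hA hC 0 0 = LinearIsometryEquiv.refl ℝ E := by
  ext x
  rw [rotIso_apply]
  simp [rot]

lemma exp_mul_exp (C : E →L[ℝ] E) (a b : ℝ) : exp (a • C) * exp (b • C) = exp ((a + b) • C) := by
  rw [← exp_add_of_commute ((Commute.refl C).smul_left _ |>.smul_right _), add_smul]

lemma norm_prod_exp_le {X Y : E →L[ℝ] E} (hX : Skew X) (hY : Skew Y) :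
    ‖exp X * exp Y - 1 - X - Y‖ ≤ ‖X‖ ^ 2 + ‖Y‖ ^ 2 := by
  have h1 : exp X * exp Y - 1 - X - Y =
      (exp X - 1 - X) * exp Y + X * (exp Y - 1) + (exp Y - 1 - Y) := by noncomm_ring
  have h2 : ‖exp Y - 1‖ ≤ ‖Y‖ := by
    have := norm_exp_sub_one_le hY zero_le_one
    simpa using this
  rw [h1]
  calc _ ≤ ‖(exp X - 1 - X) * exp Y‖ + ‖X * (exp Y - 1)‖ + ‖exp Y - 1 - Y‖ := norm_add₃_le
    _ ≤ ‖exp X - 1 - X‖ * ‖exp Y‖ + ‖X‖ * ‖exp Y - 1‖ + ‖exp Y - 1 - Y‖ := by
        gcongr <;> exact norm_mul_le _ _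
    _ ≤ (‖X‖ ^ 2 / 2) * 1 + ‖X‖ * ‖Y‖ + ‖Y‖ ^ 2 / 2 := by
        gcongr
        · exact norm_exp_sub_one_sub_le hX
        · exact norm_exp_le hY
        · exact norm_exp_sub_one_sub_le hY
    _ ≤ _ := by nlinarith [sq_nonneg (‖X‖ - ‖Y‖)]

/-- second order expansion of the composite rotation -/
lemma rot_expansion {A B C : E →L[ℝ] E} (hA : Skew A) (hB : Skew B) (hC : Skew C)
    (nA : ‖A‖ ≤ 1) (nC : ‖C‖ ≤ 1)
    (h1 : C * A - A * C = B) (h2 : C * B - B * C = -A)
    (p p' ψ ψ' : ℝ) {x y : E} (hx : ‖x‖ = 1) (hy : ‖y‖ = 1) :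
    |inner ℝ (rot A C p ψ x) (rot A C p' ψ' y) - inner ℝ x y -
      ((ψ' - ψ) * inner ℝ x (C y) + (p' - p) * Real.cos ψ' * inner ℝ x (A y) -
        (p' - p) * Real.sin ψ' * inner ℝ x (B y))| ≤ (ψ' - ψ) ^ 2 + (p' - p) ^ 2 := by
  set X : E →L[ℝ] E := (ψ' - ψ) • C with hX
  set Y : E →L[ℝ] E := (p' - p) • (Real.cos ψ' • A - Real.sin ψ' • B) with hY
  have sX : Skew X := hC.smul _
  have sY : Skew Y := ((hA.smul _).sub (hB.smul _)).smul _
  have nX : ‖X‖ ≤ |ψ' - ψ| := by
    rw [hX, norm_smul, Real.norm_eq_abs]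
    nlinarith [abs_nonneg (ψ' - ψ)]
  have hconj := conj_formula h1 h2 ψ'
  have nY : ‖Y‖ ≤ |p' - p| := by
    rw [hY, ← hconj, norm_smul, Real.norm_eq_abs]
    have : ‖exp ((-ψ') • C) * A * exp (ψ' • C)‖ ≤ 1 := by
      calc _ ≤ ‖exp ((-ψ') • C)‖ * ‖A‖ * ‖exp (ψ' • C)‖ :=
            (norm_mul_le _ _).trans (mul_le_mul_of_nonneg_right (norm_mul_le _ _) (norm_nonneg _))
        _ ≤ 1 * 1 * 1 := by
            gcongr
            · exact norm_exp_le (hC.smul _)
            · exact norm_exp_le (hC.smul _)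
        _ = 1 := by norm_num
    nlinarith [abs_nonneg (p' - p)]
  -- the product
  have hY2 : exp ((-ψ') • C) * exp ((p' - p) • A) = exp Y * exp ((-ψ') • C) := by
    have hs : SemiconjBy (exp ((-ψ') • C)) ((p' - p) • A) Y := by
      unfold SemiconjBy
      have h3 : exp ((-ψ') • C) * A = (Real.cos ψ' • A - Real.sin ψ' • B) * exp ((-ψ') • C) := by
        rw [← hconj, mul_assoc, mul_assoc, exp_mul_exp]
        simp
      rw [hY, mul_smul_comm, smul_mul_assoc, h3]
    exact hs.exp_right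
  have hprod : star (rot A C p ψ) * rot A C p' ψ' = exp X * exp Y := by
    have hstar : star (rot A C p ψ) = exp ((-ψ) • C) * exp ((-p) • A) := by
      unfold rot
      rw [star_mul, star_exp, star_exp, skewAdjoint.mem_iff.1 (hC.smul ψ).mem,
        skewAdjoint.mem_iff.1 (hA.smul p).mem, neg_smul, neg_smul]
    rw [hstar]
    unfold rot
    calc exp ((-ψ) • C) * exp ((-p) • A) * (exp (p' • A) * exp (ψ' • C))
        = exp ((-ψ) • C) * (exp ((-p) • A) * exp (p' • A)) * exp (ψ' • C) := by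
          simp only [mul_assoc]
      _ = exp ((-ψ) • C) * exp ((p' - p) • A) * exp (ψ' • C) := by
          rw [exp_mul_exp, show -p + p' = p' - p by ring]
      _ = exp ((ψ' - ψ) • C) * (exp ((-ψ') • C) * exp ((p' - p) • A)) * exp (ψ' • C) := by
          rw [← mul_assoc (exp ((ψ' - ψ) • C)), exp_mul_exp, show ψ' - ψ + -ψ' = -ψ by ring]
      _ = exp X * exp Y * (exp ((-ψ') • C) * exp (ψ' • C)) := by
          rw [hY2, hX]; simp only [mul_assoc]
      _ = _ := by rw [exp_mul_exp]; simp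
  have hin : inner ℝ (rot A C p ψ x) (rot A C p' ψ' y) = inner ℝ x ((exp X * exp Y) y) := by
    rw [← hprod, ContinuousLinearMap.mul_apply, ContinuousLinearMap.star_eq_adjoint,
      ContinuousLinearMap.adjoint_inner_right]
  have hlin : (ψ' - ψ) * inner ℝ x (C y) + (p' - p) * Real.cos ψ' * inner ℝ x (A y) -
        (p' - p) * Real.sin ψ' * inner ℝ x (B y) = inner ℝ x (X y) + inner ℝ x (Y y) := by
    simp only [hX, hY, ContinuousLinearMap.smul_apply, ContinuousLinearMap.sub_apply,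
      inner_smul_right, inner_sub_right]
    ring
  rw [hin, hlin]
  have : inner ℝ x ((exp X * exp Y) y) - inner ℝ x y - (inner ℝ x (X y) + inner ℝ x (Y y)) =
      inner ℝ x ((exp X * exp Y - 1 - X - Y) y) := by
    simp only [ContinuousLinearMap.sub_apply, inner_sub_right, ContinuousLinearMap.one_apply]
    ring
  rw [this]
  calc |inner ℝ x ((exp X * exp Y - 1 - X - Y) y)| ≤
        ‖x‖ * ‖(exp X * exp Y - 1 - X - Y) y‖ := abs_real_inner_le_norm _ _
    _ ≤ ‖x‖ * (‖exp X * exp Y - 1 - X - Y‖ * ‖y‖) := by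
        gcongr; exact ContinuousLinearMap.le_opNorm _ _
    _ = ‖exp X * exp Y - 1 - X - Y‖ := by rw [hx, hy]; ring
    _ ≤ ‖X‖ ^ 2 + ‖Y‖ ^ 2 := norm_prod_exp_le sX sY
    _ ≤ |ψ' - ψ| ^ 2 + |p' - p| ^ 2 := by gcongr
    _ = _ := by rw [sq_abs, sq_abs]

end Crest.Agent.R167.Mom
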