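import Crest.Agent.R167.MomA
import Crest.Agent.R167.Sph
import Crest.Agent.R167.PCalc

/-!
# Row 167 (S0253), node MOM, part B: coordinate rotations, exponential moments (M2)
-/

set_option autoImplicit false
open NormedSpace MeasureTheory Crest.ProbabilityR.SpinModel

namespace Crest.Agent.R167.Mom

variable {n : ℕ}

/-- the generator `L_{kl}` -/
noncomputable def Lop (k l : Fin n) :
    EuclideanSpace ℝ (Fin n) →L[ℝ] EuclideanSpace ℝ (Fin n) :=
  LinearMap.toContinuousLinearMap
    { toFun := fun x => x k • EuclideanSpace.single l (1:ℝ) - x l • EuclideanSpace.single k (1:ℝ)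
      map_add' := by
        intro x y
        simp only [PiLp.add_apply, add_smul]
        abel
      map_smul' := by
        intro c x
        simp only [PiLp.smul_apply, smul_eq_mul, mul_smul, RingHom.id_apply, smul_sub] }

lemma Lop_apply (k l : Fin n) (x : EuclideanSpace ℝ (Fin n)) :
    Lop k l x = x k • EuclideanSpace.single l (1:ℝ) - x l • EuclideanSpace.single k (1:ℝ) := rfl

lemma inner_Lop (k l : Fin n) (x y : EuclideanSpace ℝ (Fin n)) :
    inner ℝ x (Lop k l y) = cur k l x y := by
  rw [Lop_apply, inner_sub_right, inner_smul_right, inner_smul_right,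
    EuclideanSpace.inner_single_right, EuclideanSpace.inner_single_right, cur]
  simp
  ring

lemma skew_Lop (k l : Fin n) : Skew (Lop k l) := by
  intro x y
  rw [real_inner_comm, inner_Lop, inner_Lop, cur, cur]
  ring

lemma norm_Lop_le {k l : Fin n} (h : k ≠ l) : ‖Lop k l‖ ≤ 1 := by
  refine ContinuousLinearMap.opNorm_le_bound _ zero_le_one fun x => ?_
  rw [one_mul]
  refine abs_le_of_sq_le_sq' ?_ (norm_nonneg _) |>.2
  have h1 : ‖Lop k l x‖ ^ 2 = x k ^ 2 + x l ^ 2 := by
    rw [← real_inner_self_eq_norm_sq, inner_Lop, cur, Lop_apply]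
    simp [h, h.symm]
    ring
  rw [h1, EuclideanSpace.norm_sq_eq]
  have h2 := Finset.add_sum_erase (Finset.univ) (fun i => ‖x i‖ ^ 2) (Finset.mem_univ k)
  have h3 := Finset.add_sum_erase (Finset.univ.erase k) (fun i => ‖x i‖ ^ 2)
    (Finset.mem_erase.2 ⟨h.symm, Finset.mem_univ l⟩)
  have h4 : 0 ≤ ∑ i ∈ (Finset.univ.erase k).erase l, ‖x i‖ ^ 2 :=
    Finset.sum_nonneg fun i _ => by positivity
  simp only [Real.norm_eq_abs, sq_abs] at h2 h3 h4 ⊢
  linarith

lemma Lop_comm_A {k l m : Fin n} (hkl : k ≠ l) (hlm : l ≠ m) (hmk : m ≠ k) :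
    Lop k l * Lop l m - Lop l m * Lop k l = Lop m k := by
  ext x i
  simp only [ContinuousLinearMap.sub_apply, ContinuousLinearMap.mul_apply, Lop_apply,
    PiLp.sub_apply, PiLp.smul_apply, smul_eq_mul, PiLp.single_apply]
  simp only [hkl, hkl.symm, hlm, hlm.symm, hmk, hmk.symm, if_true, if_false]
  split_ifs <;> simp_all

lemma Lop_comm_B {k l m : Fin n} (hkl : k ≠ l) (hlm : l ≠ m) (hmk : m ≠ k) :
    Lop k l * Lop m k - Lop m k * Lop k l = -Lop l m := by
  ext x i
  simp only [ContinuousLinearMap.sub_apply, ContinuousLinearMap.mul_apply, Lop_apply,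
    PiLp.sub_apply, PiLp.smul_apply, smul_eq_mul, PiLp.single_apply,
    ContinuousLinearMap.neg_apply, PiLp.neg_apply]
  simp only [hkl, hkl.symm, hlm, hlm.symm, hmk, hmk.symm, if_true, if_false]
  split_ifs <;> simp_all

end Crest.Agent.R167.Mom
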