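import Crest.Agent.R167.MomB

/-!
# Row 167 (S0253), node MOM, part C: (M2), (M3), (M4)
-/

set_option autoImplicit false
open NormedSpace MeasureTheory Crest.ProbabilityR.SpinModel

namespace Crest.Agent.R167.Mom

variable {ι E : Type} [Fintype ι] [Fintype E] {n : ℕ}

lemma measurable_glue_right (A : Set ι) (τ : Cf ι n) : Measurable fun s' : Cf ι n => glue A τ s' := by
  classical
  refine measurable_pi_lambda _ fun v => ?_
  unfold glue
  by_cases h : v ∈ A
  · simp only [h, if_true]; exact measurable_const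
  · simp only [h, if_false]; exact measurable_pi_apply v

/-- the partition function is positive -/
lemma Z_pos [NeZero n] (G : Gr ι E) (A : Set ι) (τ : Cf ι n) :
    0 < ∫ s', Real.exp (G.I (glue A τ s')) ∂(nu ι n) := by
  have h1 : Continuous fun s' : Cf ι n => Real.exp (G.I (glue A τ s')) := by
    refine Real.continuous_exp.comp ((continuous_I G).comp ?_)
    classical
    refine continuous_pi fun v => ?_
    unfold glue
    by_cases h : v ∈ A
    · simp only [h, if_true]; exact continuous_const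
    · simp only [h, if_false]; exact continuous_apply v
  have hint : Integrable (fun s' : Cf ι n => Real.exp (G.I (glue A τ s'))) (nu ι n) := by
    obtain ⟨M, hM⟩ := (isCompact_range h1).isBounded.exists_norm_le
    exact Integrable.of_bound h1.aestronglyMeasurable M
      (Filter.Eventually.of_forall fun s => hM _ ⟨s, rfl⟩)
  exact integral_exp_pos hint

/-- `E e^{I∘g - I} = 1`. -/
theorem expI_one [NeZero n] (G : Gr ι E) {F0 : Set ι}
    (g : ι → (EuclideanSpace ℝ (Fin n) ≃ₗᵢ[ℝ] EuclideanSpace ℝ (Fin n)))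
    (hg : ∀ v ∈ F0, g v = LinearIsometryEquiv.refl ℝ _) (τ : Cf ι n) :
    P G F0 (fun s => Real.exp (G.I (fun v => isoS (g v) (s v)) - G.I s)) τ = 1 := by
  have hmp : MeasurePreserving (fun (s : Cf ι n) v => isoS (g v) (s v)) (nu ι n) (nu ι n) :=
    measurePreserving_pi _ _ fun v => mp_isoS (g v)
  unfold P
  have hZ := Z_pos G F0 τ
  rw [div_eq_one_iff_eq hZ.ne']
  have h1 : ∀ s' : Cf ι n, Real.exp (G.I (fun v => isoS (g v) (glue F0 τ s' v)) -
      G.I (glue F0 τ s')) * Real.exp (G.I (glue F0 τ s')) =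
      (fun s' => Real.exp (G.I (glue F0 τ s'))) ((fun (s : Cf ι n) v => isoS (g v) (s v)) s') := by
    intro s'
    rw [← Real.exp_add, sub_add_cancel]
    congr 2
    funext v
    unfold glue
    by_cases h : v ∈ F0
    · simp only [h, if_true]
      rw [hg v h]
      ext
      simp [isoS]
    · simp only [h, if_false]
  simp only [h1]
  have hmeas : AEStronglyMeasurable (fun s' : Cf ι n => Real.exp (G.I (glue F0 τ s')))
      (Measure.map (fun (s : Cf ι n) v => isoS (g v) (s v)) (nu ι n)) := by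
    have : Measurable (fun s' : Cf ι n => Real.exp (G.I (glue F0 τ s'))) :=
      Real.measurable_exp.comp ((continuous_I G).measurable.comp (measurable_glue_right F0 τ))
    exact this.aestronglyMeasurable
  rw [← integral_map hmp.measurable.aemeasurable hmeas, hmp.map_eq]

/-- edge error -/
lemma En_nonneg (G : Gr ι E) (hb : ∀ e, 0 ≤ G.b e) (f : ι → ℝ) : 0 ≤ G.En f :=
  Finset.sum_nonneg fun e _ => mul_nonneg (hb e) (sq_nonneg _)

lemma En_neg (G : Gr ι E) (f : ι → ℝ) : G.En (fun v => - f v) = G.En f := by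
  unfold Gr.En
  exact Finset.sum_congr rfl fun e _ => by ring

/-- the bracket -/
noncomputable def Br (G : Gr ι E) (A B C : EuclideanSpace ℝ (Fin n) →L[ℝ] EuclideanSpace ℝ (Fin n))
    (p ψ : ι → ℝ) (s : Cf ι n) : ℝ :=
  ∑ e, G.b e * ((ψ (G.tgt e) - ψ (G.src e)) *
      inner ℝ (s (G.src e) : EuclideanSpace ℝ (Fin n)) (C (s (G.tgt e))) +
    (p (G.tgt e) - p (G.src e)) * Real.cos (ψ (G.tgt e)) *
      inner ℝ (s (G.src e) : EuclideanSpace ℝ (Fin n)) (A (s (G.tgt e))) -
    (p (G.tgt e) - p (G.src e)) * Real.sin (ψ (G.tgt e)) *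
      inner ℝ (s (G.src e) : EuclideanSpace ℝ (Fin n)) (B (s (G.tgt e))))

/-- the sine term -/
noncomputable def KB (G : Gr ι E) (B : EuclideanSpace ℝ (Fin n) →L[ℝ] EuclideanSpace ℝ (Fin n))
    (p ψ : ι → ℝ) (s : Cf ι n) : ℝ :=
  ∑ e, G.b e * ((p (G.tgt e) - p (G.src e)) * Real.sin (ψ (G.tgt e)) *
      inner ℝ (s (G.src e) : EuclideanSpace ℝ (Fin n)) (B (s (G.tgt e))))

lemma continuous_spin (v : ι) : Continuous fun s : Cf ι n => (s v : EuclideanSpace ℝ (Fin n)) :=
  continuous_subtype_val.comp (continuous_apply v)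

lemma continuous_Br (G : Gr ι E)
    (A B C : EuclideanSpace ℝ (Fin n) →L[ℝ] EuclideanSpace ℝ (Fin n)) (p ψ : ι → ℝ) :
    Continuous (Br G A B C p ψ) := by
  unfold Br
  refine continuous_finset_sum _ fun e _ => ?_
  have h1 := continuous_spin (n := n) (G.src e)
  have h2 := continuous_spin (n := n) (G.tgt e)
  have h3 : ∀ D : EuclideanSpace ℝ (Fin n) →L[ℝ] EuclideanSpace ℝ (Fin n),
      Continuous fun s : Cf ι n => inner ℝ (s (G.src e) : EuclideanSpace ℝ (Fin n))
        (D (s (G.tgt e))) := fun D => h1.inner (D.continuous.comp h2)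
  exact continuous_const.mul (((continuous_const.mul (h3 C)).add
    (continuous_const.mul (h3 A))).sub (continuous_const.mul (h3 B)))

lemma continuous_KB (G : Gr ι E)
    (B : EuclideanSpace ℝ (Fin n) →L[ℝ] EuclideanSpace ℝ (Fin n)) (p ψ : ι → ℝ) :
    Continuous (KB G B p ψ) := by
  unfold KB
  refine continuous_finset_sum _ fun e _ => ?_
  have h1 := continuous_spin (n := n) (G.src e)
  have h2 := continuous_spin (n := n) (G.tgt e)
  exact continuous_const.mul (continuous_const.mul (h1.inner (B.continuous.comp h2)))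

variable {A B C : EuclideanSpace ℝ (Fin n) →L[ℝ] EuclideanSpace ℝ (Fin n)}

lemma KB_eq (G : Gr ι E) (p ψ : ι → ℝ) (s : Cf ι n) :
    KB G B p ψ s = (Br G A B C (fun v => - p v) ψ s + Br G A B C p (fun v => - ψ v) s) / 2 := by
  unfold KB Br
  rw [← Finset.sum_add_distrib, Finset.sum_div]
  refine Finset.sum_congr rfl fun e _ => ?_
  rw [Real.cos_neg, Real.sin_neg]
  ring

/-- the lower bound for `I∘g - I`. -/
lemma I_rot_ge (G : Gr ι E) (hb : ∀ e, 0 ≤ G.b e) (hA : Skew A) (hB : Skew B) (hC : Skew C)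
    (nA : ‖A‖ ≤ 1) (nC : ‖C‖ ≤ 1) (h1 : C * A - A * C = B) (h2 : C * B - B * C = -A)
    (p ψ : ι → ℝ) (s : Cf ι n) :
    Br G A B C p ψ s - (G.En p + G.En ψ) ≤
      G.I (fun v => isoS (rotIso hA hC (p v) (ψ v)) (s v)) - G.I s := by
  unfold Br Gr.En Gr.I
  rw [← Finset.sum_add_distrib, ← Finset.sum_sub_distrib, ← Finset.sum_sub_distrib]
  refine Finset.sum_le_sum fun e _ => ?_
  have hx : ‖(s (G.src e) : EuclideanSpace ℝ (Fin n))‖ = 1 := by simp
  have hy : ‖(s (G.tgt e) : EuclideanSpace ℝ (Fin n))‖ = 1 := by simp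
  have h := rot_expansion hA hB hC nA nC h1 h2 (p (G.src e)) (p (G.tgt e)) (ψ (G.src e))
    (ψ (G.tgt e)) hx hy
  have h' := (abs_le.1 h).1
  have hbe := hb e
  have e1 : inner ℝ ((isoS (rotIso hA hC (p (G.src e)) (ψ (G.src e))) (s (G.src e)) :
      Sp n) : EuclideanSpace ℝ (Fin n))
      ((isoS (rotIso hA hC (p (G.tgt e)) (ψ (G.tgt e))) (s (G.tgt e)) : Sp n) :
      EuclideanSpace ℝ (Fin n)) =
      inner ℝ (rot A C (p (G.src e)) (ψ (G.src e)) (s (G.src e)))
        (rot A C (p (G.tgt e)) (ψ (G.tgt e)) (s (G.tgt e))) := rfl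
  rw [e1]
  nlinarith [mul_le_mul_of_nonneg_left h' hbe]

/-- `E exp(bracket) ≤ exp(En p + En ψ)` -/
lemma E_exp_Br [NeZero n] (G : Gr ι E) (hb : ∀ e, 0 ≤ G.b e) (hA : Skew A) (hB : Skew B)
    (hC : Skew C) (nA : ‖A‖ ≤ 1) (nC : ‖C‖ ≤ 1) (h1 : C * A - A * C = B)
    (h2 : C * B - B * C = -A) {F0 : Set ι} {p ψ : ι → ℝ} (hp : ∀ v ∈ F0, p v = 0)
    (hψ : ∀ v ∈ F0, ψ v = 0) (τ : Cf ι n) :
    P G F0 (fun s => Real.exp (Br G A B C p ψ s)) τ ≤ Real.exp (G.En p + G.En ψ) := by
  have hg : ∀ v ∈ F0, rotIso hA hC (p v) (ψ v) = LinearIsometryEquiv.refl ℝ _ := by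
    intro v hv
    rw [hp v hv, hψ v hv, rotIso_zero]
  have h3 := expI_one G (fun v => rotIso hA hC (p v) (ψ v)) hg τ
  have hcont : Continuous fun s : Cf ι n =>
      Real.exp (G.I (fun v => isoS (rotIso hA hC (p v) (ψ v)) (s v)) - G.I s) := by
    refine Real.continuous_exp.comp (Continuous.sub ((continuous_I G).comp ?_) (continuous_I G))
    refine continuous_pi fun v => ?_
    refine Continuous.subtype_mk ?_ _
    exact (rotIso hA hC (p v) (ψ v)).continuous.comp (continuous_spin v)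
  calc P G F0 (fun s => Real.exp (Br G A B C p ψ s)) τ
      ≤ P G F0 (fun s => Real.exp (G.En p + G.En ψ) *
        Real.exp (G.I (fun v => isoS (rotIso hA hC (p v) (ψ v)) (s v)) - G.I s)) τ := by
        refine P_mono G (Real.continuous_exp.comp (continuous_Br G A B C p ψ))
          (continuous_const.mul hcont) (fun s => ?_) τ
        show Real.exp (Br G A B C p ψ s) ≤ Real.exp (G.En p + G.En ψ) *
          Real.exp (G.I (fun v => isoS (rotIso hA hC (p v) (ψ v)) (s v)) - G.I s)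
        rw [← Real.exp_add]
        apply Real.exp_le_exp.2
        have := I_rot_ge G hb hA hB hC nA nC h1 h2 p ψ s
        linarith
    _ = Real.exp (G.En p + G.En ψ) := by rw [P_const_mul, h3, mul_one]

/-- (M2) -/
lemma E_exp_KB [NeZero n] (G : Gr ι E) (hb : ∀ e, 0 ≤ G.b e) (hA : Skew A) (hB : Skew B)
    (hC : Skew C) (nA : ‖A‖ ≤ 1) (nC : ‖C‖ ≤ 1) (h1 : C * A - A * C = B)
    (h2 : C * B - B * C = -A) {F0 : Set ι} {p ψ : ι → ℝ} (hp : ∀ v ∈ F0, p v = 0)
    (hψ : ∀ v ∈ F0, ψ v = 0) (τ : Cf ι n) :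
    P G F0 (fun s => Real.exp (KB G B p ψ s)) τ ≤ Real.exp (G.En p + G.En ψ) := by
  have h3 := E_exp_Br G hb hA hB hC nA nC h1 h2 (F0 := F0) (p := fun v => - p v) (ψ := ψ)
    (fun v hv => by simp [hp v hv]) hψ τ
  have h4 := E_exp_Br G hb hA hB hC nA nC h1 h2 (F0 := F0) (p := p) (ψ := fun v => - ψ v)
    hp (fun v hv => by simp [hψ v hv]) τ
  rw [En_neg] at h3 h4
  have c1 : Continuous fun s => Real.exp (Br G A B C (fun v => - p v) ψ s) :=
    Real.continuous_exp.comp (continuous_Br G A B C _ _)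
  have c2 : Continuous fun s => Real.exp (Br G A B C p (fun v => - ψ v) s) :=
    Real.continuous_exp.comp (continuous_Br G A B C _ _)
  calc P G F0 (fun s => Real.exp (KB G B p ψ s)) τ
      ≤ P G F0 (fun s => (1 / 2) * (Real.exp (Br G A B C (fun v => - p v) ψ s) +
          Real.exp (Br G A B C p (fun v => - ψ v) s))) τ := by
        refine P_mono G (Real.continuous_exp.comp (continuous_KB G B p ψ))
          (continuous_const.mul (c1.add c2)) (fun s => ?_) τ
        show Real.exp (KB G B p ψ s) ≤ (1 / 2) * (Real.exp (Br G A B C (fun v => - p v) ψ s) +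
          Real.exp (Br G A B C p (fun v => - ψ v) s))
        rw [KB_eq (A := A) (C := C)]
        set u := Br G A B C (fun v => - p v) ψ s
        set w := Br G A B C p (fun v => - ψ v) s
        have e1 : Real.exp ((u + w) / 2) = Real.exp (u / 2) * Real.exp (w / 2) := by
          rw [← Real.exp_add]; congr 1; ring
        have e2 : Real.exp u = Real.exp (u / 2) ^ 2 := by
          rw [← Real.exp_nat_mul]; congr 1; push_cast; ring
        have e3 : Real.exp w = Real.exp (w / 2) ^ 2 := by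
          rw [← Real.exp_nat_mul]; congr 1; push_cast; ring
        rw [e1, e2, e3]
        nlinarith [sq_nonneg (Real.exp (u / 2) - Real.exp (w / 2))]
    _ = (1 / 2) * (P G F0 (fun s => Real.exp (Br G A B C (fun v => - p v) ψ s)) τ +
          P G F0 (fun s => Real.exp (Br G A B C p (fun v => - ψ v) s)) τ) := by
        rw [P_const_mul, P_add G c1 c2]
    _ ≤ _ := by linarith

lemma KB_neg (G : Gr ι E) (p ψ : ι → ℝ) (s : Cf ι n) :
    KB G B (fun v => - p v) ψ s = - KB G B p ψ s := by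
  unfold KB
  rw [← Finset.sum_neg_distrib]
  exact Finset.sum_congr rfl fun e _ => by ring

lemma sq_le_exp_of_nonneg {x : ℝ} (hx : 0 ≤ x) : x ^ 2 ≤ Real.exp x := by
  have h := Real.quadratic_le_exp_of_nonneg (x := x / 2) (by positivity)
  have e2 : Real.exp x = Real.exp (x / 2) ^ 2 := by
    rw [← Real.exp_nat_mul]; congr 1; push_cast; ring
  rw [e2]
  have h2 : x ≤ Real.exp (x / 2) := by nlinarith [sq_nonneg (x - 2)]
  exact pow_le_pow_left₀ hx h2 2

lemma sq_le_exp_add (x : ℝ) : x ^ 2 ≤ Real.exp x + Real.exp (-x) := by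
  rcases le_total 0 x with h | h
  · linarith [sq_le_exp_of_nonneg h, Real.exp_pos (-x)]
  · have h2 := sq_le_exp_of_nonneg (x := -x) (by linarith)
    rw [neg_sq] at h2
    linarith [Real.exp_pos x]

/-- second moment of the sine term -/
lemma E_sq_KB [NeZero n] (G : Gr ι E) (hb : ∀ e, 0 ≤ G.b e) (hA : Skew A) (hB : Skew B)
    (hC : Skew C) (nA : ‖A‖ ≤ 1) (nC : ‖C‖ ≤ 1) (h1 : C * A - A * C = B)
    (h2 : C * B - B * C = -A) {F0 : Set ι} {p ψ : ι → ℝ} (hp : ∀ v ∈ F0, p v = 0)
    (hψ : ∀ v ∈ F0, ψ v = 0) (τ : Cf ι n) :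
    P G F0 (fun s => KB G B p ψ s ^ 2) τ ≤ 2 * Real.exp (G.En p + G.En ψ) := by
  have h3 := E_exp_KB G hb hA hB hC nA nC h1 h2 (F0 := F0) (p := p) (ψ := ψ) hp hψ τ
  have h4 := E_exp_KB G hb hA hB hC nA nC h1 h2 (F0 := F0) (p := fun v => - p v) (ψ := ψ)
    (fun v hv => by simp [hp v hv]) hψ τ
  rw [En_neg] at h4
  have c0 := continuous_KB G B p ψ
  have c1 : Continuous fun s => Real.exp (KB G B p ψ s) := Real.continuous_exp.comp c0
  have c2 : Continuous fun s => Real.exp (KB G B (fun v => - p v) ψ s) :=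
    Real.continuous_exp.comp (continuous_KB G B _ ψ)
  calc P G F0 (fun s => KB G B p ψ s ^ 2) τ
      ≤ P G F0 (fun s => Real.exp (KB G B p ψ s) + Real.exp (KB G B (fun v => - p v) ψ s)) τ := by
        refine P_mono G (c0.pow 2) (c1.add c2) (fun s => ?_) τ
        show KB G B p ψ s ^ 2 ≤ Real.exp (KB G B p ψ s) + Real.exp (KB G B (fun v => - p v) ψ s)
        rw [KB_neg]
        exact sq_le_exp_add _
    _ = _ := P_add G c1 c2 τ
    _ ≤ _ := by linarith

end Crest.Agent.R167.Mom
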