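import Crest.Agent.R167.WardP

set_option autoImplicit false
open MeasureTheory Crest.ProbabilityR.SpinModel

/-! # Row 167, node WARD: calculus of `DX`, the Ward identity -/

namespace Crest.Agent.R167

variable {ι E : Type} [Fintype ι] [Fintype E] {n : ℕ}

section Ward
variable (G : Gr ι E) {k l : Fin n} {h : k ≠ l} {f : ι → ℝ} {F F' H H' : Cf ι n → ℝ}

theorem DX.add (a : DX h f F F') (c : DX h f H H') :
    DX h f (fun s => F s + H s) (fun s => F' s + H' s) where
  cont := a.cont.add c.cont
  cont' := a.cont'.add c.cont'
  deriv := fun s => (a.deriv s).add (c.deriv s)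

theorem DX.sub (a : DX h f F F') (c : DX h f H H') :
    DX h f (fun s => F s - H s) (fun s => F' s - H' s) where
  cont := a.cont.sub c.cont
  cont' := a.cont'.sub c.cont'
  deriv := fun s => (a.deriv s).sub (c.deriv s)

theorem DX.mul (a : DX h f F F') (c : DX h f H H') :
    DX h f (fun s => F s * H s) (fun s => F' s * H s + F s * H' s) := wardP_mul a c

theorem DX.const_mul (c : ℝ) (a : DX h f F F') :
    DX h f (fun s => c * F s) (fun s => c * F' s) where
  cont := a.cont.const_mul c
  cont' := a.cont'.const_mul c
  deriv := fun s => (a.deriv s).const_mul c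

theorem DX.const (h : k ≠ l) (f : ι → ℝ) (c : ℝ) :
    DX (n := n) h f (fun _ => c) (fun _ => 0) where
  cont := continuous_const
  cont' := continuous_const
  deriv := fun _ => hasDerivAt_const _ _

theorem DX.unique (a : DX h f F F') (c : DX h f F H') : F' = H' :=
  funext fun s => (a.deriv s).unique (c.deriv s)

theorem DX.deriv_at (a : DX h f F F') (s : Cf ι n) (t : ℝ) :
    HasDerivAt (fun t => F (Flow h f t s)) (F' (Flow h f t s)) t := wardP_deriv_at a s t

/-- a function invariant under the flow has derivative `0`. -/
theorem DX.of_inv (hF : Continuous F) (hinv : ∀ t s, F (Flow h f t s) = F s) :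
    DX h f F (fun _ => 0) where
  cont := hF
  cont' := continuous_const
  deriv := fun s => by
    simp only [hinv]
    exact hasDerivAt_const _ _

/-- the flow does not move the spins of `A` if `f` vanishes on `A`. -/
lemma Flow_eq_of_zero (h : k ≠ l) {A : Set ι} (hf : ∀ v ∈ A, f v = 0) (t : ℝ) (s : Cf ι n)
    {v : ι} (hv : v ∈ A) : Flow h f t s v = s v := by
  simp only [Flow, hf v hv, mul_zero]
  exact rotS_zero h (s v)

/-- Ward identity. -/
theorem ward [NeZero n] {A : Set ι} (hf : ∀ v ∈ A, f v = 0) (a : DX h f F F') (s : Cf ι n) :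
    P G A (fun s => F' s + F s * XI G k l f s) s = 0 := by
  have hw := DX_exp_I (n := n) G h f
  have hN := wardP_mul a hw
  have dN := hasDerivAt_integral_Flow A s hN
  have hg : ∀ (t : ℝ) (s' : Cf ι n), glue A (Flow h f t s) s' = glue A s s' := by
    intro t s'
    funext v
    by_cases hv : v ∈ A
    · simp only [glue_mem hv]; exact Flow_eq_of_zero h hf t s hv
    · simp only [glue_not_mem hv]
  have hconst : (fun t => ∫ s', F (Flow h f t (glue A s s')) *
      Real.exp (G.I (Flow h f t (glue A s s'))) ∂(nu ι n)) = fun _ =>
      ∫ s', F (glue A s s') * Real.exp (G.I (glue A s s')) ∂(nu ι n) := by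
    funext t
    rw [← integral_glue_Flow A t s hN.cont]
    simp only [hg]
  have h0 : (∫ s', (F' (glue A s s') * Real.exp (G.I (glue A s s')) + F (glue A s s') *
      (XI G k l f (glue A s s') * Real.exp (G.I (glue A s s')))) ∂(nu ι n)) = 0 := by
    have h1 := dN.unique (by rw [hconst]; exact hasDerivAt_const _ _)
    exact h1
  unfold P
  have e1 : (∫ s', (F' (glue A s s') + F (glue A s s') * XI G k l f (glue A s s')) *
          Real.exp (G.I (glue A s s')) ∂(nu ι n)) = 0 := by
    rw [← h0]
    refine integral_congr_ae (Filter.Eventually.of_forall fun s' => ?_)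
    simp only; ring
  rw [e1, zero_div]

theorem ward_inv [NeZero n] {A : Set ι} (hf : ∀ v ∈ A, f v = 0) (hF : Continuous F)
    (hinv : ∀ t s, F (Flow h f t s) = F s) (s : Cf ι n) :
    P G A (fun s => F s * XI G k l f s) s = 0 := by
  have h1 := ward G hf (DX.of_inv hF hinv) s
  simpa only [zero_add] using h1

/-- the derivative of a function of the spins in `S` depends only on these spins. -/
theorem DX.dep {S : Set ι} (a : DX h f F F') (hd : Dep S F) : Dep S F' := by
  intro s t hst
  have h1 : (fun u => F (Flow h f u s)) = fun u => F (Flow h f u t) := by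
    funext u
    refine hd _ _ fun v hv => ?_
    simp only [Flow, hst v hv]
  have h2 := a.deriv s
  rw [h1] at h2
  exact h2.unique (a.deriv t)

end Ward

end Crest.Agent.R167
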