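import Crest.Agent.R167.Iface
import Crest.Agent.R167.Ward

set_option autoImplicit false
open MeasureTheory Crest.ProbabilityR.SpinModel

/-! # Row 167, node ODD: the smallness of the torque gives the contraction of odd functions

Author: helper206 (proof by helper867). For `u` continuous, odd and depending only on the spins in
`B_R`, the function `U(s) = ∫_0^π u(Φ_t s) dt` has derivative `u ∘ Φ_π - u = -2 u` along the flow,
so the Ward identity gives `2 E u = E (U · X_f I) = E (U · P_S X_f I)`. -/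

namespace Crest.Agent.R167

set_option linter.unusedSectionVars false
set_option linter.style.haveILetI false
set_option maxHeartbeats 200000

variable {ι E : Type} [Fintype ι] [Fintype E] {n : ℕ}

theorem Odd.phi_eq_one {R : ℕ} (hR : 1 ≤ R) {t : ℤ} (ht : |t| ≤ R) : phi R t = 1 := by
  have hR' : (0 : ℝ) < R := by exact_mod_cast hR
  have h1 : |(t : ℝ)| ≤ R := by exact_mod_cast ht
  have h2 : |(t : ℝ)| / R ≤ 1 := by rw [div_le_one hR']; exact h1
  unfold phi
  rw [min_eq_left (by linarith), max_eq_right zero_le_one]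

theorem Odd.phi_eq_zero {R : ℕ} (hR : 1 ≤ R) {t : ℤ} (ht : ((4 * R : ℕ) : ℤ) < |t|) :
    phi R t = 0 := by
  have hR' : (0 : ℝ) < R := by exact_mod_cast hR
  have h0 : ((4 * R : ℕ) : ℤ) ≤ |t| := ht.le
  have h1 : 4 * (R : ℝ) ≤ |(t : ℝ)| := by exact_mod_cast h0
  have h2 : 4 ≤ |(t : ℝ)| / R := by rw [le_div_iff₀ hR']; exact h1
  unfold phi
  rw [min_eq_right (by linarith), max_eq_left (by linarith)]

theorem Odd.cut_eq_one {V : Finset (ℤ × ℤ)} {x : ℤ × ℤ} {R : ℕ} (hR : 1 ≤ R) {v : V}
    (hv : v ∈ bx V x R) : rs V (cut x R) v = 1 := by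
  obtain ⟨h1, h2⟩ := hv
  simp only [rs, cut]
  rw [Odd.phi_eq_one hR h1, Odd.phi_eq_one hR h2, one_mul]

theorem Odd.cut_eq_zero {V : Finset (ℤ × ℤ)} {x : ℤ × ℤ} {R : ℕ} (hR : 1 ≤ R) {v : V}
    (hv : v ∈ (bx V x (4 * R))ᶜ) : rs V (cut x R) v = 0 := by
  have hv' : ¬(|(v : ℤ × ℤ).1 - x.1| ≤ ((4 * R : ℕ) : ℤ) ∧
      |(v : ℤ × ℤ).2 - x.2| ≤ ((4 * R : ℕ) : ℤ)) := hv
  simp only [rs, cut]
  rw [not_and_or] at hv'
  rcases hv' with h | h
  · rw [Odd.phi_eq_zero hR (lt_of_not_ge h), zero_mul]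
  · rw [Odd.phi_eq_zero hR (lt_of_not_ge h), mul_zero]

/-- the primitive of `u` along the flow. -/
noncomputable def Odd.prim {k l : Fin n} (h : k ≠ l) (f : ι → ℝ) (u : Cf ι n → ℝ) (s : Cf ι n) : ℝ :=
  ∫ t in (0 : ℝ)..Real.pi, u (Flow h f t s)

theorem Odd.continuous_prim {k l : Fin n} (h : k ≠ l) (f : ι → ℝ) {u : Cf ι n → ℝ}
    (hu : Continuous u) : Continuous (Odd.prim h f u) := by
  have h0 : Continuous fun p : Cf ι n × ℝ => (p.2, p.1) :=
    continuous_snd.prodMk continuous_fst
  have h1 : Continuous fun p : Cf ι n × ℝ => Flow h f p.2 p.1 :=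
    Continuous.comp (g := fun p : ℝ × Cf ι n => Flow h f p.1 p.2)
      (f := fun p : Cf ι n × ℝ => (p.2, p.1)) (continuous_Flow h f) h0
  have h2 : Continuous (Function.uncurry fun (s : Cf ι n) (t : ℝ) => u (Flow h f t s)) :=
    Continuous.comp (g := u) (f := fun p : Cf ι n × ℝ => Flow h f p.2 p.1) hu h1
  exact intervalIntegral.continuous_parametric_intervalIntegral_of_continuous' h2 0 Real.pi

theorem Odd.abs_prim_le {k l : Fin n} (h : k ≠ l) (f : ι → ℝ) {u : Cf ι n → ℝ} {M : ℝ}
    (hM : ∀ s, |u s| ≤ M) (s : Cf ι n) : |Odd.prim h f u s| ≤ M * Real.pi := by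
  unfold Odd.prim
  have h1 := intervalIntegral.norm_integral_le_of_norm_le_const (a := (0 : ℝ)) (b := Real.pi)
    (f := fun t => u (Flow h f t s)) (C := M) (fun t _ => hM _)
  rw [sub_zero, abs_of_pos Real.pi_pos] at h1
  exact h1

theorem Odd.DX_prim {k l : Fin n} (h : k ≠ l) (f : ι → ℝ) {u : Cf ι n → ℝ} (hu : Continuous u) :
    DX h f (Odd.prim h f u) (fun s => u (Flow h f Real.pi s) - u s) := by
  have hc : ∀ s, Continuous fun t : ℝ => u (Flow h f t s) := fun s => by
    have h0 : Continuous fun t : ℝ => (t, s) := continuous_id.prodMk continuous_const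
    have h1 : Continuous fun t : ℝ => Flow h f t s :=
      Continuous.comp (g := fun p : ℝ × Cf ι n => Flow h f p.1 p.2)
        (f := fun t : ℝ => (t, s)) (continuous_Flow h f) h0
    exact Continuous.comp (g := u) (f := fun t : ℝ => Flow h f t s) hu h1
  refine ⟨Odd.continuous_prim h f hu, ?_, fun s => ?_⟩
  · have h0 : Continuous fun s : Cf ι n => (Real.pi, s) := continuous_const.prodMk continuous_id
    have hF : Continuous fun s : Cf ι n => Flow h f Real.pi s :=
      Continuous.comp (g := fun p : ℝ × Cf ι n => Flow h f p.1 p.2)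
        (f := fun s : Cf ι n => (Real.pi, s)) (continuous_Flow h f) h0
    exact c_sub (Continuous.comp (g := u) (f := fun s : Cf ι n => Flow h f Real.pi s) hu hF) hu
  · have h1 : (fun t => Odd.prim h f u (Flow h f t s))
        = fun t => (∫ r in (0 : ℝ)..(Real.pi + t), u (Flow h f r s))
          - ∫ r in (0 : ℝ)..t, u (Flow h f r s) := by
      funext t
      unfold Odd.prim
      have e1 : (∫ r in (0 : ℝ)..Real.pi, u (Flow h f r (Flow h f t s)))
          = ∫ r in (0 : ℝ)..Real.pi, u (Flow h f (r + t) s) := by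
        refine intervalIntegral.integral_congr fun r _ => ?_
        simp only [Flow_add]
      rw [e1, intervalIntegral.integral_comp_add_right (fun r => u (Flow h f r s)) t, zero_add]
      rw [intervalIntegral.integral_interval_sub_left ((hc s).intervalIntegrable _ _)
        ((hc s).intervalIntegrable _ _)]
    rw [h1]
    have h2 : HasDerivAt (fun t => ∫ r in (0 : ℝ)..t, u (Flow h f r s)) (u (Flow h f 0 s)) 0 :=
      intervalIntegral.integral_hasDerivAt_right ((hc s).intervalIntegrable _ _)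
        ((hc s).stronglyMeasurableAtFilter _ _) (hc s).continuousAt
    have h3 : HasDerivAt (fun t => ∫ r in (0 : ℝ)..t, u (Flow h f r s))
        (u (Flow h f Real.pi s)) (Real.pi + 0) := by
      rw [add_zero]
      exact intervalIntegral.integral_hasDerivAt_right ((hc s).intervalIntegrable _ _)
        ((hc s).stronglyMeasurableAtFilter _ _) (hc s).continuousAt
    have h4 : HasDerivAt (fun t : ℝ => Real.pi + t) 1 0 := by
      simpa using (hasDerivAt_id (0 : ℝ)).const_add Real.pi
    have h5 := h3.comp 0 h4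
    rw [mul_one] at h5
    rw [Flow_zero] at h2
    exact h5.sub h2

theorem Odd.dep_prim {k l : Fin n} (h : k ≠ l) (f : ι → ℝ) {u : Cf ι n → ℝ} {A : Set ι}
    (hd : Dep A u) : Dep A (Odd.prim h f u) := by
  intro s t hst
  unfold Odd.prim
  refine intervalIntegral.integral_congr fun r _ => ?_
  refine hd _ _ fun v hv => ?_
  simp only [Flow, hst v hv]

/-- the estimate for one odd function. -/
theorem Odd.odd_bound [NeZero n] (G : Gr ι E) {k l : Fin n} (h : k ≠ l) {f : ι → ℝ} {F0 B : Set ι}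
    (hf0 : ∀ v ∈ F0, f v = 0) (hf1 : ∀ v ∈ B, f v = 1) {u : Cf ι n → ℝ} {M : ℝ}
    (hu : Continuous u) (hd : Dep B u) (hodd : ∀ s, u (fun v => rotS h Real.pi (s v)) = -u s)
    (hM : ∀ s, |u s| ≤ M) {ε : ℝ} {τ : Cf ι n} (hK : KK G F0 (F0 ∪ B) k l f τ ≤ ε) :
    |P G F0 u τ| ≤ Real.pi / 2 * M * Real.sqrt ε := by
  have hM0 : 0 ≤ M := (abs_nonneg _).trans (hM τ)
  -- derivative of the primitive
  have hD0 := Odd.DX_prim h f hu
  have hpi : ∀ s, u (Flow h f Real.pi s) = - u s := by
    intro s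
    rw [← hodd s]
    refine hd _ _ fun v hv => ?_
    simp only [Flow, hf1 v hv, mul_one]
  have hD : DX h f (Odd.prim h f u) (fun s => -2 * u s) := by
    have : (fun s => u (Flow h f Real.pi s) - u s) = fun s => -2 * u s := by
      funext s; rw [hpi s]; ring
    rwa [this] at hD0
  have hUc := Odd.continuous_prim h f hu
  -- continuity of `X_f I`
  have hXc : Continuous (XI G k l f : Cf ι n → ℝ) := continuous_XI G k l f
  have hw := ward G hf0 hD τ
  rw [P_add G (c_smul (-2) hu) (c_mul hUc hXc), P_const_mul] at hw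
  -- conditioning on `S = F0 ∪ B`
  have hsub : F0 ⊆ F0 ∪ B := Set.subset_union_left
  have hUS : Dep (F0 ∪ B) (Odd.prim h f u) := by
    have := Odd.dep_prim h f hd
    intro s t hst
    exact this s t fun v hv => hst v (Or.inr hv)
  have h1 : P G F0 (fun s => Odd.prim h f u s * XI G k l f s) τ
      = P G F0 (fun s => Odd.prim h f u s * P G (F0 ∪ B) (XI G k l f) s) τ := by
    rw [← P_tower G hsub (c_mul hUc hXc)]
    congr 1
    funext s
    exact P_mul_dep G hUS _ s
  have hPc : Continuous (P G (F0 ∪ B) (XI G k l f) : Cf ι n → ℝ) := continuous_P G hXc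
  have h2 := P_abs_mul_le G (A := F0) hUc hPc τ
  have h3 : P G F0 (fun s => Odd.prim h f u s ^ 2) τ ≤ (M * Real.pi) ^ 2 := by
    have h31 := P_mono G (A := F0) (F := fun s => Odd.prim h f u s ^ 2)
      (H := fun _ => (M * Real.pi) ^ 2) (c_sq hUc) continuous_const (fun s => by
        have := Odd.abs_prim_le h f hM s
        exact sq_le_sq' (by linarith [neg_abs_le (Odd.prim h f u s)])
          (by linarith [le_abs_self (Odd.prim h f u s)])) τ
    rwa [P_const] at h31
  have h4 : Real.sqrt (P G F0 (fun s => Odd.prim h f u s ^ 2) τ) ≤ M * Real.pi := by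
    rw [← Real.sqrt_sq (mul_nonneg hM0 Real.pi_pos.le)]
    exact Real.sqrt_le_sqrt h3
  have h5 : Real.sqrt (P G F0 (fun s => P G (F0 ∪ B) (XI G k l f) s ^ 2) τ) ≤ Real.sqrt ε :=
    Real.sqrt_le_sqrt hK
  have h6 : |P G F0 (fun s => Odd.prim h f u s * XI G k l f s) τ| ≤ M * Real.pi * Real.sqrt ε := by
    rw [h1]
    exact h2.trans (mul_le_mul h4 h5 (Real.sqrt_nonneg _) (mul_nonneg hM0 Real.pi_pos.le))
  have h7 : P G F0 u τ = P G F0 (fun s => Odd.prim h f u s * XI G k l f s) τ / 2 := by linarith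
  rw [h7, abs_div, abs_two]
  have : M * Real.pi * Real.sqrt ε / 2 = Real.pi / 2 * M * Real.sqrt ε := by ring
  rw [← this]
  exact div_le_div_of_nonneg_right h6 (by norm_num)

/-- NODE ODD. -/
theorem thmB_of (hA : AnnulusSmall) : ThmB := by
  intro n hn β δ hβ hδ
  haveI : NeZero n := ⟨by omega⟩
  have hε : 0 < (2 * δ / Real.pi) ^ 2 := by positivity
  obtain ⟨R0, hR0, hR⟩ := hA n hn β _ hβ hε
  refine ⟨R0, fun R hRR V b hb x k l h u M hu hd hodd hM s => ?_⟩
  have hR1 : 1 ≤ R := hR0.trans hRR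
  have hK := hR R hRR V b hb x k l h s
  have := Odd.odd_bound (latG V b) h (fun v hv => Odd.cut_eq_zero hR1 hv) (fun v hv => Odd.cut_eq_one hR1 hv)
    hu hd hodd hM hK
  rw [Real.sqrt_sq (by positivity)] at this
  refine this.trans (le_of_eq ?_)
  field_simp

end Crest.Agent.R167
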