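import Mathlib

/-! Row 167, node PCALC (helper40): the calculus of the conditional averages `P_S` on a product
space, in abstract form. -/

set_option autoImplicit false
open MeasureTheory Set

noncomputable section
namespace Crest.Agent.R167.PC

variable {ι X : Type*}

open Classical in
/-- the configuration with the spins of `s` on `A` and those of `s'` off `A` -/
def glue (A : Set ι) (s s' : ι → X) : ι → X := fun v => if v ∈ A then s v else s' v

lemma glue_mem {A : Set ι} {v : ι} (h : v ∈ A) (s s' : ι → X) : glue A s s' v = s v := by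
  simp [glue, h]

lemma glue_not_mem {A : Set ι} {v : ι} (h : v ∉ A) (s s' : ι → X) : glue A s s' v = s' v := by
  simp [glue, h]

@[simp] lemma glue_self (A : Set ι) (s : ι → X) : glue A s s = s := by
  ext v; simp [glue]

@[simp] lemma glue_univ (s s' : ι → X) : glue Set.univ s s' = s := by
  ext v; simp [glue]

@[simp] lemma glue_empty (s s' : ι → X) : glue ∅ s s' = s' := by
  ext v; simp [glue]

@[simp] lemma glue_glue_left (A : Set ι) (s t s' : ι → X) :
    glue A (glue A s t) s' = glue A s s' := by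
  ext v; by_cases h : v ∈ A <;> simp [glue, h]

@[simp] lemma glue_glue_right (A : Set ι) (s t s' : ι → X) :
    glue A s (glue A t s') = glue A s s' := by
  ext v; by_cases h : v ∈ A <;> simp [glue, h]

lemma glue_glue_of_subset {A' A : Set ι} (h : A' ⊆ A) (s t s' : ι → X) :
    glue A' s (glue A t s') = glue A (glue A' s t) s' := by
  ext v
  by_cases h1 : v ∈ A'
  · simp [glue, h1, h h1]
  · by_cases h2 : v ∈ A <;> simp [glue, h1, h2]

lemma glue_glue_left_of_subset {A' A : Set ι} (h : A' ⊆ A) (s t s' : ι → X) :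
    glue A' (glue A s t) s' = glue A' s s' := by
  ext v
  by_cases h1 : v ∈ A'
  · simp [glue, h1, h h1]
  · simp [glue, h1]

lemma glue_congr {A : Set ι} {s t s' : ι → X} (h : ∀ v ∈ A, s v = t v) :
    glue A s s' = glue A t s' := by
  ext v
  by_cases h1 : v ∈ A
  · simp [glue, h1, h v h1]
  · simp [glue, h1]

/-- `F` depends only on the spins in `A` -/
def Dep (A : Set ι) (F : (ι → X) → ℝ) : Prop := ∀ s s', F (glue A s s') = F s

lemma Dep.eq {A : Set ι} {F : (ι → X) → ℝ} (h : Dep A F) {s t : ι → X}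
    (hst : ∀ v ∈ A, s v = t v) : F s = F t := by
  rw [← h s s, ← h t s, glue_congr hst]

lemma dep_iff {A : Set ι} {F : (ι → X) → ℝ} :
    Dep A F ↔ ∀ s t, (∀ v ∈ A, s v = t v) → F s = F t :=
  ⟨fun h _ _ hst => h.eq hst, fun h s s' => h _ _ fun _ hv => glue_mem hv s s'⟩

lemma Dep.mono {A B : Set ι} {F : (ι → X) → ℝ} (h : Dep A F) (hAB : A ⊆ B) : Dep B F :=
  dep_iff.2 fun _ _ hst => h.eq fun v hv => hst v (hAB hv)

lemma dep_univ (F : (ι → X) → ℝ) : Dep Set.univ F := fun s s' => by simp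

lemma Dep.const (A : Set ι) (c : ℝ) : Dep (X := X) A (fun _ => c) := fun _ _ => rfl

lemma Dep.comp {A : Set ι} {F : (ι → X) → ℝ} (h : Dep A F) (φ : ℝ → ℝ) :
    Dep A (fun s => φ (F s)) := fun s s' => congrArg φ (h s s')

lemma Dep.comp₂ {A : Set ι} {F G : (ι → X) → ℝ} (h : Dep A F) (h' : Dep A G) (φ : ℝ → ℝ → ℝ) :
    Dep A (fun s => φ (F s) (G s)) := fun s s' => congrArg₂ φ (h s s') (h' s s')

lemma Dep.add {A : Set ι} {F G : (ι → X) → ℝ} (h : Dep A F) (h' : Dep A G) :
    Dep A (fun s => F s + G s) := h.comp₂ h' (· + ·)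

lemma Dep.sub {A : Set ι} {F G : (ι → X) → ℝ} (h : Dep A F) (h' : Dep A G) :
    Dep A (fun s => F s - G s) := h.comp₂ h' (· - ·)

lemma Dep.mul {A : Set ι} {F G : (ι → X) → ℝ} (h : Dep A F) (h' : Dep A G) :
    Dep A (fun s => F s * G s) := h.comp₂ h' (· * ·)

lemma Dep.sum {A : Set ι} {κ : Type*} (T : Finset κ) {F : κ → (ι → X) → ℝ}
    (h : ∀ k ∈ T, Dep A (F k)) : Dep A (fun s => ∑ k ∈ T, F k s) := fun s s' =>
  Finset.sum_congr rfl fun k hk => h k hk s s'

/-- bounded measurable functions -/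
structure BM [MeasurableSpace X] (F : (ι → X) → ℝ) : Prop where
  meas : Measurable F
  bdd : ∃ C, ∀ s, |F s| ≤ C

namespace BM
variable [MeasurableSpace X] {F G : (ι → X) → ℝ}

lemma const (c : ℝ) : BM (ι := ι) (X := X) (fun _ => c) := ⟨measurable_const, |c|, fun _ => le_rfl⟩

lemma add (hF : BM F) (hG : BM G) : BM (fun s => F s + G s) := by
  obtain ⟨C, hC⟩ := hF.bdd
  obtain ⟨D, hD⟩ := hG.bdd
  exact ⟨hF.meas.add hG.meas, C + D, fun s => (abs_add_le _ _).trans (add_le_add (hC s) (hD s))⟩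

lemma neg (hF : BM F) : BM (fun s => - F s) := by
  obtain ⟨C, hC⟩ := hF.bdd
  exact ⟨hF.meas.neg, C, fun s => by rw [abs_neg]; exact hC s⟩

lemma sub (hF : BM F) (hG : BM G) : BM (fun s => F s - G s) := by
  simpa [sub_eq_add_neg] using hF.add hG.neg

lemma mul (hF : BM F) (hG : BM G) : BM (fun s => F s * G s) := by
  obtain ⟨C, hC⟩ := hF.bdd
  obtain ⟨D, hD⟩ := hG.bdd
  refine ⟨hF.meas.mul hG.meas, C * D, fun s => ?_⟩
  rw [abs_mul]
  exact mul_le_mul (hC s) (hD s) (abs_nonneg _) ((abs_nonneg _).trans (hC s))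

lemma const_mul (hF : BM F) (c : ℝ) : BM (fun s => c * F s) := (BM.const c).mul hF

lemma sq (hF : BM F) : BM (fun s => F s ^ 2) := by
  simpa [pow_two] using hF.mul hF

lemma pow (hF : BM F) (k : ℕ) : BM (fun s => F s ^ k) := by
  induction k with
  | zero => simpa using BM.const (ι := ι) (X := X) 1
  | succ k ih => simpa [pow_succ] using ih.mul hF

lemma sum {κ : Type*} (T : Finset κ) {F : κ → (ι → X) → ℝ} (h : ∀ k ∈ T, BM (F k)) :
    BM (fun s => ∑ k ∈ T, F k s) := by
  classical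
  induction T using Finset.induction_on with
  | empty => simpa using BM.const (ι := ι) (X := X) 0
  | insert a T ha ih =>
    simp only [Finset.sum_insert ha]
    exact (h a (Finset.mem_insert_self _ _)).add (ih fun k hk => h k (Finset.mem_insert_of_mem hk))

lemma comp {g : (ι → X) → (ι → X)} (hF : BM F) (hg : Measurable g) : BM (fun s => F (g s)) := by
  obtain ⟨C, hC⟩ := hF.bdd
  exact ⟨hF.meas.comp hg, C, fun s => hC _⟩

lemma integrable (hF : BM F) (m : Measure (ι → X)) [IsFiniteMeasure m] : Integrable F m := by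
  obtain ⟨C, hC⟩ := hF.bdd
  exact Integrable.of_bound hF.meas.aestronglyMeasurable C
    (Filter.Eventually.of_forall fun s => by simpa using hC s)

end BM

/-- admissible weights -/
structure Wt [MeasurableSpace X] (w : (ι → X) → ℝ) : Prop where
  meas : Measurable w
  lo : ∃ c, 0 < c ∧ ∀ s, c ≤ w s
  hi : ∃ C, ∀ s, w s ≤ C

namespace Wt
variable [MeasurableSpace X] {w w₁ w₂ : (ι → X) → ℝ}

lemma pos (h : Wt w) (s : ι → X) : 0 < w s := by
  obtain ⟨c, hc, h'⟩ := h.lo
  exact hc.trans_le (h' s)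

lemma bm (h : Wt w) : BM w := by
  obtain ⟨C, hC⟩ := h.hi
  exact ⟨h.meas, C, fun s => by rw [abs_of_pos (h.pos s)]; exact hC s⟩

lemma mul (h₁ : Wt w₁) (h₂ : Wt w₂) : Wt (fun s => w₁ s * w₂ s) := by
  obtain ⟨c, hc, h⟩ := h₁.lo
  obtain ⟨d, hd, h'⟩ := h₂.lo
  obtain ⟨C, hC⟩ := h₁.hi
  obtain ⟨D, hD⟩ := h₂.hi
  refine ⟨h₁.meas.mul h₂.meas, ⟨c * d, mul_pos hc hd, fun s => ?_⟩, C * D, fun s => ?_⟩
  · exact mul_le_mul (h s) (h' s) hd.le (h₁.pos s).le
  · exact mul_le_mul (hC s) (hD s) (h₂.pos s).le ((h₁.pos s).le.trans (hC s))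

lemma exp {F : (ι → X) → ℝ} (hF : BM F) : Wt (fun s => Real.exp (F s)) := by
  obtain ⟨C, hC⟩ := hF.bdd
  exact ⟨Real.measurable_exp.comp hF.meas,
    ⟨Real.exp (-C), Real.exp_pos _, fun s => Real.exp_le_exp.2 (neg_le_of_abs_le (hC s))⟩,
    Real.exp C, fun s => Real.exp_le_exp.2 (le_of_abs_le (hC s))⟩

lemma comp {g : (ι → X) → (ι → X)} (h : Wt w) (hg : Measurable g) : Wt (fun s => w (g s)) := by
  obtain ⟨c, hc, h'⟩ := h.lo
  obtain ⟨C, hC⟩ := h.hi
  exact ⟨h.meas.comp hg, ⟨c, hc, fun s => h' _⟩, C, fun s => hC _⟩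

end Wt

section measure

variable [Fintype ι] [MeasurableSpace X] (μ : Measure X) [IsProbabilityMeasure μ]

/-- the product law -/
abbrev nu (ι : Type*) [Fintype ι] {X : Type*} [MeasurableSpace X] (μ : Measure X) :
    Measure (ι → X) := Measure.pi fun _ : ι => μ

omit [Fintype ι] in
lemma measurable_glue (A : Set ι) :
    Measurable (fun p : (ι → X) × (ι → X) => glue A p.1 p.2) := by
  classical
  refine measurable_pi_lambda _ fun v => ?_
  by_cases h : v ∈ A
  · simp only [glue, h, if_true]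
    exact (measurable_pi_apply v).comp measurable_fst
  · simp only [glue, h, if_false]
    exact (measurable_pi_apply v).comp measurable_snd

omit [Fintype ι] in
lemma measurable_glue_right (A : Set ι) (s : ι → X) : Measurable (fun s' => glue A s s') :=
  (measurable_glue A).comp (measurable_const.prodMk measurable_id)

omit [Fintype ι] in
lemma measurable_glue_left (A : Set ι) (s' : ι → X) : Measurable (fun s => glue A s s') :=
  (measurable_glue A).comp (measurable_id.prodMk measurable_const)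

/-- gluing two independent samples gives a sample -/
theorem mp_glue (A : Set ι) :
    MeasurePreserving (fun p : (ι → X) × (ι → X) => glue A p.1 p.2)
      ((nu ι μ).prod (nu ι μ)) (nu ι μ) := by
  classical
  refine ⟨measurable_glue A, ?_⟩
  symm
  refine Measure.pi_eq fun B hB => ?_
  rw [Measure.map_apply (measurable_glue A) (MeasurableSet.univ_pi hB)]
  have hset : (fun p : (ι → X) × (ι → X) => glue A p.1 p.2) ⁻¹' (univ.pi B) =
      (univ.pi (fun v => if v ∈ A then B v else univ)) ×ˢ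
        (univ.pi (fun v => if v ∈ A then univ else B v)) := by
    ext p
    simp only [mem_preimage, mem_univ_pi, mem_prod, ← forall_and]
    refine forall_congr' fun v => ?_
    by_cases h : v ∈ A <;> simp [glue, h]
  rw [hset, Measure.prod_prod, Measure.pi_pi, Measure.pi_pi, ← Finset.prod_mul_distrib]
  refine Finset.prod_congr rfl fun v _ => ?_
  by_cases h : v ∈ A <;> simp [h]

/-- resampling -/
theorem integral_resample (A : Set ι) {G : (ι → X) → ℝ} (hG : BM G) :
    ∫ s, G s ∂(nu ι μ) = ∫ s, (∫ s', G (glue A s s') ∂(nu ι μ)) ∂(nu ι μ) := by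
  rw [← (mp_glue μ A).map_eq, integral_map (measurable_glue A).aemeasurable
    hG.meas.aestronglyMeasurable, (mp_glue μ A).map_eq]
  rw [integral_prod]
  obtain ⟨C, hC⟩ := hG.bdd
  exact Integrable.of_bound (hG.meas.comp (measurable_glue A)).aestronglyMeasurable C
    (Filter.Eventually.of_forall fun s => by simpa using hC _)

/-- unnormalised conditional average -/
def N (A : Set ι) (G : (ι → X) → ℝ) (s : ι → X) : ℝ := ∫ s', G (glue A s s') ∂(nu ι μ)

/-- Gibbs average of `F` for the weight `w` with the spins in `A` frozen -/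
def P (w : (ι → X) → ℝ) (A : Set ι) (F : (ι → X) → ℝ) (s : ι → X) : ℝ :=
  N μ A (fun t => F t * w t) s / N μ A w s

variable {μ}
variable {w w₁ w₂ : (ι → X) → ℝ} {A A' B S S' U₁ U₂ : Set ι} {F G : (ι → X) → ℝ}

omit [IsProbabilityMeasure μ] in
lemma N_dep (A : Set ι) (G : (ι → X) → ℝ) : Dep A (N μ A G) := fun s s' => by
  simp [N]

lemma bm_N (A : Set ι) (hG : BM G) : BM (N μ A G) := by
  obtain ⟨C, hC⟩ := hG.bdd
  refine ⟨?_, C, fun s => ?_⟩
  · have : StronglyMeasurable (fun p : (ι → X) × (ι → X) => G (glue A p.1 p.2)) :=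
      (hG.meas.comp (measurable_glue A)).stronglyMeasurable
    exact (StronglyMeasurable.integral_prod_right (f := fun s s' => G (glue A s s')) this).measurable
  · have := norm_integral_le_of_norm_le_const (μ := nu ι μ) (f := fun s' => G (glue A s s'))
      (C := C) (Filter.Eventually.of_forall fun s' => by simpa using hC _)
    rw [N]
    simpa using this

lemma integrable_glue (hG : BM G) (s : ι → X) :
    Integrable (fun s' => G (glue A s s')) (nu ι μ) :=
  (hG.comp (measurable_glue_right A s)).integrable _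

lemma N_add (hF : BM F) (hG : BM G) (s : ι → X) :
    N μ A (fun t => F t + G t) s = N μ A F s + N μ A G s :=
  integral_add (integrable_glue hF s) (integrable_glue hG s)

lemma N_sub (hF : BM F) (hG : BM G) (s : ι → X) :
    N μ A (fun t => F t - G t) s = N μ A F s - N μ A G s :=
  integral_sub (integrable_glue hF s) (integrable_glue hG s)

omit [IsProbabilityMeasure μ] in
lemma N_const_mul (c : ℝ) (s : ι → X) :
    N μ A (fun t => c * F t) s = c * N μ A F s := integral_const_mul _ _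

omit [IsProbabilityMeasure μ] in
/-- pull out functions of the frozen spins -/
lemma N_mul_dep (hF : Dep A F) (s : ι → X) :
    N μ A (fun t => F t * G t) s = F s * N μ A G s := by
  unfold N
  simp_rw [hF s]
  exact integral_const_mul _ _

lemma N_mono (hF : BM F) (hG : BM G) (h : ∀ s, F s ≤ G s) (s : ι → X) :
    N μ A F s ≤ N μ A G s :=
  integral_mono (integrable_glue hF s) (integrable_glue hG s) fun _ => h _

lemma N_pos (hw : Wt w) (A : Set ι) (s : ι → X) : 0 < N μ A w s := by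
  obtain ⟨c, hc, h⟩ := hw.lo
  have := N_mono (μ := μ) (A := A) (BM.const c) hw.bm h s
  refine hc.trans_le (le_trans ?_ this)
  simp [N]

lemma wt_N (hw : Wt w) (A : Set ι) : Wt (N μ A w) := by
  obtain ⟨c, hc, h⟩ := hw.lo
  obtain ⟨C, hC⟩ := (bm_N (μ := μ) A hw.bm).bdd
  refine ⟨(bm_N A hw.bm).meas, ⟨c, hc, fun s => ?_⟩, C, fun s => (le_abs_self _).trans (hC s)⟩
  have := N_mono (μ := μ) (A := A) (BM.const c) hw.bm h s
  refine le_trans ?_ this
  simp [N]

/-- Fubini for nested sets -/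
theorem N_N (h : A' ⊆ A) (hG : BM G) (s : ι → X) : N μ A' (N μ A G) s = N μ A' G s := by
  unfold N
  have := integral_resample μ A (hG.comp (measurable_glue_right A' s))
  rw [this]
  simp_rw [glue_glue_of_subset h]

/-! ### basic laws of `P` -/

omit [IsProbabilityMeasure μ] in
lemma P_dep (w : (ι → X) → ℝ) (A : Set ι) (F : (ι → X) → ℝ) : Dep A (P μ w A F) :=
  (N_dep A _).comp₂ (N_dep A _) (· / ·)

lemma P_bound (hw : Wt w) (hF : BM F) {C : ℝ} (hC : ∀ s, |F s| ≤ C) (s : ι → X) :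
    |P μ w A F s| ≤ C := by
  unfold P
  rw [abs_div, abs_of_pos (N_pos hw A s), div_le_iff₀ (N_pos hw A s), ← N_const_mul]
  refine abs_le.2 ⟨?_, ?_⟩
  · have h1 : N μ A (fun t => (-C) * w t) s ≤ N μ A (fun t => F t * w t) s :=
      N_mono (hw.bm.const_mul _) (hF.mul hw.bm) (fun t => mul_le_mul_of_nonneg_right
        (neg_le_of_abs_le (hC t)) (hw.pos t).le) s
    rw [N_const_mul] at h1 ⊢
    linarith
  · exact N_mono (hF.mul hw.bm) (hw.bm.const_mul _) (fun t => mul_le_mul_of_nonneg_right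
        (le_of_abs_le (hC t)) (hw.pos t).le) s

lemma bm_P (hw : Wt w) (A : Set ι) (hF : BM F) : BM (P μ w A F) := by
  obtain ⟨C, hC⟩ := hF.bdd
  exact ⟨(bm_N A (hF.mul hw.bm)).meas.div (bm_N A hw.bm).meas, C, P_bound hw hF hC⟩

lemma P_add (hw : Wt w) (hF : BM F) (hG : BM G) (s : ι → X) :
    P μ w A (fun t => F t + G t) s = P μ w A F s + P μ w A G s := by
  unfold P
  rw [← add_div, ← N_add (hF.mul hw.bm) (hG.mul hw.bm)]
  simp_rw [add_mul]

lemma P_sub (hw : Wt w) (hF : BM F) (hG : BM G) (s : ι → X) :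
    P μ w A (fun t => F t - G t) s = P μ w A F s - P μ w A G s := by
  unfold P
  rw [← sub_div, ← N_sub (hF.mul hw.bm) (hG.mul hw.bm)]
  simp_rw [sub_mul]

omit [IsProbabilityMeasure μ] in
lemma P_const_mul (c : ℝ) (F : (ι → X) → ℝ) (s : ι → X) :
    P μ w A (fun t => c * F t) s = c * P μ w A F s := by
  unfold P
  rw [← mul_div_assoc, ← N_const_mul]
  simp_rw [mul_assoc]

omit [IsProbabilityMeasure μ] in
lemma P_neg (F : (ι → X) → ℝ) (s : ι → X) :
    P μ w A (fun t => - F t) s = - P μ w A F s := by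
  have := P_const_mul (μ := μ) (w := w) (A := A) (-1) F s
  simpa using this

omit [IsProbabilityMeasure μ] in
lemma P_zero (s : ι → X) : P μ w A (fun _ => 0) s = 0 := by
  simp [P, N]

lemma P_sum (hw : Wt w) {κ : Type*} (T : Finset κ) {F : κ → (ι → X) → ℝ}
    (h : ∀ k ∈ T, BM (F k)) (s : ι → X) :
    P μ w A (fun t => ∑ k ∈ T, F k t) s = ∑ k ∈ T, P μ w A (F k) s := by
  classical
  induction T using Finset.induction_on with
  | empty => simpa using P_zero s
  | insert a T ha ih =>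
    simp only [Finset.sum_insert ha]
    rw [P_add hw (h a (Finset.mem_insert_self _ _))
      (BM.sum T fun k hk => h k (Finset.mem_insert_of_mem hk)),
      ih fun k hk => h k (Finset.mem_insert_of_mem hk)]

omit [IsProbabilityMeasure μ] in
/-- pull out functions of the frozen spins -/
lemma P_mul_dep (hF : Dep A F) (G : (ι → X) → ℝ) (s : ι → X) :
    P μ w A (fun t => F t * G t) s = F s * P μ w A G s := by
  unfold P
  simp_rw [mul_assoc]
  rw [N_mul_dep hF, mul_div_assoc]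

omit [IsProbabilityMeasure μ] in
lemma P_mul_dep' (hF : Dep A F) (G : (ι → X) → ℝ) (s : ι → X) :
    P μ w A (fun t => G t * F t) s = P μ w A G s * F s := by
  rw [mul_comm (P μ w A G s), ← P_mul_dep hF]
  simp_rw [mul_comm]

lemma P_one (hw : Wt w) (s : ι → X) : P μ w A (fun _ => 1) s = 1 := by
  unfold P
  simp only [one_mul]
  exact div_self (N_pos hw A s).ne'

lemma P_of_dep (hw : Wt w) (hF : Dep A F) (s : ι → X) : P μ w A F s = F s := by
  have := P_mul_dep (μ := μ) (w := w) hF (fun _ => 1) s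
  simpa [P_one hw] using this

lemma P_const (hw : Wt w) (c : ℝ) (s : ι → X) : P μ w A (fun _ => c) s = c :=
  P_of_dep hw (Dep.const A c) s

lemma P_mono (hw : Wt w) (hF : BM F) (hG : BM G) (h : ∀ s, F s ≤ G s) (s : ι → X) :
    P μ w A F s ≤ P μ w A G s := by
  unfold P
  refine div_le_div_of_nonneg_right ?_ (N_pos hw A s).le
  exact N_mono (hF.mul hw.bm) (hG.mul hw.bm)
    (fun t => mul_le_mul_of_nonneg_right (h t) (hw.pos t).le) s

lemma P_nonneg (hw : Wt w) (hF : BM F) (h : ∀ s, 0 ≤ F s) (s : ι → X) : 0 ≤ P μ w A F s := by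
  have := P_mono (μ := μ) (A := A) hw (BM.const 0) hF h s
  rwa [P_const hw] at this

lemma P_abs_le (hw : Wt w) (hF : BM F) (s : ι → X) :
    |P μ w A F s| ≤ P μ w A (fun t => |F t|) s := by
  have hF' : BM (fun t => |F t|) := by
    obtain ⟨C, hC⟩ := hF.bdd
    exact ⟨hF.meas.abs, C, fun s => by rw [abs_abs]; exact hC s⟩
  refine abs_le.2 ⟨?_, P_mono hw hF hF' (fun t => le_abs_self _) s⟩
  rw [← P_neg]
  exact P_mono hw hF'.neg hF (fun t => neg_abs_le _) s

/-- **tower property** -/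
theorem P_P (hw : Wt w) (h : A' ⊆ A) (hF : BM F) (s : ι → X) :
    P μ w A' (P μ w A F) s = P μ w A' F s := by
  have key : N μ A' (fun t => P μ w A F t * w t) s = N μ A' (fun t => F t * w t) s := by
    rw [← N_N h ((bm_P hw A hF).mul hw.bm) s, ← N_N h (hF.mul hw.bm) s]
    congr 1
    ext t
    rw [N_mul_dep (P_dep w A F)]
    unfold P
    exact div_mul_cancel₀ _ (N_pos hw A t).ne'
  unfold P at key ⊢
  rw [key]

/-- the other tower property -/
theorem P_P' (hw : Wt w) (h : A' ⊆ A) (F : (ι → X) → ℝ) (s : ι → X) :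
    P μ w A (P μ w A' F) s = P μ w A' F s :=
  P_of_dep hw ((P_dep w A' F).mono h) s

/-! ### `L²` theory: `E = P_{F₀}(·)(τ)` with `F₀ ⊆ A` -/

/-- self-adjointness -/
theorem E_mul_P (hw : Wt w) (h : A' ⊆ A) (hF : BM F) (hG : BM G) (τ : ι → X) :
    P μ w A' (fun t => F t * P μ w A G t) τ =
      P μ w A' (fun t => P μ w A F t * P μ w A G t) τ := by
  rw [← P_P hw h (hF.mul (bm_P hw A hG))]
  congr 1
  ext t
  exact P_mul_dep' (P_dep w A G) F t

theorem E_P_mul (hw : Wt w) (h : A' ⊆ A) (hF : BM F) (hG : BM G) (τ : ι → X) :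
    P μ w A' (fun t => P μ w A F t * G t) τ =
      P μ w A' (fun t => P μ w A F t * P μ w A G t) τ := by
  have := E_mul_P (μ := μ) hw h hG hF τ
  simpa only [mul_comm] using this

theorem E_P_symm (hw : Wt w) (h : A' ⊆ A) (hF : BM F) (hG : BM G) (τ : ι → X) :
    P μ w A' (fun t => P μ w A F t * G t) τ = P μ w A' (fun t => F t * P μ w A G t) τ := by
  rw [E_P_mul hw h hF hG, E_mul_P hw h hF hG]

/-- Cauchy–Schwarz for the conditional average -/
theorem P_mul_sq_le (hw : Wt w) (hF : BM F) (hG : BM G) (s : ι → X) :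
    P μ w A (fun t => F t * G t) s ^ 2 ≤
      P μ w A (fun t => F t ^ 2) s * P μ w A (fun t => G t ^ 2) s := by
  set a := P μ w A (fun t => F t ^ 2) s
  set b := P μ w A (fun t => F t * G t) s
  set c := P μ w A (fun t => G t ^ 2) s
  have ha : 0 ≤ a := P_nonneg hw hF.sq (fun t => sq_nonneg _) s
  have hq : ∀ x y : ℝ, 0 ≤ x ^ 2 * a + 2 * (x * y) * b + y ^ 2 * c := by
    intro x y
    have h0 : 0 ≤ P μ w A (fun t => (x * F t + y * G t) ^ 2) s :=
      P_nonneg hw ((hF.const_mul x).add (hG.const_mul y)).sq (fun t => sq_nonneg _) s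
    have h1 : (fun t => (x * F t + y * G t) ^ 2) =
        fun t => (x ^ 2 * F t ^ 2 + (2 * (x * y)) * (F t * G t)) + y ^ 2 * G t ^ 2 := by
      ext t; ring
    rw [h1, P_add hw ((hF.sq.const_mul _).add ((hF.mul hG).const_mul _)) (hG.sq.const_mul _),
      P_add hw (hF.sq.const_mul _) ((hF.mul hG).const_mul _), P_const_mul, P_const_mul,
      P_const_mul] at h0
    exact h0
  rcases ha.eq_or_lt with h0 | h0
  · have h2 : ∀ y : ℝ, 0 ≤ 2 * y * b + y ^ 2 * c := by
      intro y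
      have := hq 1 y
      rw [← h0] at this
      linarith
    by_contra hcon
    have hb : b ≠ 0 := by
      intro hb
      rw [hb, ← h0] at hcon
      simp at hcon
    have hc : 0 ≤ c := P_nonneg hw hG.sq (fun t => sq_nonneg _) s
    have h3 := h2 (-b / (c + 1))
    have h4 : 0 < c + 1 := by linarith
    have h5 : 2 * (-b / (c + 1)) * b + (-b / (c + 1)) ^ 2 * c =
        - (b ^ 2 * (c + 2)) / (c + 1) ^ 2 := by
      field_simp
      ring
    rw [h5] at h3
    have h6 : 0 < b ^ 2 * (c + 2) / (c + 1) ^ 2 := by positivity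
    have h7 : - (b ^ 2 * (c + 2)) / (c + 1) ^ 2 = - (b ^ 2 * (c + 2) / (c + 1) ^ 2) := by ring
    linarith
  · have h2 := hq b (-a)
    have h3 : b ^ 2 * a + 2 * (b * -a) * b + (-a) ^ 2 * c = a * (a * c - b ^ 2) := by ring
    rw [h3] at h2
    nlinarith [(mul_nonneg_iff_of_pos_left h0).1 h2]

/-- Jensen -/
theorem P_sq_le (hw : Wt w) (hF : BM F) (s : ι → X) :
    P μ w A F s ^ 2 ≤ P μ w A (fun t => F t ^ 2) s := by
  have := P_mul_sq_le (μ := μ) (A := A) hw hF (BM.const 1) s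
  simpa [P_const hw] using this

theorem P_abs_mul_le (hw : Wt w) (hF : BM F) (hG : BM G) (s : ι → X) :
    |P μ w A (fun t => F t * G t) s| ≤
      √(P μ w A (fun t => F t ^ 2) s) * √(P μ w A (fun t => G t ^ 2) s) := by
  rw [← Real.sqrt_mul (P_nonneg hw hF.sq (fun t => sq_nonneg _) s)]
  exact Real.abs_le_sqrt (P_mul_sq_le hw hF hG s)

/-- monotonicity of `A ↦ E[(P_A F)²]` -/
theorem E_sq_mono (hw : Wt w) {A₀ : Set ι} (h0 : A₀ ⊆ A') (h : A' ⊆ A) (hF : BM F) (τ : ι → X) :
    P μ w A₀ (fun t => P μ w A' F t ^ 2) τ ≤ P μ w A₀ (fun t => P μ w A F t ^ 2) τ := by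
  rw [← P_P hw h0 (bm_P hw A hF).sq]
  refine P_mono hw (bm_P hw A' hF).sq (bm_P hw A' (bm_P hw A hF).sq) (fun t => ?_) τ
  rw [← P_P hw h hF]
  exact P_sq_le hw (bm_P hw A hF) t

theorem E_sq_le (hw : Wt w) {A₀ : Set ι} (h0 : A₀ ⊆ A) (hF : BM F) (τ : ι → X) :
    P μ w A₀ (fun t => P μ w A F t ^ 2) τ ≤ P μ w A₀ (fun t => F t ^ 2) τ := by
  rw [← P_P hw h0 hF.sq]
  exact P_mono hw (bm_P hw A hF).sq (bm_P hw A hF.sq) (fun t => P_sq_le hw hF t) τ

/-- the norm identity for a projection -/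
theorem E_sub_sq (hw : Wt w) {A₀ : Set ι} (h0 : A₀ ⊆ A) (hF : BM F) (τ : ι → X) :
    P μ w A₀ (fun t => (F t - P μ w A F t) ^ 2) τ =
      P μ w A₀ (fun t => F t ^ 2) τ - P μ w A₀ (fun t => P μ w A F t ^ 2) τ := by
  have hP := bm_P (μ := μ) hw A hF
  have h1 : (fun t => (F t - P μ w A F t) ^ 2) =
      fun t => (F t ^ 2 - 2 * (F t * P μ w A F t)) + P μ w A F t ^ 2 := by ext t; ring
  rw [h1, P_add hw (hF.sq.sub ((hF.mul hP).const_mul _)) hP.sq,
    P_sub hw hF.sq ((hF.mul hP).const_mul _), P_const_mul, E_mul_P hw h0 hF hF]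
  simp_rw [← pow_two]
  ring

/-- a function orthogonal to `A`-measurable functions -/
theorem E_mul_eq_zero (hw : Wt w) {A₀ : Set ι} (h0 : A₀ ⊆ A) (hF : BM F) (hG : BM G)
    (hFd : Dep A F) (hG0 : ∀ t, P μ w A G t = 0) (τ : ι → X) :
    P μ w A₀ (fun t => F t * G t) τ = 0 := by
  rw [← P_P hw h0 (hF.mul hG)]
  have : (P μ w A fun t => F t * G t) = fun _ => 0 := by
    ext t
    rw [P_mul_dep hFd, hG0, mul_zero]
  rw [this, P_zero]

/-- **GAIN** (abstract Bessel inequality). `s_z = P_S F - P_{S \ Q z} F`. -/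
theorem gain (hw : Wt w) {A₀ Sc S : Set ι} {κ : Type*} (T : Finset κ) (Q : κ → Set ι)
    (h0 : A₀ ⊆ Sc) (hSc : Sc ⊆ S) (hQ : ∀ z ∈ T, Sc ⊆ S \ Q z) (hF : BM F)
    (hdep : ∀ z ∈ T, ∀ z' ∈ T, z ≠ z' →
      Dep (S \ Q z') (fun t => P μ w S F t - P μ w (S \ Q z) F t)) (τ : ι → X) :
    ∑ z ∈ T, P μ w A₀ (fun t => (P μ w S F t - P μ w (S \ Q z) F t) ^ 2) τ ≤
      P μ w A₀ (fun t => P μ w S F t ^ 2) τ - P μ w A₀ (fun t => P μ w Sc F t ^ 2) τ := by
  classical
  set h := P μ w S F with hh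
  set hc := P μ w Sc F with hhc
  set σ : κ → (ι → X) → ℝ := fun z t => h t - P μ w (S \ Q z) F t with hσ
  have bh : BM h := bm_P hw S hF
  have bhc : BM hc := bm_P hw Sc hF
  have bσ : ∀ z, BM (σ z) := fun z => bh.sub (bm_P hw _ hF)
  have hPσ : ∀ z ∈ T, ∀ t, P μ w (S \ Q z) (σ z) t = 0 := by
    intro z hz t
    rw [hσ]
    simp only
    rw [P_sub hw bh (bm_P hw _ hF), hh, P_P hw sdiff_subset hF, P_P' hw subset_rfl, sub_self]
  -- inner products
  have e1 : ∀ z ∈ T, P μ w A₀ (fun t => h t * σ z t) τ = P μ w A₀ (fun t => σ z t ^ 2) τ := by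
    intro z hz
    have h1 : (fun t => h t * σ z t) = fun t => σ z t ^ 2 + P μ w (S \ Q z) F t * σ z t := by
      ext t; simp only [hσ]; ring
    rw [h1, P_add hw (bσ z).sq ((bm_P hw _ hF).mul (bσ z)),
      E_mul_eq_zero hw (h0.trans (hQ z hz)) (bm_P hw _ hF) (bσ z) (P_dep w _ F) (hPσ z hz),
      add_zero]
  have e2 : ∀ z ∈ T, P μ w A₀ (fun t => hc t * σ z t) τ = 0 := by
    intro z hz
    exact E_mul_eq_zero hw (h0.trans (hQ z hz)) bhc (bσ z) ((P_dep w Sc F).mono (hQ z hz))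
      (hPσ z hz) τ
  have e3 : ∀ z ∈ T, ∀ z' ∈ T, z ≠ z' → P μ w A₀ (fun t => σ z t * σ z' t) τ = 0 := by
    intro z hz z' hz' hne
    exact E_mul_eq_zero hw (h0.trans (hQ z' hz')) (bσ z) (bσ z') (hdep z hz z' hz' hne)
      (hPσ z' hz') τ
  have e4 : P μ w A₀ (fun t => h t * hc t) τ = P μ w A₀ (fun t => hc t ^ 2) τ := by
    rw [hhc, E_mul_P hw h0 bh hF, hh]
    congr 1
    ext t
    rw [P_P hw hSc hF, pow_two]
  set Sg : (ι → X) → ℝ := fun t => ∑ z ∈ T, σ z t with hSg
  have bSg : BM Sg := BM.sum T fun z _ => bσ z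
  have f1 : P μ w A₀ (fun t => h t * Sg t) τ = ∑ z ∈ T, P μ w A₀ (fun t => σ z t ^ 2) τ := by
    have : (fun t => h t * Sg t) = fun t => ∑ z ∈ T, h t * σ z t := by
      ext t; rw [hSg]; simp only; rw [Finset.mul_sum]
    rw [this, P_sum hw T fun z _ => bh.mul (bσ z)]
    exact Finset.sum_congr rfl e1
  have f2 : P μ w A₀ (fun t => hc t * Sg t) τ = 0 := by
    have : (fun t => hc t * Sg t) = fun t => ∑ z ∈ T, hc t * σ z t := by
      ext t; rw [hSg]; simp only; rw [Finset.mul_sum]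
    rw [this, P_sum hw T fun z _ => bhc.mul (bσ z)]
    exact Finset.sum_eq_zero e2
  have f3 : P μ w A₀ (fun t => Sg t * Sg t) τ = ∑ z ∈ T, P μ w A₀ (fun t => σ z t ^ 2) τ := by
    have : (fun t => Sg t * Sg t) = fun t => ∑ z ∈ T, ∑ z' ∈ T, σ z t * σ z' t := by
      ext t; rw [hSg]; simp only; rw [Finset.sum_mul_sum]
    rw [this, P_sum hw T fun z _ => BM.sum T fun z' _ => (bσ z).mul (bσ z')]
    refine Finset.sum_congr rfl fun z hz => ?_
    rw [P_sum hw T fun z' _ => (bσ z).mul (bσ z'), Finset.sum_eq_single z]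
    · simp_rw [← pow_two]
    · intro z' hz' hne
      exact e3 z hz z' hz' hne.symm
    · intro hz'; exact absurd hz hz'
  have hpos : 0 ≤ P μ w A₀ (fun t => (h t - hc t - Sg t) ^ 2) τ :=
    P_nonneg hw ((bh.sub bhc).sub bSg).sq (fun t => sq_nonneg _) τ
  have hexp : (fun t => (h t - hc t - Sg t) ^ 2) = fun t =>
      ((h t ^ 2 + hc t ^ 2) + (Sg t * Sg t + 2 * (hc t * Sg t))) -
        (2 * (h t * hc t) + 2 * (h t * Sg t)) := by
    ext t; ring
  rw [hexp, P_sub hw ((bh.sq.add bhc.sq).add ((bSg.mul bSg).add ((bhc.mul bSg).const_mul _)))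
      (((bh.mul bhc).const_mul _).add ((bh.mul bSg).const_mul _)),
    P_add hw (bh.sq.add bhc.sq) ((bSg.mul bSg).add ((bhc.mul bSg).const_mul _)),
    P_add hw bh.sq bhc.sq, P_add hw (bSg.mul bSg) ((bhc.mul bSg).const_mul _),
    P_add hw ((bh.mul bhc).const_mul _) ((bh.mul bSg).const_mul _), P_const_mul, P_const_mul,
    P_const_mul, f1, f2, f3, e4] at hpos
  linarith

/-! ### the Markov property -/

/-- product formula for integrals of functions of disjoint sets of free spins -/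
theorem N_mul_indep (hU : Disjoint (U₁ \ A) (U₂ \ A)) (hF : Dep (A ∪ U₁) F)
    (hG : Dep (A ∪ U₂) G) (bF : BM F) (bG : BM G) (s : ι → X) :
    N μ A (fun t => F t * G t) s = N μ A F s * N μ A G s := by
  have bf : BM (fun s' => F (glue A s s')) := bF.comp (measurable_glue_right A s)
  have bg : BM (fun s' => G (glue A s s')) := bG.comp (measurable_glue_right A s)
  unfold N
  rw [integral_resample μ U₁ (bf.mul bg)]
  have h1 : ∀ t s' : ι → X, F (glue A s (glue U₁ t s')) = F (glue A s t) := by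
    intro t s'
    refine hF.eq fun v hv => ?_
    by_cases hA : v ∈ A
    · rw [glue_mem hA, glue_mem hA]
    · have hv1 : v ∈ U₁ := hv.resolve_left hA
      rw [glue_not_mem hA, glue_not_mem hA, glue_mem hv1]
  have h2 : ∀ t s' : ι → X, G (glue A s (glue U₁ t s')) = G (glue A s s') := by
    intro t s'
    refine hG.eq fun v hv => ?_
    by_cases hA : v ∈ A
    · rw [glue_mem hA, glue_mem hA]
    · have hv2 : v ∈ U₂ := hv.resolve_left hA
      have hv1 : v ∉ U₁ := fun h => (Set.disjoint_left.1 hU) ⟨h, hA⟩ ⟨hv2, hA⟩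
      rw [glue_not_mem hA, glue_not_mem hA, glue_not_mem hv1]
  simp_rw [h1, h2]
  simp_rw [integral_const_mul]
  rw [integral_mul_const]

/-- conditional independence -/
theorem P_mul_indep (hw₁ : Wt w₁) (hw₂ : Wt w₂) (hU : Disjoint (U₁ \ A) (U₂ \ A))
    (h₁ : Dep (A ∪ U₁) w₁) (h₂ : Dep (A ∪ U₂) w₂) (hF : Dep (A ∪ U₁) F) (hG : Dep (A ∪ U₂) G)
    (bF : BM F) (bG : BM G) (s : ι → X) :
    P μ (fun t => w₁ t * w₂ t) A (fun t => F t * G t) s =
      P μ w₁ A F s * P μ w₂ A G s := by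
  unfold P
  have e1 : (fun t => F t * G t * (w₁ t * w₂ t)) = fun t => (F t * w₁ t) * (G t * w₂ t) := by
    ext t; ring
  rw [e1, N_mul_indep hU (hF.mul h₁) (hG.mul h₂) (bF.mul hw₁.bm) (bG.mul hw₂.bm),
    N_mul_indep hU h₁ h₂ hw₁.bm hw₂.bm]
  rw [div_mul_div_comm]

/-- only the factor of the weight seen by `F` matters -/
theorem P_eq_left (hw₁ : Wt w₁) (hw₂ : Wt w₂) (hU : Disjoint (U₁ \ A) (U₂ \ A))
    (h₁ : Dep (A ∪ U₁) w₁) (h₂ : Dep (A ∪ U₂) w₂) (hF : Dep (A ∪ U₁) F) (bF : BM F)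
    (s : ι → X) : P μ (fun t => w₁ t * w₂ t) A F s = P μ w₁ A F s := by
  have := P_mul_indep (μ := μ) hw₁ hw₂ hU h₁ h₂ hF (Dep.const _ 1) bF (BM.const 1) s
  simpa [P_one hw₂] using this

theorem P_eq_right (hw₁ : Wt w₁) (hw₂ : Wt w₂) (hU : Disjoint (U₁ \ A) (U₂ \ A))
    (h₁ : Dep (A ∪ U₁) w₁) (h₂ : Dep (A ∪ U₂) w₂) (hG : Dep (A ∪ U₂) G) (bG : BM G)
    (s : ι → X) : P μ (fun t => w₁ t * w₂ t) A G s = P μ w₂ A G s := by
  have := P_mul_indep (μ := μ) hw₁ hw₂ hU h₁ h₂ (Dep.const _ 1) hG (BM.const 1) bG s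
  simpa [P_one hw₁] using this

/-- conditional independence, with the full weight everywhere -/
theorem P_mul_indep' (hw₁ : Wt w₁) (hw₂ : Wt w₂) (hU : Disjoint (U₁ \ A) (U₂ \ A))
    (h₁ : Dep (A ∪ U₁) w₁) (h₂ : Dep (A ∪ U₂) w₂) (hF : Dep (A ∪ U₁) F) (hG : Dep (A ∪ U₂) G)
    (bF : BM F) (bG : BM G) (s : ι → X) :
    P μ (fun t => w₁ t * w₂ t) A (fun t => F t * G t) s =
      P μ (fun t => w₁ t * w₂ t) A F s * P μ (fun t => w₁ t * w₂ t) A G s := by
  rw [P_mul_indep hw₁ hw₂ hU h₁ h₂ hF hG bF bG, P_eq_left hw₁ hw₂ hU h₁ h₂ hF bF,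
    P_eq_right hw₁ hw₂ hU h₁ h₂ hG bG]

omit [IsProbabilityMeasure μ] in
/-- the average does not see spins on which neither `F` nor `w` depends -/
theorem P_congr_set (hF : Dep B F) (hw : Dep B w) (h : A ∩ B = A' ∩ B) (s : ι → X) :
    P μ w A F s = P μ w A' F s := by
  have key : ∀ {G : (ι → X) → ℝ}, Dep B G → N μ A G s = N μ A' G s := by
    intro G hG
    unfold N
    congr 1
    ext s'
    refine hG.eq fun v hv => ?_
    by_cases hA : v ∈ A
    · have : v ∈ A' := (h ▸ (⟨hA, hv⟩ : v ∈ A ∩ B) : v ∈ A' ∩ B).1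
      rw [glue_mem hA, glue_mem this]
    · have : v ∉ A' := fun h' => hA (h.symm ▸ (⟨h', hv⟩ : v ∈ A' ∩ B) : v ∈ A ∩ B).1
      rw [glue_not_mem hA, glue_not_mem this]
  unfold P
  rw [key (hF.mul hw), key hw]

omit [IsProbabilityMeasure μ] in
/-- the average depends only on the frozen spins seen by `F` and `w` -/
theorem P_dep_inter (hF : Dep B F) (hw : Dep B w) : Dep (A ∩ B) (P μ w A F) := by
  have key : ∀ {G : (ι → X) → ℝ}, Dep B G → Dep (A ∩ B) (N μ A G) := by
    intro G hG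
    rw [dep_iff]
    intro s t hst
    unfold N
    congr 1
    ext s'
    refine hG.eq fun v hv => ?_
    by_cases hA : v ∈ A
    · rw [glue_mem hA, glue_mem hA, hst v ⟨hA, hv⟩]
    · rw [glue_not_mem hA, glue_not_mem hA]
  exact (key (hF.mul hw)).comp₂ (key hw) (· / ·)

/-- **LOCALITY 1**: `w = w₁ w₂`, `F` and `w₁` see only `B`, `w₂` does not see the free spins of
`B`; then `P_A F` depends only on the spins in `A ∩ B`. -/
theorem P_dep_local (hw₁ : Wt w₁) (hw₂ : Wt w₂) (hF : Dep B F) (h₁ : Dep B w₁)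
    (h₂ : Dep S w₂) (hB : B ∩ S ⊆ A) (bF : BM F) :
    Dep (A ∩ B) (P μ (fun t => w₁ t * w₂ t) A F) := by
  have hU : Disjoint (B \ A) (S \ A) := by
    rw [Set.disjoint_left]
    rintro v ⟨h1, h2⟩ ⟨h3, _⟩
    exact h2 (hB ⟨h1, h3⟩)
  have : P μ (fun t => w₁ t * w₂ t) A F = P μ w₁ A F := by
    ext s
    exact P_eq_left hw₁ hw₂ hU (h₁.mono subset_union_right) (h₂.mono subset_union_right)
      (hF.mono subset_union_right) bF s
  rw [this]
  exact P_dep_inter hF h₁

/-- **LOCALITY 2**: `w = w₁ w₂`, `F` and `w₂` see only `S`; `w₁` sees only `B`, `B ∩ S` is frozen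
in both `A` and `A'`, and `A`, `A'` agree on `S`: then `P_A F = P_{A'} F`. -/
theorem P_eq_of_local (hw₁ : Wt w₁) (hw₂ : Wt w₂) (hF : Dep S F) (h₁ : Dep B w₁)
    (h₂ : Dep S w₂) (hB : B ∩ S ⊆ A) (hB' : B ∩ S ⊆ A') (h : A ∩ S = A' ∩ S) (bF : BM F)
    (s : ι → X) :
    P μ (fun t => w₁ t * w₂ t) A F s = P μ (fun t => w₁ t * w₂ t) A' F s := by
  have hU : ∀ {A : Set ι}, B ∩ S ⊆ A → Disjoint (B \ A) (S \ A) := by
    intro A hB
    rw [Set.disjoint_left]
    rintro v ⟨h1, h2⟩ ⟨h3, _⟩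
    exact h2 (hB ⟨h1, h3⟩)
  rw [P_eq_right hw₁ hw₂ (hU hB) (h₁.mono subset_union_right) (h₂.mono subset_union_right)
      (hF.mono subset_union_right) bF s,
    P_eq_right hw₁ hw₂ (hU hB') (h₁.mono subset_union_right) (h₂.mono subset_union_right)
      (hF.mono subset_union_right) bF s]
  exact P_congr_set hF h₂ h s

/-- conditional independence in the form used for covariances: `F` sees only `B`, `G` only `S`,
`B ∩ S ⊆ A`. -/
theorem P_mul_local (hw₁ : Wt w₁) (hw₂ : Wt w₂) (hF : Dep B F) (h₁ : Dep B w₁)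
    (h₂ : Dep S w₂) (hG : Dep S G) (hB : B ∩ S ⊆ A) (bF : BM F) (bG : BM G) (s : ι → X) :
    P μ (fun t => w₁ t * w₂ t) A (fun t => F t * G t) s =
      P μ (fun t => w₁ t * w₂ t) A F s * P μ (fun t => w₁ t * w₂ t) A G s := by
  have hU : Disjoint (B \ A) (S \ A) := by
    rw [Set.disjoint_left]
    rintro v ⟨h1, h2⟩ ⟨h3, _⟩
    exact h2 (hB ⟨h1, h3⟩)
  exact P_mul_indep' hw₁ hw₂ hU (h₁.mono subset_union_right) (h₂.mono subset_union_right)
    (hF.mono subset_union_right) (hG.mono subset_union_right) bF bG s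

/-! ### symmetries, tilts -/

/-- a `ν`-preserving map compatible with gluing -/
structure Sym (μ : Measure X) (g : (ι → X) → (ι → X)) : Prop where
  mp : MeasurePreserving g (nu ι μ) (nu ι μ)
  glue : ∀ (A : Set ι) (s s' : ι → X), g (PC.glue A s s') = PC.glue A (g s) (g s')

/-- vertexwise `μ`-preserving maps -/
theorem Sym.of_pi {g : ι → X → X} (hg : ∀ v, MeasurePreserving (g v) μ μ) :
    Sym μ (fun (s : ι → X) v => g v (s v)) := by
  refine ⟨measurePreserving_pi _ _ hg, fun A s s' => ?_⟩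
  ext v
  by_cases h : v ∈ A
  · simp [PC.glue, h]
  · simp [PC.glue, h]

variable {g : (ι → X) → (ι → X)}

omit [IsProbabilityMeasure μ] in
theorem N_sym (hg : Sym μ g) (hG : Measurable G) (A : Set ι) (s : ι → X) :
    N μ A G (g s) = N μ A (fun t => G (g t)) s := by
  unfold N
  have hmap : ∫ s', G (glue A (g s) s') ∂(nu ι μ) =
      ∫ s', G (glue A (g s) s') ∂((nu ι μ).map g) := by rw [hg.mp.map_eq]
  rw [hmap, integral_map (f := fun s' => G (glue A (g s) s')) hg.mp.measurable.aemeasurable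
    ((hG.comp (measurable_glue_right A _)).aestronglyMeasurable)]
  simp_rw [← hg.glue]

omit [IsProbabilityMeasure μ] in
/-- `(P_A F)(g s)` is the average for the transformed weight -/
theorem P_sym (hg : Sym μ g) (hw : Measurable w) (hF : Measurable F) (A : Set ι) (s : ι → X) :
    P μ w A F (g s) = P μ (fun t => w (g t)) A (fun t => F (g t)) s := by
  unfold P
  rw [N_sym hg (G := fun t => F t * w t) (hF.mul hw), N_sym hg hw]

omit [IsProbabilityMeasure μ] in
/-- invariance under a symmetry of the weight -/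
theorem P_comp_of_inv (hg : Sym μ g) (hw : Wt w) (hF : BM F) (hinv : ∀ s, w (g s) = w s)
    (A : Set ι) (s : ι → X) : P μ w A F (g s) = P μ w A (fun t => F (g t)) s := by
  rw [P_sym hg hw.meas hF.meas]
  simp_rw [hinv]

omit [IsProbabilityMeasure μ] in
/-- odd functions have odd averages -/
theorem P_odd (hg : Sym μ g) (hw : Wt w) (hF : BM F) (hinv : ∀ s, w (g s) = w s)
    (hodd : ∀ s, F (g s) = - F s) (A : Set ι) (s : ι → X) :
    P μ w A F (g s) = - P μ w A F s := by
  rw [P_comp_of_inv hg hw hF hinv]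
  simp_rw [hodd]
  exact P_neg F s

/-- tilting the weight -/
theorem P_tilt {r : (ι → X) → ℝ} (hw : Wt w) (F : (ι → X) → ℝ) (s : ι → X) :
    P μ (fun t => r t * w t) A F s = P μ w A (fun t => F t * r t) s / P μ w A r s := by
  unfold P
  simp_rw [mul_assoc]
  rw [div_div_div_cancel_right₀ (N_pos hw A s).ne']

omit [IsProbabilityMeasure μ] in
/-- change of variables for a map which is the identity on the frozen spins -/
theorem N_fix (hg : Sym μ g) (hG : Measurable G) {A : Set ι} {s : ι → X}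
    (hfix : ∀ t : ι → X, ∀ v ∈ A, g t v = t v) :
    N μ A (fun t => G (g t)) s = N μ A G s := by
  rw [← N_sym hg hG]
  exact (N_dep A G).eq (fun v hv => hfix s v hv)

omit [IsProbabilityMeasure μ] in
/-- `E[F∘g · (w∘g)/w] = E[F]` for `g` fixing the frozen spins -/
theorem P_fix (hg : Sym μ g) (hw : Wt w) (hF : Measurable F) {A : Set ι} {s : ι → X}
    (hfix : ∀ t : ι → X, ∀ v ∈ A, g t v = t v) :
    P μ w A (fun t => F (g t) * (w (g t) / w t)) s = P μ w A F s := by
  unfold P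
  have h1 : (fun t => F (g t) * (w (g t) / w t) * w t) = fun t => F (g t) * w (g t) := by
    ext t
    rw [mul_assoc, div_mul_cancel₀ _ (hw.pos t).ne']
  rw [h1, N_fix hg (G := fun t => F t * w t) (hF.mul hw.meas) hfix]

end measure

end Crest.Agent.R167.PC
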