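import Crest.Agent.R167.Defs

/-! Row 167, Part D: lattice combinatorics (iteration to exponential decay, shell sum) and the
link with the frozen two-point function. -/

set_option autoImplicit false
open MeasureTheory Crest.ProbabilityR.SpinModel

namespace Crest.Agent.R167.PDLat

/-- sup distance on `ℤ²`. -/
def sd (x y : ℤ × ℤ) : ℤ := max |x.1 - y.1| |x.2 - y.2|

lemma sd_nonneg (x y : ℤ × ℤ) : 0 ≤ sd x y := le_trans (abs_nonneg _) (le_max_left _ _)

lemma sd_comm (x y : ℤ × ℤ) : sd x y = sd y x := by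
  unfold sd
  rw [abs_sub_comm x.1, abs_sub_comm x.2]

lemma sd_triangle (x y z : ℤ × ℤ) : sd x z ≤ sd x y + sd y z := by
  unfold sd
  have h1 : |x.1 - z.1| ≤ |x.1 - y.1| + |y.1 - z.1| := abs_sub_le _ _ _
  have h2 : |x.2 - z.2| ≤ |x.2 - y.2| + |y.2 - z.2| := abs_sub_le _ _ _
  refine max_le ?_ ?_
  · exact h1.trans (add_le_add (le_max_left _ _) (le_max_left _ _))
  · exact h2.trans (add_le_add (le_max_right _ _) (le_max_right _ _))

lemma mem_bx_iff (V : Finset (ℤ × ℤ)) (x : ℤ × ℤ) (R : ℕ) (v : V) :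
    v ∈ bx V x R ↔ sd v x ≤ R := by
  unfold bx sd
  simp only [Set.mem_ofPred_eq, max_le_iff]

/-- Euclidean distance is at most twice the sup distance. -/
lemma eucl_le (x y : ℤ × ℤ) :
    Real.sqrt ((((x.1 - y.1 : ℤ) : ℝ)) ^ 2 + (((x.2 - y.2 : ℤ) : ℝ)) ^ 2) ≤ 2 * (sd x y : ℝ) := by
  have h0 : (0 : ℝ) ≤ (sd x y : ℝ) := by exact_mod_cast sd_nonneg x y
  rw [Real.sqrt_le_left (by positivity)]
  have h1 : |((x.1 - y.1 : ℤ) : ℝ)| ≤ (sd x y : ℝ) := by
    have : |x.1 - y.1| ≤ sd x y := le_max_left _ _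
    exact_mod_cast this
  have h2 : |((x.2 - y.2 : ℤ) : ℝ)| ≤ (sd x y : ℝ) := by
    have : |x.2 - y.2| ≤ sd x y := le_max_right _ _
    exact_mod_cast this
  have h3 := sq_le_sq' (by linarith [abs_nonneg (((x.1 - y.1 : ℤ) : ℝ))]) h1
  have h4 := sq_le_sq' (by linarith [abs_nonneg (((x.2 - y.2 : ℤ) : ℝ))]) h2
  rw [sq_abs] at h3 h4
  nlinarith

/-- Iteration of the finite-size criterion. -/
theorem iterate_aux (V : Finset (ℤ × ℤ)) (h : V → V → ℝ) (R : ℕ) (Z : ℝ) (hZ : 0 ≤ Z)
    (h1 : ∀ x y, h x y ≤ Z)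
    (hstep : ∀ x y : V, (R : ℤ) + 2 ≤ sd x y →
      ∀ M : ℝ, 0 ≤ M → (∀ u : V, sd u x ≤ R + 2 → h u y ≤ M) → h x y ≤ M / 2) (k : ℕ) :
    ∀ x y : V, (k : ℤ) * (R + 2) ≤ sd x y → h x y ≤ Z * (1 / 2 : ℝ) ^ k := by
  induction k with
  | zero => intro x y _; simpa using h1 x y
  | succ k ih =>
    intro x y hxy
    have hk : (0 : ℤ) ≤ (k : ℤ) * (R + 2) := by positivity
    have hxy' : (k : ℤ) * (R + 2) + (R + 2) ≤ sd x y := by push_cast at hxy; linarith
    have := hstep x y (by linarith) (Z * (1 / 2 : ℝ) ^ k) (by positivity) (fun u hu => ih u y (by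
      have := sd_triangle x u y
      rw [sd_comm (x : ℤ × ℤ) u] at this
      linarith))
    calc h x y ≤ (Z * (1 / 2 : ℝ) ^ k) / 2 := this
      _ = Z * (1 / 2 : ℝ) ^ (k + 1) := by rw [pow_succ]; ring

/-- (b2) exponential decay in the Euclidean distance. -/
theorem iterate (V : Finset (ℤ × ℤ)) (R : ℕ) (h : V → V → ℝ) (Z : ℝ) (hZ : 0 ≤ Z)
    (h1 : ∀ x y, h x y ≤ Z)
    (h2 : ∀ (x y : V) (M : ℝ), 0 ≤ M → y ∉ bx V x (R + 1) →
      (∀ u ∈ bx V x (R + 2), h u y ≤ M) → h x y ≤ M / 2) (x y : V) :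
    h x y ≤ 2 * Z * Real.exp (-(Real.log 2 / (2 * ((R : ℝ) + 2))) *
      Real.sqrt ((((x : ℤ × ℤ).1 - (y : ℤ × ℤ).1 : ℤ) : ℝ) ^ 2 +
        (((x : ℤ × ℤ).2 - (y : ℤ × ℤ).2 : ℤ) : ℝ) ^ 2)) := by
  have hstep : ∀ x y : V, (R : ℤ) + 2 ≤ sd x y →
      ∀ M : ℝ, 0 ≤ M → (∀ u : V, sd u x ≤ R + 2 → h u y ≤ M) → h x y ≤ M / 2 := by
    intro x y hxy M hM hu
    refine h2 x y M hM ?_ ?_
    · rw [mem_bx_iff, sd_comm]
      push_cast
      intro hle
      linarith
    · intro u hub
      rw [mem_bx_iff] at hub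
      exact hu u (by push_cast at hub; linarith)
  set k : ℕ := (sd x y / ((R : ℤ) + 2)).toNat with hk
  have hpos : (0 : ℤ) < (R : ℤ) + 2 := by positivity
  have hk' : ((k : ℕ) : ℤ) = sd x y / ((R : ℤ) + 2) := by
    rw [hk, Int.toNat_of_nonneg]
    exact Int.ediv_nonneg (sd_nonneg _ _) hpos.le
  have hle : (k : ℤ) * (R + 2) ≤ sd x y := by
    rw [hk']; exact Int.ediv_mul_le _ hpos.ne'
  have hlt : sd x y < ((k : ℤ) + 1) * (R + 2) := by
    rw [hk']
    exact Int.lt_ediv_add_one_mul_self _ hpos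
  have hmain := iterate_aux V h R Z hZ h1 hstep k x y hle
  refine hmain.trans ?_
  have hltR : (sd x y : ℝ) < ((k : ℝ) + 1) * (R + 2) := by exact_mod_cast hlt
  have hposR : (0 : ℝ) < (R : ℝ) + 2 := by positivity
  have e1 : (1 / 2 : ℝ) ^ k = 2 * Real.exp (-(Real.log 2) * (k + 1)) := by
    have : Real.exp (-(Real.log 2) * (k + 1)) = (1 / 2 : ℝ) ^ (k + 1) := by
      rw [show -(Real.log 2) * ((k : ℝ) + 1) = ((k + 1 : ℕ) : ℝ) * (-(Real.log 2)) by
        push_cast; ring, Real.exp_nat_mul, Real.exp_neg, Real.exp_log (by norm_num)]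
      norm_num
    rw [this, pow_succ]; ring
  rw [e1, show Z * (2 * Real.exp (-(Real.log 2) * (k + 1)))
    = 2 * Z * Real.exp (-(Real.log 2) * (k + 1)) by ring]
  refine mul_le_mul_of_nonneg_left (Real.exp_le_exp.mpr ?_) (by positivity)
  have hl : 0 < Real.log 2 := Real.log_pos (by norm_num)
  have he := eucl_le (x : ℤ × ℤ) (y : ℤ × ℤ)
  have h5 : Real.log 2 / (2 * ((R : ℝ) + 2)) *
      Real.sqrt ((((x : ℤ × ℤ).1 - (y : ℤ × ℤ).1 : ℤ) : ℝ) ^ 2 +
        (((x : ℤ × ℤ).2 - (y : ℤ × ℤ).2 : ℤ) : ℝ) ^ 2) ≤ Real.log 2 * (k + 1) := by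
    calc _ ≤ Real.log 2 / (2 * ((R : ℝ) + 2)) * (2 * (sd x y : ℝ)) :=
          mul_le_mul_of_nonneg_left he (by positivity)
      _ ≤ Real.log 2 / (2 * ((R : ℝ) + 2)) * (2 * (((k : ℝ) + 1) * (R + 2))) :=
          mul_le_mul_of_nonneg_left (by linarith) (by positivity)
      _ = Real.log 2 * (k + 1) := by field_simp
  linarith

/-- the sup-norm shell at distance `R+1`. -/
def shell (V : Finset (ℤ × ℤ)) (x : ℤ × ℤ) (R : ℕ) : Finset V :=
  Finset.univ.filter fun u : V => sd u x = R + 1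

lemma mem_shell (V : Finset (ℤ × ℤ)) (x : ℤ × ℤ) (R : ℕ) (u : V) :
    u ∈ shell V x R ↔ sd u x = R + 1 := by
  unfold shell
  constructor
  · intro hu; exact (Finset.mem_filter.mp hu).2
  · intro hu; exact Finset.mem_filter.mpr ⟨Finset.mem_univ _, hu⟩

lemma card_shell (V : Finset (ℤ × ℤ)) (x : ℤ × ℤ) (R : ℕ) :
    (shell V x R).card ≤ 8 * (R + 1) := by
  classical
  let big : Finset (ℤ × ℤ) := Finset.Icc (x.1 - (R + 1)) (x.1 + (R + 1)) ×ˢ
    Finset.Icc (x.2 - (R + 1)) (x.2 + (R + 1))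
  let small : Finset (ℤ × ℤ) := Finset.Icc (x.1 - R) (x.1 + R) ×ˢ Finset.Icc (x.2 - R) (x.2 + R)
  have hsub : small ⊆ big := by
    intro p hp
    simp only [small, big, Finset.mem_product, Finset.mem_Icc] at hp ⊢
    omega
  have hbig : big.card = (2 * R + 3) * (2 * R + 3) := by
    simp only [big, Finset.card_product, Int.card_Icc]
    congr 1 <;> omega
  have hsmall : small.card = (2 * R + 1) * (2 * R + 1) := by
    simp only [small, Finset.card_product, Int.card_Icc]
    congr 1 <;> omega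
  have hmap : ((shell V x R).map (Function.Embedding.subtype _)) ⊆ big \ small := by
    intro p hp
    simp only [Finset.mem_map, Function.Embedding.coe_subtype] at hp
    obtain ⟨u, hu, rfl⟩ := hp
    have hu' : sd u x = R + 1 := (mem_shell V x R u).mp hu
    unfold sd at hu'
    simp only [Finset.mem_sdiff, small, big, Finset.mem_product, Finset.mem_Icc]
    have h1 : |(u : ℤ × ℤ).1 - x.1| ≤ R + 1 := by rw [← hu']; exact le_max_left _ _
    have h2 : |(u : ℤ × ℤ).2 - x.2| ≤ R + 1 := by rw [← hu']; exact le_max_right _ _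
    rw [abs_le] at h1 h2
    refine ⟨⟨⟨by linarith, by linarith⟩, ⟨by linarith, by linarith⟩⟩, ?_⟩
    rintro ⟨⟨a1, a2⟩, a3, a4⟩
    have h3 : max |(u : ℤ × ℤ).1 - x.1| |(u : ℤ × ℤ).2 - x.2| ≤ R :=
      max_le (abs_le.mpr ⟨by linarith, by linarith⟩) (abs_le.mpr ⟨by linarith, by linarith⟩)
    linarith
  have hc := Finset.card_le_card hmap
  rw [Finset.card_map, Finset.card_sdiff_of_subset hsub, hbig, hsmall] at hc
  refine hc.trans ?_
  have : (2 * R + 3) * (2 * R + 3) = (2 * R + 1) * (2 * R + 1) + 8 * (R + 1) := by ring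
  omega

lemma sd_dir (u : ℤ × ℤ) (i : Fin 2) : sd u (u + latticeDir i) = 1 := by
  unfold sd latticeDir
  split_ifs <;> simp

/-- (b1) the sum over the shell. -/
theorem shell_sum (V : Finset (ℤ × ℤ)) (b : ℤ × ℤ → Fin 2 → ℝ) (β : ℝ)
    (hb : ∀ u i, 0 ≤ b u i ∧ b u i ≤ β) (x : V) (R : ℕ) (D M : ℝ) (hD : 0 ≤ D) (hM : 0 ≤ M)
    (h : V → ℝ) (h0 : ∀ u, 0 ≤ h u) (hM' : ∀ u ∈ bx V x (R + 2), h u ≤ M) (c : V → ℝ)
    (hc0 : ∀ z, 0 ≤ c z) (hc : ∀ z, c z ≤ D)
    (hcs : ∀ z, c z ≠ 0 → z ∈ bx V x (R + 1) ∧ z ∉ bx V x R) :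
    ∑ z, c z * ∑ e, (latG V b).b e * ((if (latG V b).src e = z then h ((latG V b).tgt e) else 0)
        + (if (latG V b).tgt e = z then h ((latG V b).src e) else 0))
      ≤ 32 * β * (R + 1) * D * M := by
  classical
  have hβ : 0 ≤ β := (hb 0 0).1.trans (hb 0 0).2
  set T : V → ℝ := fun z => ∑ e, (latG V b).b e *
    ((if (latG V b).src e = z then h ((latG V b).tgt e) else 0)
        + (if (latG V b).tgt e = z then h ((latG V b).src e) else 0)) with hT
  -- the inner sum
  have hTle : ∀ z ∈ bx V x (R + 1), T z ≤ 4 * (β * M) := by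
    intro z hz
    rw [mem_bx_iff] at hz
    have hterm : ∀ e : V × Fin 2, (latG V b).b e *
        ((if (latG V b).src e = z then h ((latG V b).tgt e) else 0)
        + (if (latG V b).tgt e = z then h ((latG V b).src e) else 0))
        ≤ (β * M) * ((if e.1 = z then 1 else 0)
          + (if (e.1 : ℤ × ℤ) + latticeDir e.2 = (z : ℤ × ℤ) then 1 else 0)) := by
      intro e
      by_cases he : (e.1 : ℤ × ℤ) + latticeDir e.2 ∈ V
      · have hbe : (latG V b).b e = b e.1 e.2 := by simp [latG, he]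
        have hte : (latG V b).tgt e = ⟨(e.1 : ℤ × ℤ) + latticeDir e.2, he⟩ := by simp [latG, he]
        have hse : (latG V b).src e = e.1 := rfl
        rw [hbe, hte, hse, mul_add, mul_add]
        have hb' := hb e.1 e.2
        refine add_le_add ?_ ?_
        · by_cases h1 : e.1 = z
          · rw [if_pos h1, if_pos h1, mul_one]
            refine mul_le_mul hb'.2 (hM' _ ?_) (h0 _) hβ
            rw [mem_bx_iff]
            have h3 := sd_triangle ((e.1 : ℤ × ℤ) + latticeDir e.2) e.1 x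
            rw [sd_comm _ (e.1 : ℤ × ℤ), sd_dir, h1] at h3
            push_cast at hz ⊢
            have h4 : sd ((e.1 : ℤ × ℤ) + latticeDir e.2) x ≤ (R : ℤ) + 2 := by
              rw [h1]; linarith
            exact h4
          · rw [if_neg h1, if_neg h1]
            simp
        · by_cases h1 : (e.1 : ℤ × ℤ) + latticeDir e.2 = (z : ℤ × ℤ)
          · have h2 : (⟨(e.1 : ℤ × ℤ) + latticeDir e.2, he⟩ : V) = z := Subtype.ext h1
            rw [if_pos h2, if_pos h1, mul_one]
            refine mul_le_mul hb'.2 (hM' _ ?_) (h0 _) hβ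
            rw [mem_bx_iff]
            have h3 := sd_triangle (e.1 : ℤ × ℤ) ((e.1 : ℤ × ℤ) + latticeDir e.2) x
            rw [sd_dir, h1] at h3
            push_cast at hz ⊢
            linarith
          · have h2 : ¬ (⟨(e.1 : ℤ × ℤ) + latticeDir e.2, he⟩ : V) = z :=
              fun h2 => h1 (congrArg Subtype.val h2)
            rw [if_neg h2, if_neg h1]
            simp
      · have hbe : (latG V b).b e = 0 := by simp [latG, he]
        rw [hbe, zero_mul]
        refine mul_nonneg (mul_nonneg hβ hM) (add_nonneg ?_ ?_) <;> split_ifs <;> norm_num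
    calc T z ≤ ∑ e : V × Fin 2, (β * M) * ((if e.1 = z then 1 else 0)
          + (if (e.1 : ℤ × ℤ) + latticeDir e.2 = (z : ℤ × ℤ) then 1 else 0)) :=
          Finset.sum_le_sum fun e _ => hterm e
      _ = (β * M) * (∑ e : V × Fin 2, (if e.1 = z then (1 : ℝ) else 0)
          + ∑ e : V × Fin 2,
            (if (e.1 : ℤ × ℤ) + latticeDir e.2 = (z : ℤ × ℤ) then (1 : ℝ) else 0)) := by
          rw [← Finset.mul_sum, Finset.sum_add_distrib]
      _ ≤ (β * M) * (2 + 2) := by
          refine mul_le_mul_of_nonneg_left (add_le_add ?_ ?_) (mul_nonneg hβ hM)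
          · rw [Fintype.sum_prod_type_right]
            simp
          · rw [Fintype.sum_prod_type_right]
            have h5 : ∀ i : Fin 2, ∑ u : V,
                (if (u : ℤ × ℤ) + latticeDir i = (z : ℤ × ℤ) then (1 : ℝ) else 0) ≤ 1 := by
              intro i
              rw [Finset.sum_boole]
              have : (Finset.univ.filter fun u : V =>
                  (u : ℤ × ℤ) + latticeDir i = (z : ℤ × ℤ)).card ≤ 1 := by
                rw [Finset.card_le_one]
                intro u hu w hw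
                have hu' := (Finset.mem_filter.mp hu).2
                have hw' := (Finset.mem_filter.mp hw).2
                exact Subtype.ext (add_right_cancel (hu'.trans hw'.symm))
              exact_mod_cast this
            calc _ ≤ ∑ _i : Fin 2, (1 : ℝ) := Finset.sum_le_sum fun i _ => h5 i
              _ = 2 := by simp
      _ = 4 * (β * M) := by ring
  have hz0 : ∀ z, z ∉ shell V x R → c z = 0 := by
    intro z hz
    by_contra hne
    obtain ⟨ha, hb'⟩ := hcs z hne
    rw [mem_bx_iff] at ha hb'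
    apply hz
    rw [mem_shell]
    push_cast at ha
    omega
  calc ∑ z, c z * T z = ∑ z ∈ shell V x R, c z * T z := by
        symm
        apply Finset.sum_subset (Finset.subset_univ _)
        intro z _ hz
        rw [hz0 z hz, zero_mul]
    _ ≤ ∑ _z ∈ shell V x R, D * (4 * (β * M)) := by
        refine Finset.sum_le_sum fun z hz => ?_
        have hz' := (mem_shell V x R z).mp hz
        have h6 : z ∈ bx V x (R + 1) := by
          rw [mem_bx_iff]; push_cast; exact hz'.le
        by_cases hT0 : 0 ≤ T z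
        · exact mul_le_mul (hc z) (hTle z h6) hT0 hD
        · push Not at hT0
          have h7 : c z * T z ≤ 0 := mul_nonpos_of_nonneg_of_nonpos (hc0 z) hT0.le
          have h8 : 0 ≤ D * (4 * (β * M)) := by positivity
          linarith
    _ = (shell V x R).card * (D * (4 * (β * M))) := by rw [Finset.sum_const, nsmul_eq_mul]
    _ ≤ (8 * ((R : ℝ) + 1)) * (D * (4 * (β * M))) :=
        mul_le_mul_of_nonneg_right (by exact_mod_cast card_shell V x R) (by positivity)
    _ = 32 * β * (R + 1) * D * M := by ring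

/-! ### the link -/

lemma interaction_eq (n : ℕ) (V : Finset (ℤ × ℤ)) (b : ℤ × ℤ → Fin 2 → ℝ) (σ : Cf V n) :
    interaction n V b σ = (latG V b).I σ := by
  unfold interaction Gr.I
  rw [Fintype.sum_prod_type]
  refine Finset.sum_congr rfl fun u _ => Finset.sum_congr rfl fun i _ => ?_
  by_cases h : (u : ℤ × ℤ) + latticeDir i ∈ V
  · simp [latG, h]
  · simp [latG, h]

lemma toSphere_ne_zero {n : ℕ} (hn : 1 ≤ n) :
    ((volume : Measure (EuclideanSpace ℝ (Fin n))).toSphere Set.univ) ≠ 0 := by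
  have : Nonempty (Fin n) := ⟨⟨0, hn⟩⟩
  rw [Measure.toSphere_apply_univ]
  refine mul_ne_zero ?_ ?_
  · rw [finrank_euclideanSpace, Fintype.card_fin]
    exact_mod_cast (by omega : n ≠ 0)
  · exact (Metric.measure_ball_pos _ _ one_pos).ne'

lemma toSphere_ne_top (n : ℕ) :
    ((volume : Measure (EuclideanSpace ℝ (Fin n))).toSphere Set.univ) ≠ ⊤ := measure_ne_top _ _

/-- the normalised product measure is a multiple of the frozen reference law. -/
lemma nu_eq {n : ℕ} (hn : 1 ≤ n) (V : Finset (ℤ × ℤ)) :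
    nu V n = ((((volume : Measure (EuclideanSpace ℝ (Fin n))).toSphere Set.univ)⁻¹) ^
      (Fintype.card V)) • referenceLaw n V := by
  set c : ENNReal := (((volume : Measure (EuclideanSpace ℝ (Fin n))).toSphere Set.univ)⁻¹) with hc
  have hctop : c ≠ ⊤ := ENNReal.inv_ne_top.mpr (toSphere_ne_zero hn)
  have hfin : IsFiniteMeasure (unif n) := by
    unfold unif
    rw [← hc]
    exact Measure.smul_finite _ hctop
  unfold nu referenceLaw
  refine Measure.pi_eq fun s hs => ?_
  rw [Measure.smul_apply, Measure.pi_pi, smul_eq_mul]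
  unfold unif
  rw [← hc]
  simp only [Measure.smul_apply, smul_eq_mul]
  rw [Finset.prod_mul_distrib, Finset.prod_const, Finset.card_univ]

/-- (a) the link. -/
theorem twoPoint_eq {n : ℕ} (hn : 1 ≤ n) (V : Finset (ℤ × ℤ)) (b : ℤ × ℤ → Fin 2 → ℝ) (x y : V) :
    twoPoint n V b x y = (∑ i : Fin n, ∫ s : Cf V n, ((s x : EuclideanSpace ℝ (Fin n)) i *
        (s y : EuclideanSpace ℝ (Fin n)) i) * Real.exp ((latG V b).I s) ∂(nu V n)) /
      ∫ s : Cf V n, Real.exp ((latG V b).I s) ∂(nu V n) := by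
  set c : ENNReal := (((volume : Measure (EuclideanSpace ℝ (Fin n))).toSphere Set.univ)⁻¹) ^
      (Fintype.card V) with hc
  have hc0 : c ≠ 0 := pow_ne_zero _ (ENNReal.inv_ne_zero.mpr (toSphere_ne_top n))
  have hctop : c ≠ ⊤ := ENNReal.pow_ne_top (ENNReal.inv_ne_top.mpr (toSphere_ne_zero hn))
  have hcr : 0 < c.toReal := ENNReal.toReal_pos hc0 hctop
  have hI : Continuous fun s : Cf V n => Real.exp ((latG V b).I s) := by
    refine Real.continuous_exp.comp ?_
    unfold Gr.I
    refine continuous_finsetSum _ fun e _ => continuous_const.mul ?_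
    exact (continuous_subtype_val.comp (continuous_apply _)).inner
      (continuous_subtype_val.comp (continuous_apply _))
  have : IsFiniteMeasure (referenceLaw n V) := by unfold referenceLaw; infer_instance
  rw [nu_eq hn V, ← hc]
  simp only [integral_smul_measure, smul_eq_mul]
  rw [← Finset.mul_sum, mul_div_mul_left _ _ hcr.ne']
  unfold twoPoint partitionFn
  simp only [interaction_eq]
  congr 1
  rw [← integral_finsetSum]
  · refine integral_congr_ae (Filter.Eventually.of_forall fun s => ?_)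
    simp only
    rw [← Finset.sum_mul]
    congr 1
    simp [PiLp.inner_apply, mul_comm]
  · intro i _
    refine Continuous.integrable_of_hasCompactSupport ?_ (HasCompactSupport.of_compactSpace _)
    refine Continuous.mul (Continuous.mul ?_ ?_) hI
    · have h1 : Continuous (fun z : EuclideanSpace ℝ (Fin n) => z i) := by fun_prop
      exact h1.comp (continuous_subtype_val.comp (continuous_apply _))
    · have h1 : Continuous (fun z : EuclideanSpace ℝ (Fin n) => z i) := by fun_prop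
      exact h1.comp (continuous_subtype_val.comp (continuous_apply _))

end Crest.Agent.R167.PDLat
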