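import Crest.Agent.R167.PCalc2
import Crest.Agent.R167.Sph
import Crest.Agent.R167.Iface

set_option autoImplicit false
open MeasureTheory Crest.ProbabilityR.SpinModel

/-! # Row 167, NODE C: iteration of Theorem B -/

namespace Crest.Agent.R167

namespace PtC

section
variable {ι E : Type} [Fintype ι] [Fintype E] {n : ℕ}

lemma P_neg (G : Gr ι E) (A : Set ι) (F : Cf ι n → ℝ) (s : Cf ι n) :
    P G A (fun s => -F s) s = -P G A F s := by
  unfold P
  rw [← neg_div, ← integral_neg]
  congr 2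
  funext s'
  ring

/-- `I` is invariant under a global rotation. -/
lemma I_rot {k l : Fin n} (h : k ≠ l) (θ : ℝ) (G : Gr ι E) (s : Cf ι n) :
    G.I (fun v => rotS h θ (s v)) = G.I s := by
  unfold Gr.I
  refine Finset.sum_congr rfl fun e _ => ?_
  congr 1
  change inner ℝ (rotV k l θ (s (G.src e) : EuclideanSpace ℝ (Fin n)))
    (rotV k l θ (s (G.tgt e) : EuclideanSpace ℝ (Fin n)))
      = inner ℝ (s (G.src e) : EuclideanSpace ℝ (Fin n)) (s (G.tgt e) : EuclideanSpace ℝ (Fin n))
  generalize (s (G.src e) : EuclideanSpace ℝ (Fin n)) = x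
  generalize (s (G.tgt e) : EuclideanSpace ℝ (Fin n)) = y
  have hsub : rotV k l θ x + rotV k l θ y = rotV k l θ (x + y) := by
    ext i
    simp only [rotV, PiLp.add_apply]
    split_ifs <;> ring
  have e1 := norm_add_sq_real (rotV k l θ x) (rotV k l θ y)
  have e2 := norm_add_sq_real x y
  rw [hsub, norm_rotV h, norm_rotV h, norm_rotV h] at e1
  linarith

lemma glue_rot {k l : Fin n} (h : k ≠ l) (θ : ℝ) (A : Set ι) (s s' : Cf ι n) :
    glue A (fun v => rotS h θ (s v)) (fun v => rotS h θ (s' v))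
      = fun v => rotS h θ (glue A s s' v) := by
  funext v
  unfold glue
  split_ifs <;> rfl

lemma continuous_glue (A : Set ι) (s : Cf ι n) : Continuous fun s' : Cf ι n => glue A s s' := by
  unfold glue
  refine continuous_pi fun v => ?_
  split_ifs
  · exact continuous_const
  · exact continuous_apply v

/-- covariance of `P` under a global rotation. -/
lemma P_rot [NeZero n] {k l : Fin n} (h : k ≠ l) (θ : ℝ) (G : Gr ι E) (A : Set ι)
    {F : Cf ι n → ℝ} (hF : Continuous F) (s : Cf ι n) :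
    P G A F (fun v => rotS h θ (s v)) = P G A (fun s => F (fun v => rotS h θ (s v))) s := by
  have hρ : (fun s : Cf ι n => fun v => rotS h θ (s v)) = Flow h (fun _ => 1) θ := by
    funext s v
    simp [Flow]
  have hmp : MeasurePreserving (fun s : Cf ι n => fun v => rotS h θ (s v)) (nu ι n) (nu ι n) := by
    rw [hρ]; exact mp_Flow h _ θ
  have key : ∀ H : Cf ι n → ℝ, Continuous H →
      ∫ s', H (glue A (fun v => rotS h θ (s v)) s') ∂(nu ι n)
        = ∫ s', H (fun v => rotS h θ (glue A s s' v)) ∂(nu ι n) := by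
    intro H hH
    have hc : Continuous fun s' : Cf ι n => H (glue A (fun v => rotS h θ (s v)) s') :=
      hH.comp (continuous_glue A _)
    have h1 := integral_map (μ := nu ι n) (φ := fun s : Cf ι n => fun v => rotS h θ (s v))
      (f := fun s' : Cf ι n => H (glue A (fun v => rotS h θ (s v)) s'))
      hmp.measurable.aemeasurable hc.aestronglyMeasurable
    rw [hmp.map_eq] at h1
    rw [h1]
    simp only [glue_rot]
  have hI : Continuous (G.I : Cf ι n → ℝ) := continuous_I G
  unfold P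
  rw [key (fun s => F s * Real.exp (G.I s)) (hF.mul (Real.continuous_exp.comp hI)),
    key (fun s => Real.exp (G.I s)) (Real.continuous_exp.comp hI)]
  simp only [I_rot]

end

lemma bx_mono (V : Finset (ℤ × ℤ)) (x : ℤ × ℤ) {R R' : ℕ} (h : R ≤ R') :
    bx V x R ⊆ bx V x R' := by
  intro v hv
  obtain ⟨h1, h2⟩ := hv
  have : (R : ℤ) ≤ R' := by exact_mod_cast h
  exact ⟨h1.trans this, h2.trans this⟩

/-- both ends of an edge with an end in the box are in the next box. -/
lemma latG_edge (V : Finset (ℤ × ℤ)) (b : ℤ × ℤ → Fin 2 → ℝ) (x : ℤ × ℤ) (R : ℕ)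
    (e : V × Fin 2) (he : (latG V b).src e ∈ bx V x R ∨ (latG V b).tgt e ∈ bx V x R) :
    (latG V b).src e ∈ bx V x (R + 1) ∧ (latG V b).tgt e ∈ bx V x (R + 1) := by
  obtain ⟨u, i⟩ := e
  by_cases hu : (u : ℤ × ℤ) + latticeDir i ∈ V
  · have h2 : (latG V b).tgt (u, i) = ⟨(u : ℤ × ℤ) + latticeDir i, hu⟩ := by simp [latG, hu]
    have h1 : (latG V b).src (u, i) = u := rfl
    rw [h1, h2] at he ⊢
    have hd : |(latticeDir i).1| ≤ 1 ∧ |(latticeDir i).2| ≤ 1 := by
      unfold latticeDir
      split_ifs <;> simp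
    obtain ⟨hd1, hd2⟩ := hd
    rw [abs_le] at hd1 hd2
    simp only [bx, Set.mem_ofPred_eq, Prod.fst_add, Prod.snd_add, abs_le] at he ⊢
    push_cast
    rcases he with he | he <;> refine ⟨⟨⟨?_, ?_⟩, ⟨?_, ?_⟩⟩, ⟨⟨?_, ?_⟩, ⟨?_, ?_⟩⟩⟩ <;> omega
  · have h2 : (latG V b).tgt (u, i) = u := by simp [latG, hu]
    have h1 : (latG V b).src (u, i) = u := rfl
    rw [h1, h2] at he ⊢
    have h3 : u ∈ bx V x (R + 1) := bx_mono V x (Nat.le_succ R) (he.elim id id)
    exact ⟨h3, h3⟩

/-- the sequence of radii. -/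
def rad (R0 : ℕ) : ℕ → ℕ
  | 0 => R0
  | j + 1 => 4 * (rad R0 j + 1)

lemma rad_ge (R0 j : ℕ) : R0 ≤ rad R0 j := by
  induction j with
  | zero => exact le_rfl
  | succ j ih => simp only [rad]; omega

lemma rad_le (R0 j : ℕ) : (rad R0 j : ℝ) + 1 ≤ (R0 + 2) * 4 ^ j := by
  have : (rad R0 j : ℝ) + 4 / 3 = (R0 + 4 / 3) * 4 ^ j := by
    induction j with
    | zero => simp [rad]
    | succ j ih =>
      simp only [rad]
      push_cast
      rw [pow_succ]
      linarith
  have h4 : (1 : ℝ) ≤ 4 ^ j := one_le_pow₀ (by norm_num)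
  nlinarith

end PtC

open PtC in
theorem partC : PartC := by
  intro hB n hn β ε hβ hε
  obtain ⟨R0, hR0⟩ := hB n hn β (1 / 10) hβ (by norm_num)
  have hn0 : NeZero n := ⟨by omega⟩
  -- the key induction
  have key : ∀ j : ℕ, ∀ (V : Finset (ℤ × ℤ)) (b : ℤ × ℤ → Fin 2 → ℝ),
      (∀ u i, 0 ≤ b u i ∧ b u i ≤ β) → ∀ (x : V) (k : Fin n) (s : Cf V n),
      |P (latG V b) (bx V x (rad R0 j))ᶜ
        (fun s => (s x : EuclideanSpace ℝ (Fin n)) k) s| ≤ (1 / 10) ^ j := by
    intro j
    induction j with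
    | zero =>
      intro V b hb x k s
      rw [pow_zero]
      refine P_abs_le _ (by fun_prop) (fun s => ?_) s
      have h1 : ‖(s x : EuclideanSpace ℝ (Fin n)) k‖ ≤ ‖(s x : EuclideanSpace ℝ (Fin n))‖ :=
        PiLp.norm_apply_le _ _
      have h2 : ‖(s x : EuclideanSpace ℝ (Fin n))‖ = 1 := by simp
      rw [h2] at h1
      exact h1
    | succ j ih =>
      intro V b hb x k s
      have hFc : Continuous (fun s : Cf V n => (s x : EuclideanSpace ℝ (Fin n)) k) := by
        fun_prop
      set u : Cf V n → ℝ := P (latG V b) (bx V x (rad R0 j))ᶜ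
        (fun s => (s x : EuclideanSpace ℝ (Fin n)) k) with hu
      obtain ⟨l, hkl⟩ : ∃ l : Fin n, k ≠ l := by
        have : Nontrivial (Fin n) := Fin.nontrivial_iff_two_le.mpr (by omega)
        obtain ⟨l, hl⟩ := exists_ne k
        exact ⟨l, hl.symm⟩
      have huc : Continuous u := continuous_P _ hFc
      have hud : Dep (bx V x (rad R0 j + 1)) u := by
        have hx : x ∈ bx V x (rad R0 j + 1) := by
          refine ⟨?_, ?_⟩ <;> simp <;> positivity
        have h1 : Dep ((bx V x (rad R0 j))ᶜ ∩ bx V x (rad R0 j + 1)) u := by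
          refine P_dep_of_closed _ _ _ (fun s t hst => ?_) (fun e he => ?_)
          · simp only [hst x hx]
          · refine latG_edge V b x _ e ?_
            rcases he with he | he
            · left; exact not_not.mp he.2
            · right; exact not_not.mp he.2
        exact fun s t hst => h1 s t fun v hv => hst v hv.2
      have hodd : ∀ s, u (fun v => rotS hkl Real.pi (s v)) = -u s := by
        intro s
        rw [hu, P_rot hkl Real.pi _ _ hFc, ← P_neg]
        congr 1
        funext s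
        simp [rotS, rotV]
      have h := hR0 (rad R0 j + 1) (by have := rad_ge R0 j; omega) V b hb x k l hkl u
        ((1 / 10) ^ j) huc hud hodd (fun s => ih V b hb x k s) s
      rw [hu, P_tower (latG V b) (Set.compl_subset_compl.mpr
        (bx_mono V x (by omega : rad R0 j ≤ 4 * (rad R0 j + 1)))) hFc] at h
      rw [pow_succ]
      simpa [rad, mul_comm] using h
  -- choose j
  obtain ⟨j, hj⟩ : ∃ j : ℕ, ((R0 : ℝ) + 2) * (4 / 10) ^ j ≤ ε := by
    have h0 : Filter.Tendsto (fun j : ℕ => ((R0 : ℝ) + 2) * (4 / 10 : ℝ) ^ j) Filter.atTop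
        (nhds (((R0 : ℝ) + 2) * 0)) :=
      (tendsto_pow_atTop_nhds_zero_of_lt_one (by norm_num) (by norm_num)).const_mul _
    rw [mul_zero] at h0
    exact ((h0.eventually (gt_mem_nhds hε)).exists).imp fun j hj => hj.le
  refine ⟨rad R0 j, fun V b hb x k s => ?_⟩
  have h1 := key j V b hb x k s
  have h2 := rad_le R0 j
  have h3 : (0 : ℝ) ≤ (rad R0 j : ℝ) + 1 := by positivity
  calc |P (latG V b) (bx V x (rad R0 j))ᶜ
        (fun s => (s x : EuclideanSpace ℝ (Fin n)) k) s| * ((rad R0 j : ℝ) + 1)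
      ≤ (1 / 10) ^ j * (((R0 : ℝ) + 2) * 4 ^ j) := by gcongr
    _ = ((R0 : ℝ) + 2) * (4 / 10) ^ j := by
        rw [div_pow, div_pow, one_pow]; ring
    _ ≤ ε := hj

end Crest.Agent.R167
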