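import Crest.Agent.R167.DMain
import Crest.Agent.R167.PDLat

/-! Row 167, Part D: assembly. -/

set_option autoImplicit false
set_option linter.unusedSectionVars false

namespace Crest.Agent.R167

namespace D
open MeasureTheory Crest.Agent.R167 Crest.Agent.R167.Ising Finset Crest.ProbabilityR.SpinModel

variable {n : ℕ}

lemma abs_P_le_of_small {V : Finset (ℤ × ℤ)} {b : ℤ × ℤ → Fin 2 → ℝ} {R : ℕ} {ε : ℝ} {x : V}
    {k : Fin n} {s : Cf V n}
    (h : |P (latG V b) (bx V x R)ᶜ (co k x) s| * (R + 1) ≤ ε) :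
    |P (latG V b) (bx V x R)ᶜ (co k x) s| ≤ ε / (R + 1) := by
  rw [le_div_iff₀ (by positivity)]
  exact h

/-- one-step contraction. -/
theorem step [NeZero n] (V : Finset (ℤ × ℤ)) (b : ℤ × ℤ → Fin 2 → ℝ) (β : ℝ) (hβ : 0 < β)
    (hb : ∀ u i, 0 ≤ b u i ∧ b u i ≤ β) (R : ℕ) (i : Fin n)
    (hsm : ∀ (x : V) (s : Cf V n), |P (latG V b) (bx V x R)ᶜ (co i x) s| * (R + 1) ≤ 1 / (64 * β))
    (x y : V) (M : ℝ) (hM : 0 ≤ M) (hy : y ∉ bx V x (R + 1))
    (hu : ∀ u ∈ bx V x (R + 2), H (latG V b) i u y ≤ M) : H (latG V b) i x y ≤ M / 2 := by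
  classical
  have hn : 1 ≤ n := Nat.one_le_iff_ne_zero.mpr (NeZero.ne n)
  set G := latG V b with hG
  have hb0 : ∀ e, 0 ≤ G.b e := latG_b_nonneg V b (fun u i => (hb u i).1)
  set A : Set V := (bx V x R)ᶜ with hA
  set g : Cf V n → ℝ := P G A (co i x) with hg
  set D : ℝ := (1 / (64 * β)) / (R + 1) with hD
  have hD0 : 0 ≤ D := by positivity
  have hgc : Continuous g := continuous_P G (continuous_co i x)
  have hgD : ∀ s, |g s| ≤ D := fun s => abs_P_le_of_small (hsm x s)
  have hmono : ∀ {r q : ℕ}, r ≤ q → bx V x r ⊆ bx V x q := by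
    intro r q hrq v hv
    have h1 : |(v : ℤ × ℤ).1 - (x : ℤ × ℤ).1| ≤ r ∧ |(v : ℤ × ℤ).2 - (x : ℤ × ℤ).2| ≤ r := hv
    have h2 : (r : ℤ) ≤ q := by exact_mod_cast hrq
    exact ⟨h1.1.trans h2, h1.2.trans h2⟩
  have hyA : y ∈ A := fun h => hy (hmono (by omega) h)
  set c : V → ℝ := fun z => if z ∈ bx V x (R + 1) ∧ z ∉ bx V x R then D else 0 with hc
  have hcy : c y = 0 := by
    rw [hc]; simp only
    rw [if_neg]
    exact fun h => hy h.1
  have hinf : ∀ (s : Cf V n) (u : V), |g s - g (act i (flip {u}) s)| ≤ 2 * c u := by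
    intro s u
    by_cases hsh : u ∈ bx V x (R + 1) ∧ u ∉ bx V x R
    · have : c u = D := by rw [hc]; simp only; rw [if_pos hsh]
      rw [this]
      calc |g s - g (act i (flip {u}) s)| ≤ |g s| + |g (act i (flip {u}) s)| := abs_sub _ _
        _ ≤ D + D := add_le_add (hgD _) (hgD _)
        _ = 2 * D := by ring
    · have hcu : c u = 0 := by rw [hc]; simp only; rw [if_neg hsh]
      have hst : ∀ v, v ≠ u → s v = act i (flip {u}) s v := by
        intro v hv
        have h1 : Ising.flip {u} v = 1 := by simp [Ising.flip, hv]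
        show s v = sg i (Ising.flip {u} v) (s v)
        rw [h1]; simp [sg]
      have heq : g s = g (act i (flip {u}) s) := by
        by_cases huB : u ∈ bx V x R
        · refine dep_P G A (co i x) s _ (fun v hv => hst v ?_)
          rintro rfl; exact hv huB
        · have huB1 : u ∉ bx V x (R + 1) := fun h => hsh ⟨h, huB⟩
          refine P_local G A (co i x) u (dep_co i x _ ?_) ?_ s _ hst
          · rintro rfl
            exact huB1 ⟨by simp; positivity, by simp; positivity⟩
          · intro e he hue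
            obtain ⟨ha1, ha2⟩ := latG_adj V b e he
            have hcast : ((R + 1 : ℕ) : ℤ) = (R : ℤ) + 1 := by push_cast; ring
            rcases hue with h | h
            · refine ⟨by rw [h]; exact huB, fun hcon => huB1 ?_⟩
              change (latG V b).src e = u at h
              rw [h] at ha1 ha2
              obtain ⟨hc1, hc2⟩ : |(((latG V b).tgt e : V) : ℤ × ℤ).1 - (x : ℤ × ℤ).1| ≤ R ∧
                |(((latG V b).tgt e : V) : ℤ × ℤ).2 - (x : ℤ × ℤ).2| ≤ R := hcon
              rw [abs_le] at ha1 ha2 hc1 hc2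
              refine ⟨?_, ?_⟩
              · rw [hcast, abs_le]; constructor <;> linarith [ha1.1, ha1.2, hc1.1, hc1.2]
              · rw [hcast, abs_le]; constructor <;> linarith [ha2.1, ha2.2, hc2.1, hc2.2]
            · refine ⟨fun hcon => huB1 ?_, by rw [h]; exact huB⟩
              change (latG V b).tgt e = u at h
              rw [h] at ha1 ha2
              obtain ⟨hc1, hc2⟩ : |(((latG V b).src e : V) : ℤ × ℤ).1 - (x : ℤ × ℤ).1| ≤ R ∧
                |(((latG V b).src e : V) : ℤ × ℤ).2 - (x : ℤ × ℤ).2| ≤ R := hcon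
              rw [abs_le] at ha1 ha2 hc1 hc2
              refine ⟨?_, ?_⟩
              · rw [hcast, abs_le]; constructor <;> linarith [ha1.1, ha1.2, hc1.1, hc1.2]
              · rw [hcast, abs_le]; constructor <;> linarith [ha2.1, ha2.2, hc2.1, hc2.2]
      rw [hcu, heq]; simp
  have hcore := core hn G hb0 (latG_loop V b) i y g hgc c hinf hcy
  have hshell := PDLat.shell_sum V b β hb x R D M hD0 hM (fun u => H G i u y)
    (fun u => H_nonneg hn G hb0 i u y) hu c
    (fun z => by rw [hc]; simp only; split_ifs; exacts [hD0, le_rfl])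
    (fun z => by rw [hc]; simp only; split_ifs; exacts [le_rfl, hD0])
    (fun z hz => by
      by_contra hcon
      apply hz
      rw [hc]; simp only; rw [if_neg hcon])
  have h1 : H G i x y = ∫ s, (co i y s * g s) * Real.exp (G.I s) ∂(nu V n) := by
    rw [← tower G A i y hyA (co i x) (continuous_co i x)]
    unfold H
    refine integral_congr_ae (Filter.Eventually.of_forall fun s => ?_)
    simp only
    ring
  rw [h1]
  refine (le_abs_self _).trans (hcore.trans (hshell.trans ?_))
  rw [hD]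
  have hR : (0:ℝ) < R + 1 := by positivity
  have : 32 * β * ((R:ℝ) + 1) * (1 / (64 * β) / (R + 1)) * M = M / 2 := by
    field_simp; ring
  exact this.le

end D

open D MeasureTheory Crest.ProbabilityR.SpinModel in
theorem partD : PartD := by
  intro n hn β hβ hsm
  have : NeZero n := ⟨by omega⟩
  have hn1 : 1 ≤ n := by omega
  obtain ⟨R, hR⟩ := hsm (1 / (64 * β)) (by positivity)
  refine ⟨2 * n, Real.log 2 / (2 * ((R:ℝ) + 2)), by positivity, ?_⟩
  intro V b hb x y
  have hb0 : ∀ e, 0 ≤ (latG V b).b e := latG_b_nonneg V b (fun u i => (hb u i).1)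
  set Z : ℝ := ∫ s : Cf V n, Real.exp ((latG V b).I s) ∂(nu V n) with hZ
  have hZ0 : 0 < Z := Z_pos (latG V b)
  have htp : twoPoint n V b x y = (∑ i : Fin n, H (latG V b) i x y) / Z := PDLat.twoPoint_eq hn1 V b x y
  rw [htp]
  refine ⟨div_nonneg (Finset.sum_nonneg fun i _ => H_nonneg hn1 _ hb0 i x y) hZ0.le, ?_⟩
  rw [div_le_iff₀ hZ0]
  have hH1 : ∀ (i : Fin n) (x y : V), H (latG V b) i x y ≤ Z := by
    intro i x y
    unfold H
    rw [hZ]
    have hcexp : Continuous (fun s : Cf V n => Real.exp ((latG V b).I s)) :=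
      Real.continuous_exp.comp (D.continuous_I _)
    refine integral_mono (integ hn1 _ (((continuous_co i x).mul (continuous_co i y)).mul hcexp))
      (integ hn1 _ hcexp) (fun s => ?_)
    have h1 : co i x s * co i y s ≤ 1 := by
      have := abs_co_le i x s
      have h2 := abs_co_le i y s
      calc co i x s * co i y s ≤ |co i x s * co i y s| := le_abs_self _
        _ = |co i x s| * |co i y s| := abs_mul _ _
        _ ≤ 1 * 1 := mul_le_mul this h2 (abs_nonneg _) zero_le_one
        _ = 1 := by ring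
    have := mul_le_mul_of_nonneg_right h1 (Real.exp_pos ((latG V b).I s)).le
    simpa using this
  have hkey : ∀ i : Fin n, H (latG V b) i x y ≤ 2 * Z * Real.exp (-(Real.log 2 / (2 * ((R:ℝ) + 2))) *
      Real.sqrt ((((x : ℤ × ℤ).1 - (y : ℤ × ℤ).1 : ℤ) : ℝ) ^ 2 +
        (((x : ℤ × ℤ).2 - (y : ℤ × ℤ).2 : ℤ) : ℝ) ^ 2)) := by
    intro i
    refine PDLat.iterate V R (fun x y => H (latG V b) i x y) Z hZ0.le (hH1 i) ?_ x y
    intro x y M hM hy hu
    exact step V b β hβ hb R i (fun x s => hR V b hb x i s) x y M hM hy hu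
  calc ∑ i : Fin n, H (latG V b) i x y
      ≤ ∑ i : Fin n, 2 * Z * Real.exp (-(Real.log 2 / (2 * ((R:ℝ) + 2))) *
      Real.sqrt ((((x : ℤ × ℤ).1 - (y : ℤ × ℤ).1 : ℤ) : ℝ) ^ 2 +
        (((x : ℤ × ℤ).2 - (y : ℤ × ℤ).2 : ℤ) : ℝ) ^ 2)) := Finset.sum_le_sum fun i _ => hkey i
    _ = _ := by
      rw [Finset.sum_const, Finset.card_univ, Fintype.card_fin, nsmul_eq_mul]; ring

end Crest.Agent.R167
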