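import Mathlib

/-! # Row 167, NODE STEP: the real-number part of one coarse-graining step, and the chain. -/

set_option autoImplicit false

namespace Crest.Agent.R167.Step

open Finset

/-- Cauchy–Schwarz part. -/
lemma sum_sqrt_le {Z : Type} (A : Finset Z) (D D' : Z → ℝ)
    (hD : ∀ z ∈ A, 0 ≤ D z) (hD' : ∀ z ∈ A, 0 ≤ D' z) :
    ∑ z ∈ A, (Real.sqrt (D z) + Real.sqrt (D' z)) ≤
      Real.sqrt (A.card) * Real.sqrt (2 * ∑ z ∈ A, (D z + D' z)) := by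
  have h1 : (∑ z ∈ A, (Real.sqrt (D z) + Real.sqrt (D' z))) ^ 2 ≤
      A.card * (2 * ∑ z ∈ A, (D z + D' z)) := by
    have h2 : (∑ z ∈ A, (Real.sqrt (D z) + Real.sqrt (D' z))) ^ 2 ≤
        A.card * ∑ z ∈ A, (Real.sqrt (D z) + Real.sqrt (D' z)) ^ 2 :=
      sq_sum_le_card_mul_sum_sq
    refine h2.trans ?_
    refine mul_le_mul_of_nonneg_left ?_ (Nat.cast_nonneg _)
    rw [mul_sum]
    refine sum_le_sum fun z hz => ?_
    have e1 := Real.sq_sqrt (hD z hz)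
    have e2 := Real.sq_sqrt (hD' z hz)
    nlinarith [sq_nonneg (Real.sqrt (D z) - Real.sqrt (D' z))]
  rw [← Real.sqrt_mul (Nat.cast_nonneg _)]
  exact Real.le_sqrt_of_sq_le h1

/-- One coarse-graining step, real numbers only. -/
theorem step_abs {Z : Type} (Act : Finset Z) (cl : Z → Fin 4) (DA DB : Z → ℝ)
    (hDA : ∀ z ∈ Act, 0 ≤ DA z) (hDB : ∀ z ∈ Act, 0 ≤ DB z) (Dl : Fin 4 → ℝ)
    (hgain : ∀ c, ∑ z ∈ Act.filter (fun z => cl z = c), (DA z + DB z) ≤ Dl c)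
    (bil : Z → ℝ) (lam C2 C5 e1 : ℝ) (hlam : 0 ≤ lam) (hC2 : 0 ≤ C2)
    (hbil : ∀ z ∈ Act, |bil z| ≤ lam * C2 * (Real.sqrt (DA z) + Real.sqrt (DB z)))
    (Bff Bif Brest : ℝ) (h1 : Bff = Bif + Brest) (h2 : ∑ z ∈ Act, bil z = -2 * Bif)
    (h3 : |Brest| ≤ e1) (h4 : lam ^ 2 * Act.card ≤ C5) :
    ∃ c, Bff ≤ C2 * Real.sqrt (2 * C5) * Real.sqrt (Dl c) + e1 := by
  classical
  -- the sum over all classes
  have hsum : ∑ z ∈ Act, (DA z + DB z) ≤ ∑ c, Dl c := by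
    rw [← sum_fiberwise_of_maps_to (s := Act) (t := univ) (g := cl) (fun _ _ => mem_univ _)]
    exact sum_le_sum fun c _ => hgain c
  obtain ⟨c, -, hc⟩ := exists_max_image (univ : Finset (Fin 4)) Dl ⟨0, mem_univ _⟩
  have hle : ∑ c', Dl c' ≤ 4 * Dl c := by
    have : ∑ c', Dl c' ≤ ∑ _c' : Fin 4, Dl c := sum_le_sum fun c' _ => hc c' (mem_univ _)
    simpa using this
  have hS : ∑ z ∈ Act, (DA z + DB z) ≤ 4 * Dl c := hsum.trans hle
  have hS0 : 0 ≤ ∑ z ∈ Act, (DA z + DB z) :=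
    sum_nonneg fun z hz => add_nonneg (hDA z hz) (hDB z hz)
  have hDc : 0 ≤ Dl c := by linarith
  refine ⟨c, ?_⟩
  have hB : |(2 : ℝ) * Bif| ≤ lam * C2 * ∑ z ∈ Act, (Real.sqrt (DA z) + Real.sqrt (DB z)) := by
    have : (2 : ℝ) * Bif = -∑ z ∈ Act, bil z := by linarith
    rw [this, abs_neg, mul_sum]
    exact (abs_sum_le_sum_abs _ _).trans (sum_le_sum hbil)
  have hcs := sum_sqrt_le Act DA DB hDA hDB
  have hcs2 : Real.sqrt (2 * ∑ z ∈ Act, (DA z + DB z)) ≤ Real.sqrt (8 * Dl c) :=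
    Real.sqrt_le_sqrt (by linarith)
  have hlc : lam * Real.sqrt Act.card ≤ Real.sqrt C5 := by
    apply Real.le_sqrt_of_sq_le
    rw [mul_pow, Real.sq_sqrt (Nat.cast_nonneg _)]
    exact h4
  have h8 : Real.sqrt (8 * Dl c) = 2 * (Real.sqrt 2 * Real.sqrt (Dl c)) := by
    rw [← Real.sqrt_mul (by norm_num : (0:ℝ) ≤ 2), show (8 : ℝ) * Dl c = 2 ^ 2 * (2 * Dl c) by ring,
      Real.sqrt_mul (by norm_num), Real.sqrt_sq (by norm_num)]
  have hkey : |(2 : ℝ) * Bif| ≤ 2 * (C2 * Real.sqrt (2 * C5) * Real.sqrt (Dl c)) := by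
    calc |(2 : ℝ) * Bif| ≤ lam * C2 * ∑ z ∈ Act, (Real.sqrt (DA z) + Real.sqrt (DB z)) := hB
      _ ≤ lam * C2 * (Real.sqrt Act.card * Real.sqrt (8 * Dl c)) := by
          refine mul_le_mul_of_nonneg_left ?_ (mul_nonneg hlam hC2)
          exact hcs.trans (mul_le_mul_of_nonneg_left hcs2 (Real.sqrt_nonneg _))
      _ = C2 * (lam * Real.sqrt Act.card) * (2 * (Real.sqrt 2 * Real.sqrt (Dl c))) := by
          rw [h8]; ring
      _ ≤ C2 * Real.sqrt C5 * (2 * (Real.sqrt 2 * Real.sqrt (Dl c))) := by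
          refine mul_le_mul_of_nonneg_right ?_ (by positivity)
          exact mul_le_mul_of_nonneg_left hlc hC2
      _ = 2 * (C2 * Real.sqrt (2 * C5) * Real.sqrt (Dl c)) := by
          rw [Real.sqrt_mul (by norm_num : (0:ℝ) ≤ 2)]; ring
  have hBif : Bif ≤ C2 * Real.sqrt (2 * C5) * Real.sqrt (Dl c) := by
    have := (le_abs_self ((2 : ℝ) * Bif)).trans hkey
    linarith
  have := le_abs_self Brest
  rw [h1]
  linarith

/-- The chain: some step of a long chain has a small gain. -/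
theorem chain_abs {σ : Type} (Inv : ℕ → σ → Prop) (K H : σ → ℝ) (N : ℕ) (hN : 0 < N)
    (C : ℝ) (hC : 0 ≤ C) (e : ℕ → ℝ) (emax : ℝ) (he : ∀ i < N, e i ≤ emax) (S0 : σ) (h0 : Inv 0 S0)
    (hstep : ∀ i < N, ∀ S, Inv i S → ∃ S', Inv (i + 1) S' ∧
      K S ≤ C * Real.sqrt (H S - H S') + e i)
    (H0 : ℝ) (hH0 : H S0 ≤ H0) (hHpos : ∀ S, 0 ≤ H S) (Kmin : ℝ)
    (hK : ∀ i < N, ∀ S, Inv i S → Kmin ≤ K S) :
    Kmin ≤ C * Real.sqrt (H0 / N) + emax := by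
  classical
  -- build the chain
  have hex : ∀ p : {q : ℕ × σ // q.1 < N ∧ Inv q.1 q.2}, ∃ S', Inv (p.1.1 + 1) S' ∧
      K p.1.2 ≤ C * Real.sqrt (H p.1.2 - H S') + e p.1.1 :=
    fun p => hstep p.1.1 p.2.1 p.1.2 p.2.2
  choose nxt hnxt using hex
  let F : ℕ → σ := fun i => Nat.rec S0 (fun j S =>
    if h : j < N ∧ Inv j S then nxt ⟨(j, S), h⟩ else S) i
  have hF0 : F 0 = S0 := rfl
  have hFs : ∀ j, F (j + 1) = if h : j < N ∧ Inv j (F j) then nxt ⟨(j, F j), h⟩ else F j :=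
    fun j => rfl
  have hInv : ∀ j ≤ N, Inv j (F j) := by
    intro j
    induction j with
    | zero => intro _; exact h0
    | succ j ih =>
      intro hj
      have hj' : j < N := hj
      have h1 := ih hj'.le
      rw [hFs, dif_pos ⟨hj', h1⟩]
      exact (hnxt ⟨(j, F j), ⟨hj', h1⟩⟩).1
  have hgain : ∀ j < N, K (F j) ≤ C * Real.sqrt (H (F j) - H (F (j + 1))) + e j := by
    intro j hj
    have h1 := hInv j hj.le
    have := (hnxt ⟨(j, F j), ⟨hj, h1⟩⟩).2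
    rw [hFs, dif_pos ⟨hj, h1⟩]
    exact this
  -- telescoping
  have htel : ∑ j ∈ range N, (H (F j) - H (F (j + 1))) ≤ H0 := by
    rw [sum_range_sub']
    have := hHpos (F N)
    rw [hF0]
    linarith
  have : ∃ j ∈ range N, H (F j) - H (F (j + 1)) ≤ H0 / N := by
    by_contra hcon
    push Not at hcon
    have h1 : ∑ _j ∈ range N, H0 / N < ∑ j ∈ range N, (H (F j) - H (F (j + 1))) :=
      sum_lt_sum_of_nonempty ⟨0, mem_range.2 hN⟩ hcon
    rw [sum_const, card_range, nsmul_eq_mul, mul_div_cancel₀ _ (by positivity)] at h1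
    linarith
  obtain ⟨j, hj, hjle⟩ := this
  have hj' := mem_range.1 hj
  calc Kmin ≤ K (F j) := hK j hj' _ (hInv j hj'.le)
    _ ≤ C * Real.sqrt (H (F j) - H (F (j + 1))) + e j := hgain j hj'
    _ ≤ C * Real.sqrt (H0 / N) + emax := by
        refine add_le_add (mul_le_mul_of_nonneg_left (Real.sqrt_le_sqrt hjle) hC) (he j hj')

end Crest.Agent.R167.Step
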