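import Crest.Agent.R167.GeoA
import Crest.Agent.R167.GeoB2

/-! # Row 167, NODE STEP: adaptors from GEO -/

set_option autoImplicit false
open MeasureTheory Crest.ProbabilityR.SpinModel

namespace Crest.Agent.R167.SGeo

open Geo GeoB

variable {R a : ℕ} {x o : ℤ × ℤ} {V : Finset (ℤ × ℤ)} {b : ℤ × ℤ → Fin 2 → ℝ} {β : ℝ}

theorem cut_off (hR : 1 ≤ R) {v : ℤ × ℤ} (h : ¬ (|v.1 - x.1| ≤ 3 * R ∧ |v.2 - x.2| ≤ 3 * R)) :
    cut x R v = 0 := by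
  apply GeoB.cut_eq_zero hR
  rw [not_and_or, not_le, not_le] at h
  rcases h with h | h
  · left; omega
  · right; omega

theorem hat_off {z v : ℤ × ℤ} (ha : 1 ≤ a) (h : ¬ (|v.1 - z.1| < a ∧ |v.2 - z.2| < a)) :
    hat a z v = 0 := GeoB.hat_eq_zero ha h

theorem node_box (haR : 100 * a ≤ R) {z v : ℤ × ℤ} (hz : z ∈ nodes R a x o)
    (h1 : |v.1 - z.1| ≤ a) (h2 : |v.2 - z.2| ≤ a) : |v.1 - x.1| ≤ 4 * R ∧ |v.2 - x.2| ≤ 4 * R := by
  obtain ⟨⟨h3, h4⟩, -⟩ := GeoB.mem_gnodes.1 hz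
  push_cast at h3 h4
  constructor
  · have e : v.1 - x.1 = (v.1 - z.1) + (z.1 - x.1) := by ring
    rw [e]
    have := abs_add_le (v.1 - z.1) (z.1 - x.1)
    omega
  · have e : v.2 - x.2 = (v.2 - z.2) + (z.2 - x.2) := by ring
    rw [e]
    have := abs_add_le (v.2 - z.2) (z.2 - x.2)
    omega

theorem qz_off (ha : 1 ≤ a) (haR : 100 * a ≤ R) {z v : ℤ × ℤ} (hz : z ∈ nodes R a x o)
    (h : ¬ (|v.1 - x.1| ≤ 4 * R ∧ |v.2 - x.2| ≤ 4 * R)) : qz R a x z v = 0 := by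
  apply Geo.qz_eq_zero ha
  rintro ⟨h1, h2⟩
  apply h
  obtain ⟨⟨h3, h4⟩, -⟩ := GeoB.mem_gnodes.1 hz
  push_cast at h3 h4
  constructor
  · have e : v.1 - x.1 = (v.1 - z.1) + (z.1 - x.1) := by ring
    rw [e]
    have := abs_add_le (v.1 - z.1) (z.1 - x.1)
    omega
  · have e : v.2 - x.2 = (v.2 - z.2) + (z.2 - x.2) := by ring
    rw [e]
    have := abs_add_le (v.2 - z.2) (z.2 - x.2)
    omega

end Crest.Agent.R167.SGeo
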