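import Crest.Agent.R167.StepGain
import Crest.Agent.R167.StepGeo
import Crest.Agent.R167.StepAbs
import Crest.Agent.R167.GeoA3

/-! # Row 167, NODE STEP: one coarse-graining step. -/

set_option autoImplicit false
open MeasureTheory Crest.ProbabilityR.SpinModel

namespace Crest.Agent.R167

section lat
variable {V : Finset (ℤ × ℤ)} {b : ℤ × ℤ → Fin 2 → ℝ}

/-- restriction of a subset of `ℤ²` to `V` -/
def rset (V : Finset (ℤ × ℤ)) (H : Set (ℤ × ℤ)) : Set V := {v | (v : ℤ × ℤ) ∈ H}

lemma lat_closed {Ho H : Set (ℤ × ℤ)} (hsub : Ho ⊆ H)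
    (h1 : ∀ v ∈ Ho, ∀ i, v + latticeDir i ∈ H) (h2 : ∀ v, ∀ i, v + latticeDir i ∈ Ho → v ∈ H)
    (e : V × Fin 2) (he : (latG V b).src e ∈ rset V Ho ∨ (latG V b).tgt e ∈ rset V Ho) :
      (latG V b).src e ∈ rset V H ∧ (latG V b).tgt e ∈ rset V H := by
  obtain ⟨u, i⟩ := e
  by_cases hV : (u : ℤ × ℤ) + latticeDir i ∈ V
  · have ht : (latG V b).tgt (u, i) = ⟨(u : ℤ × ℤ) + latticeDir i, hV⟩ := by
      simp only [latG]; rw [dif_pos hV]
    have hs : (latG V b).src (u, i) = u := rfl
    rw [ht, hs] at he ⊢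
    rcases he with he | he
    · exact ⟨hsub he, h1 _ he i⟩
    · exact ⟨h2 _ i he, hsub he⟩
  · have ht : (latG V b).tgt (u, i) = u := by
      simp only [latG]; rw [dif_neg hV]
    have hs : (latG V b).src (u, i) = u := rfl
    rw [ht, hs] at he ⊢
    rcases he with he | he
    · exact ⟨hsub he, hsub he⟩
    · exact ⟨hsub he, hsub he⟩

lemma lat_b_nonneg {β : ℝ} (hb : ∀ u i, 0 ≤ b u i ∧ b u i ≤ β) (e : V × Fin 2) :
    0 ≤ (latG V b).b e := by
  simp only [latG]
  split_ifs
  · exact (hb _ _).1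
  · exact le_rfl

end lat

section sumrule
variable {n : ℕ} [NeZero n] {V : Finset (ℤ × ℤ)} {b : ℤ × ℤ → Fin 2 → ℝ} {β : ℝ} {R a : ℕ}
  {x o : ℤ × ℤ} {k l : Fin n} {S : Set V}

lemma F0_cut (hR : 1 ≤ R) (v : V) (hv : v ∈ (bx V x (4 * R))ᶜ) : rs V (cut x R) v = 0 := by
  apply SGeo.cut_off hR
  rintro ⟨h1, h2⟩
  apply hv
  have hR0 : (0 : ℤ) ≤ R := Int.natCast_nonneg R
  constructor
  · push_cast; linarith
  · push_cast; linarith

lemma F0_qz (ha : 1 ≤ a) (haR : 100 * a ≤ R) {z : ℤ × ℤ} (hz : z ∈ Geo.nodes R a x o) (v : V)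
    (hv : v ∈ (bx V x (4 * R))ᶜ) : rs V (Geo.qz R a x z) v = 0 := by
  apply SGeo.qz_off ha haR hz
  rintro ⟨h1, h2⟩
  exact hv ⟨by push_cast; exact h1, by push_cast; exact h2⟩

lemma F0_hat (ha : 1 ≤ a) (haR : 100 * a ≤ R) {z : ℤ × ℤ} (hz : z ∈ Geo.nodes R a x o) (v : V)
    (hv : v ∈ (bx V x (4 * R))ᶜ) : hat a z (v : ℤ × ℤ) = 0 := by
  apply SGeo.hat_off ha
  rintro ⟨h1, h2⟩
  have := SGeo.node_box haR hz h1.le h2.le
  exact hv ⟨by push_cast; exact this.1, by push_cast; exact this.2⟩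

/-- the sum rule -/
theorem sum_rule (hkl : k ≠ l) (ha : 1 ≤ a) (haR : 100 * a ≤ R)
    (hF0 : (bx V x (4 * R))ᶜ ⊆ S) (hgrid : Grid V a o ⊆ S) (τ : Cf V n) :
    ∑ z ∈ Geo.act R a x o, BB (latG V b) (bx V x (4 * R))ᶜ S k l (rs V (hat a z))
        (fun v => ((16 * a / R : ℝ) * rs V (Geo.qz R a x z) v) ^ 2) τ
      = -2 * BB (latG V b) (bx V x (4 * R))ᶜ S k l (rs V (Geo.interp R a x o))
          (rs V (cut x R)) τ := by
  classical
  have hR : 1 ≤ R := by omega
  set G := latG V b with hG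
  set F0 : Set V := (bx V x (4 * R))ᶜ with hF0d
  set f : V → ℝ := rs V (cut x R) with hf
  have hbd : ∀ z ∈ Geo.nodes R a x o, bx V z a \ ocell V z a ⊆ S := fun z hz v hv =>
    hgrid (GeoB.bd_sub_Grid (GeoB.node_of_mem_gnodes hz) hv)
  have hψoff : ∀ z : ℤ × ℤ, ∀ v : V, v ∉ ocell V z a → rs V (hat a z) v = 0 :=
    fun z v hv => SGeo.hat_off ha hv
  have hsq : ∀ v ∈ F0, f v = 0 := fun v hv => F0_cut hR v hv
  -- the individual terms
  have hterm : ∀ z ∈ Geo.nodes R a x o,
      BB G F0 S k l (rs V (hat a z)) (fun v => f v ^ 2 + (-2 * cut x R z) * f v) τ =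
      if z ∈ Geo.act R a x o then BB G F0 S k l (rs V (hat a z))
        (fun v => ((16 * a / R : ℝ) * rs V (Geo.qz R a x z) v) ^ 2) τ else 0 := by
    intro z hz
    split_ifs with hact
    · -- active
      have hz0 : BB G F0 S k l (rs V (hat a z))
            (fun v => (f v ^ 2 + (-2 * cut x R z) * f v)
              - ((16 * a / R : ℝ) * rs V (Geo.qz R a x z) v) ^ 2) τ = 0 := by
        refine BB_eq_zero G τ hkl hF0 GeoB.edge_cell (hbd z hz) (hψoff z)
          (c := -(cut x R z) ^ 2) ?_ ?_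
        · intro v hv
          have h1 := Geo.qz_spec (x := x) ha hR hv
          have h2 : (16 * a / R : ℝ) * rs V (Geo.qz R a x z) v = f v - cut x R z := h1
          simp only [h2]
          ring
        · intro v hv
          simp only [hsq v hv, F0_qz ha haR hz v hv]
          ring
      rw [BB_sub_right] at hz0
      linarith
    · -- inactive
      refine BB_eq_zero G τ hkl hF0 GeoB.edge_cell (hbd z hz) (hψoff z)
          (c := -(cut x R z) ^ 2) ?_ ?_
      · intro v hv
        have h2 : f v = cut x R z := GeoB.cut_const_of_not_act hz hact hv.1 hv.2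
        rw [h2]
        ring
      · intro v hv
        simp only [hsq v hv]
        ring
  -- the sum over all nodes
  have hact_sub : Geo.act R a x o ⊆ Geo.nodes R a x o := fun z hz => (GeoB.mem_act.1 hz).1
  have hsum : ∑ z ∈ Geo.act R a x o, BB G F0 S k l (rs V (hat a z))
        (fun v => ((16 * a / R : ℝ) * rs V (Geo.qz R a x z) v) ^ 2) τ =
      ∑ z ∈ Geo.nodes R a x o,
        BB G F0 S k l (rs V (hat a z)) (fun v => f v ^ 2 + (-2 * cut x R z) * f v) τ := by
    rw [Finset.sum_congr rfl hterm, Finset.sum_ite_mem, Finset.inter_eq_right.2 hact_sub]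
  rw [hsum]
  -- expand
  have hexp : ∀ z ∈ Geo.nodes R a x o,
      BB G F0 S k l (rs V (hat a z)) (fun v => f v ^ 2 + (-2 * cut x R z) * f v) τ =
      BB G F0 S k l (rs V (hat a z)) (fun v => f v ^ 2) τ +
        (-2) * BB G F0 S k l (fun v => cut x R z * rs V (hat a z) v) f τ := by
    intro z _
    rw [BB_add_right G F0 S k l τ (rs V (hat a z)) (fun v => f v ^ 2)
      (fun v => (-2 * cut x R z) * f v), BB_const_mul_right, BB_const_mul_left]
    ring
  rw [Finset.sum_congr rfl hexp, Finset.sum_add_distrib, ← Finset.mul_sum (a := (-2 : ℝ)),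
    ← BB_sum_left, ← BB_sum_left]
  -- the constant part vanishes
  have hzero : BB G F0 S k l (fun v => ∑ z ∈ Geo.nodes R a x o, rs V (hat a z) v)
      (fun v => f v ^ 2) τ = 0 := by
    rw [BB_comm]
    refine BB_eq_zero G τ hkl hF0 (Q := rset V (Geo.Hc R a x o)) (Qo := rset V (Geo.Ho R a x o))
      (lat_closed (Geo.Ho_subset_Hc R a x o) (fun v hv i => (Geo.Ho_nbr i).1 hv)
        (fun v i hv => (Geo.Ho_nbr i).2 hv)) ?_ ?_ (c := 1) ?_ ?_
    · intro v hv
      exact hgrid (Geo.Hc_diff_Ho_Grid hv.1 hv.2)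
    · intro v hv
      have : f v = 0 := Geo.cut_eq_zero_off_Ho ha haR hv
      simp only [this]; ring
    · intro v hv
      exact Geo.sum_hat_Hc ha hv
    · intro v hv
      exact Finset.sum_eq_zero fun z hz => F0_hat ha haR hz v hv
  rw [hzero, zero_add]
  rfl

end sumrule

/-- NODE STEP -/
theorem stepProp_of (hkey : KeyIneq) : StepProp := by
  classical
  intro n hn β hβ
  have : NeZero n := ⟨by omega⟩
  obtain ⟨C2, hC2, hkey⟩ := hkey n hn (2240 * β)
  refine ⟨C2 * Real.sqrt (2 * 256000) + 2240 * β, by positivity, ?_⟩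
  intro R a ha haR V b hb x k l m hkl hlm hmk o S hF0 hbx hgrid τ
  have hR : 1 ≤ R := by omega
  have hRr : (0 : ℝ) < R := by exact_mod_cast (by omega : 0 < R)
  have har : (0 : ℝ) < a := by exact_mod_cast (by omega : 0 < a)
  set G := latG V b with hG
  set F0 : Set V := (bx V x (4 * R))ᶜ with hF0d
  set f : V → ℝ := rs V (cut x R) with hf
  have hbn : ∀ e, 0 ≤ G.b e := lat_b_nonneg hb
  have hsq : ∀ v ∈ F0, f v = 0 := fun v hv => F0_cut hR v hv
  have hactN : ∀ z ∈ Geo.act R a x o, z ∈ Geo.nodes R a x o := fun z hz => (GeoB.mem_act.1 hz).1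
  have hbd : ∀ z ∈ Geo.nodes R a x o, bx V z a \ ocell V z a ⊆ S := fun z hz v hv =>
    hgrid (GeoB.bd_sub_Grid (GeoB.node_of_mem_gnodes hz) hv)
  have hdjF0 : ∀ z ∈ Geo.nodes R a x o, Disjoint F0 (ocell V z a) := fun z hz =>
    GeoB.F0_disj_ocell (by omega) hz
  -- the gains
  set DD : Fin n → Fin n → (ℤ × ℤ) → ℝ := fun i j z =>
    P G F0 (fun s => (P G S (XI G i j f) s - P G (S \ ocell V z a) (XI G i j f) s) ^ 2) τ with hDD
  have hDD0 : ∀ i j z, 0 ≤ DD i j z := fun i j z => P_nonneg G (fun s => sq_nonneg _) τ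
  set Sc : Fin 4 → Set V := fun c =>
    S \ ⋃ z ∈ (Geo.act R a x o).filter (fun z => GeoB.cl a o z = c), ocell V z a with hSc
  have hgain : ∀ i j : Fin n, i ≠ j → ∀ c,
      ∑ z ∈ (Geo.act R a x o).filter (fun z => GeoB.cl a o z = c), DD i j z ≤
        KK G F0 S i j f τ - KK G F0 (Sc c) i j f τ := by
    intro i j hij c
    refine (step_gain G ((Geo.act R a x o).filter (fun z => GeoB.cl a o z = c))
      (fun z => bx V z a) (fun z => ocell V z a) F0 S hF0 ?_ ?_ ?_ ?_
      (XI G i j f) (continuous_XI G i j f) ?_ τ).le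
    · intro z hz
      exact hdjF0 z (hactN z (Finset.mem_filter.1 hz).1)
    · intro z hz
      exact hbd z (hactN z (Finset.mem_filter.1 hz).1)
    · intro z hz
      exact GeoB.edge_cell
    · intro z hz z' hz' hne
      exact GeoB.disj_cl (GeoB.node_of_mem_act (Finset.mem_filter.1 hz).1)
        (GeoB.node_of_mem_act (Finset.mem_filter.1 hz').1)
        ((Finset.mem_filter.1 hz).2.trans (Finset.mem_filter.1 hz').2.symm) hne
    · intro z hz
      exact XI_decomp G i j GeoB.edge_cell f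
  -- apply the abstract step
  have hlam : (0 : ℝ) ≤ 16 * a / R := by positivity
  have hstep := Step.step_abs (Geo.act R a x o) (GeoB.cl a o) (DD l m) (DD m k)
    (fun z _ => hDD0 _ _ z) (fun z _ => hDD0 _ _ z)
    (fun c => (KK G F0 S l m f τ + KK G F0 S m k f τ)
      - (KK G F0 (Sc c) l m f τ + KK G F0 (Sc c) m k f τ))
    (by
      intro c
      have e1 := hgain l m hlm c
      have e2 := hgain m k hmk c
      rw [Finset.sum_add_distrib]
      linarith)
    (fun z => BB G F0 S k l (rs V (hat a z))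
        (fun v => ((16 * a / R : ℝ) * rs V (Geo.qz R a x z) v) ^ 2) τ)
    (16 * a / R) C2 256000 (2240 * β * Real.sqrt (a / R)) hlam hC2
    (by
      intro z hz
      have hzN := hactN z hz
      have hEh := Geo.En_hat_le V b β hβ.le hb a ha z
      have hEq := Geo.En_qz_le V b β hβ.le hb R a ha hR x z
      have hk := hkey V (V × Fin 2) G hbn k l m hkl hlm hmk F0 (S \ ocell V z a) S
        (fun v hv => ⟨hF0 hv, fun h => (Set.disjoint_left.1 (hdjF0 z hzN)) hv h⟩)
        Set.sdiff_subset (rs V (hat a z)) (rs V (Geo.qz R a x z)) (16 * a / R) hlam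
        (fun v hv => SGeo.hat_off ha hv.2) (fun v hv => F0_qz ha haR hzN v hv)
        (fun v => Geo.abs_qz_le ha hR x z v) (by linarith) (by linarith) τ
      have hloc : ∀ i j : Fin n, ∀ s : Cf V n,
          P G S (XI G i j (fun v => (16 * a / R : ℝ) * rs V (Geo.qz R a x z) v)) s
            - P G (S \ ocell V z a) (XI G i j (fun v => (16 * a / R : ℝ) * rs V (Geo.qz R a x z) v)) s
          = P G S (XI G i j f) s - P G (S \ ocell V z a) (XI G i j f) s := by
        intro i j s
        apply loc G i j GeoB.edge_cell (hbd z hzN) (c := - cut x R z)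
        intro v hv
        have h1 := Geo.qz_spec (x := x) ha hR hv
        have h2 : (16 * a / R : ℝ) * rs V (Geo.qz R a x z) v = f v - cut x R z := h1
        rw [h2]; ring
      have e1 : (fun s : Cf V n => (P G S (XI G l m (fun v => (16 * a / R : ℝ) * rs V (Geo.qz R a x z) v)) s
            - P G (S \ ocell V z a) (XI G l m (fun v => (16 * a / R : ℝ) * rs V (Geo.qz R a x z) v)) s) ^ 2)
          = fun s => (P G S (XI G l m f) s - P G (S \ ocell V z a) (XI G l m f) s) ^ 2 := by
        funext s; rw [hloc l m s]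
      have e2 : (fun s : Cf V n => (P G S (XI G m k (fun v => (16 * a / R : ℝ) * rs V (Geo.qz R a x z) v)) s
            - P G (S \ ocell V z a) (XI G m k (fun v => (16 * a / R : ℝ) * rs V (Geo.qz R a x z) v)) s) ^ 2)
          = fun s => (P G S (XI G m k f) s - P G (S \ ocell V z a) (XI G m k f) s) ^ 2 := by
        funext s; rw [hloc m k s]
      rw [e1, e2] at hk
      exact hk)
    (KK G F0 S k l f τ) (BB G F0 S k l (rs V (Geo.interp R a x o)) f τ)
    (BB G F0 S k l (rs V (fun v => cut x R v - Geo.interp R a x o v)) f τ)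
    (by
      rw [← BB_self_eq_KK]
      have h2 : rs V (fun v => cut x R v - Geo.interp R a x o v) =
          fun v => f v - rs V (Geo.interp R a x o) v := rfl
      rw [h2, BB_sub_left]
      ring)
    (sum_rule hkl ha haR hF0 hgrid τ)
    (by
      have h1 := abs_BB_le G (F0 := F0) (S := S) (τ := τ) hbn hkl hF0
        (g := rs V (fun v => cut x R v - Geo.interp R a x o v)) (h := f) (by
          intro v hv
          have h2 : cut x R (v : ℤ × ℤ) = 0 := hsq v hv
          have h3 : Geo.interp R a x o v = 0 := by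
            unfold Geo.interp
            apply Finset.sum_eq_zero
            intro z hz
            rw [F0_hat ha haR hz v hv, mul_zero]
          simp only [rs]
          rw [h2, h3, sub_zero]) hsq
      refine h1.trans ?_
      have h2 := Geo.En_err_le V b β hβ.le hb R a ha haR x o
      have h3 := Geo.En_cut_le V b β hβ.le hb R hR x
      have h4 : Real.sqrt (G.En (rs V fun v => cut x R v - Geo.interp R a x o v)) ≤
          Real.sqrt (2240 * β) * Real.sqrt (a / R) := by
        rw [← Real.sqrt_mul (by positivity)]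
        exact Real.sqrt_le_sqrt h2
      have h5 : Real.sqrt (G.En f) ≤ Real.sqrt (2240 * β) := Real.sqrt_le_sqrt (by linarith)
      calc _ ≤ (Real.sqrt (2240 * β) * Real.sqrt (a / R)) * Real.sqrt (2240 * β) :=
            mul_le_mul h4 h5 (Real.sqrt_nonneg _) (by positivity)
        _ = (Real.sqrt (2240 * β)) ^ 2 * Real.sqrt (a / R) := by ring
        _ = 2240 * β * Real.sqrt (a / R) := by rw [Real.sq_sqrt (by positivity)])
    (by
      have h1 := GeoB.card_act (R := R) ha (by omega) x o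
      calc (16 * (a : ℝ) / R) ^ 2 * (Geo.act R a x o).card
          ≤ (16 * (a : ℝ) / R) ^ 2 * (49 * ((R : ℝ) / a) ^ 2) :=
            mul_le_mul_of_nonneg_left h1 (by positivity)
        _ ≤ 256000 := by
            have : (16 * (a : ℝ) / R) ^ 2 * (49 * ((R : ℝ) / a) ^ 2) = 12544 := by
              field_simp; norm_num
            rw [this]; norm_num)
  obtain ⟨c, hc⟩ := hstep
  obtain ⟨n1, n2, n3, n4⟩ := GeoB.next_set (V := V) ha haR c hF0 hbx hgrid
    ((Geo.act R a x o).filter (fun z => GeoB.cl a o z = c))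
    (fun z hz => ⟨(Finset.mem_filter.1 hz).1, (Finset.mem_filter.1 hz).2⟩)
  refine ⟨GeoB.op a o c, Sc c, n1, n2, n3, n4, ?_⟩
  refine hc.trans ?_
  have h1 : 0 ≤ Real.sqrt ((KK G F0 S l m f τ + KK G F0 S m k f τ)
    - (KK G F0 (Sc c) l m f τ + KK G F0 (Sc c) m k f τ)) := Real.sqrt_nonneg _
  have h2 : 0 ≤ Real.sqrt ((a : ℝ) / R) := Real.sqrt_nonneg _
  have h3 : 0 ≤ C2 * Real.sqrt (2 * 256000) := by positivity
  nlinarith [mul_nonneg (by positivity : (0:ℝ) ≤ 2240 * β) h1, mul_nonneg h3 h2]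

end Crest.Agent.R167
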