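import Crest.Agent.R167.Bil

/-! # Row 167, NODE STEP: the gain of one class of cells (telescoping form). -/

set_option autoImplicit false
open MeasureTheory Crest.ProbabilityR.SpinModel

namespace Crest.Agent.R167

variable {ι E : Type} [Fintype ι] [Fintype E] {n : ℕ}

/-- `P_S F = P_{S'} F` if `F` lives on `Q` and `S, S'` agree on `Q`. -/
theorem P_eq_of_inter [NeZero n] (G : Gr ι E) {S S' Q : Set ι} {F : Cf ι n → ℝ} (hF : Continuous F)
    (hd : Dep Q F) (hcl : ∀ e, (G.src e ∈ Q \ S ∨ G.tgt e ∈ Q \ S) → G.src e ∈ Q ∧ G.tgt e ∈ Q)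
    (hS : S' ⊆ S) (hi : S ∩ Q ⊆ S') (s : Cf ι n) : P G S' F s = P G S F s := by
  have h1 : Dep (S ∩ Q) (P G S F) := P_dep_of_closed G S Q hd hcl
  have h2 : Dep S' (P G S F) := fun s t hst => h1 s t fun v hv => hst v (hi hv)
  rw [← P_tower G hS hF s, P_of_dep G h2]

theorem step_gain [NeZero n] (G : Gr ι E) {Z : Type} (c : Finset Z) (Q Qo : Z → Set ι)
    (F0 S : Set ι)
    (hF0 : F0 ⊆ S) (hF0' : ∀ z ∈ c, Disjoint F0 (Qo z))
    (hbd : ∀ z ∈ c, Q z \ Qo z ⊆ S)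
    (hcl : ∀ z ∈ c, ∀ e, (G.src e ∈ Qo z ∨ G.tgt e ∈ Qo z) → G.src e ∈ Q z ∧ G.tgt e ∈ Q z)
    (hdisj : ∀ z ∈ c, ∀ z' ∈ c, z ≠ z' → Disjoint (Q z) (Qo z'))
    (F : Cf ι n → ℝ) (hF : Continuous F)
    (hdec : ∀ z ∈ c, ∃ F1 F2 : Cf ι n → ℝ, Continuous F1 ∧ Continuous F2 ∧ Dep (Q z) F1 ∧
      Dep (Qo z)ᶜ F2 ∧ ∀ s, F s = F1 s + F2 s) (τ : Cf ι n) :
    ∑ z ∈ c, P G F0 (fun s => (P G S F s - P G (S \ Qo z) F s) ^ 2) τ
      = P G F0 (fun s => P G S F s ^ 2) τ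
        - P G F0 (fun s => P G (S \ ⋃ z ∈ c, Qo z) F s ^ 2) τ := by
  classical
  induction c using Finset.induction_on with
  | empty => simp
  | insert z0 c hz0 ih =>
    have ih' := ih (fun z hz => hF0' z (Finset.mem_insert_of_mem hz))
      (fun z hz => hbd z (Finset.mem_insert_of_mem hz))
      (fun z hz => hcl z (Finset.mem_insert_of_mem hz))
      (fun z hz z' hz' => hdisj z (Finset.mem_insert_of_mem hz) z' (Finset.mem_insert_of_mem hz'))
      (fun z hz => hdec z (Finset.mem_insert_of_mem hz))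
    rw [Finset.sum_insert hz0, ih']
    set S' : Set ι := S \ ⋃ z ∈ c, Qo z with hS'
    have hz0m := Finset.mem_insert_self z0 c
    have hun : S \ ⋃ z ∈ insert z0 c, Qo z = S' \ Qo z0 := by
      rw [hS', Finset.set_biUnion_insert, Set.sdiff_sdiff, Set.union_comm]
    rw [hun]
    -- the sets agree on `Q z0`
    have hag : S ∩ Q z0 ⊆ S' := by
      rintro v ⟨hv, hvQ⟩
      refine ⟨hv, ?_⟩
      rw [Set.mem_iUnion₂]
      rintro ⟨z, hz, hvz⟩
      exact Set.disjoint_left.1 (hdisj z0 hz0m z (Finset.mem_insert_of_mem hz)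
        (fun h => hz0 (h ▸ hz))) hvQ hvz
    have hS'S : S' ⊆ S := Set.sdiff_subset
    have hF0S' : F0 ⊆ S' \ Qo z0 := by
      intro v hv
      refine ⟨⟨hF0 hv, ?_⟩, fun h => Set.disjoint_left.1 (hF0' z0 hz0m) hv h⟩
      rw [Set.mem_iUnion₂]
      rintro ⟨z, hz, hvz⟩
      exact Set.disjoint_left.1 (hF0' z (Finset.mem_insert_of_mem hz)) hv hvz
    obtain ⟨F1, F2, c1, c2, d1, d2, hsum⟩ := hdec z0 hz0m
    have hFe : F = fun s => F1 s + F2 s := funext hsum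
    have hPF : ∀ (A : Set ι) (s : Cf ι n), P G A F s = P G A F1 s + P G A F2 s := by
      intro A s
      rw [hFe]
      exact P_add G c1 c2 s
    have hQo : ∀ v, v ∈ Q z0 \ S → v ∈ Qo z0 := fun v hv => by
      by_contra h
      exact hv.2 (hbd z0 hz0m ⟨hv.1, h⟩)
    have hQo' : ∀ v, v ∈ Q z0 \ (S \ Qo z0) → v ∈ Qo z0 := fun v hv => by
      by_contra h
      exact hv.2 ⟨hbd z0 hz0m ⟨hv.1, h⟩, h⟩
    have hbd' : Q z0 \ Qo z0 ⊆ S' := fun v hv => hag ⟨hbd z0 hz0m hv, hv.1⟩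
    have key : ∀ s : Cf ι n, P G S F s - P G (S \ Qo z0) F s
        = P G S' F s - P G (S' \ Qo z0) F s := by
      intro s
      rw [hPF, hPF, hPF, hPF]
      have e1 : P G S' F1 s = P G S F1 s :=
        P_eq_of_inter G c1 d1 (fun e he => hcl z0 hz0m e (he.imp (hQo _) (hQo _))) hS'S hag s
      have e2 : P G (S' \ Qo z0) F1 s = P G (S \ Qo z0) F1 s :=
        P_eq_of_inter G (S := S \ Qo z0) (S' := S' \ Qo z0) c1 d1
          (fun e he => hcl z0 hz0m e (he.imp (hQo' _) (hQo' _)))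
          (fun v hv => ⟨hS'S hv.1, hv.2⟩) (fun v hv => ⟨hag ⟨hv.1.1, hv.2⟩, hv.1.2⟩) s
      have e3 : P G (S \ Qo z0) F2 s = P G S F2 s := P_eq_diff G (hcl z0 hz0m) (hbd z0 hz0m) c2 d2 s
      have e4 : P G (S' \ Qo z0) F2 s = P G S' F2 s := P_eq_diff G (hcl z0 hz0m) hbd' c2 d2 s
      linarith
    have hfun : (fun s : Cf ι n => (P G S F s - P G (S \ Qo z0) F s) ^ 2)
        = fun s => (P G S' F s - P G (S' \ Qo z0) F s) ^ 2 := by
      funext s; rw [key s]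
    rw [hfun, P_pyth G hF0S' Set.sdiff_subset hF τ]
    ring

end Crest.Agent.R167
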